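import Crest.Agent.X212.Wz78.Sd
import Crest.Agent.X212.Std94.Pt

/-!
# Row 212, ABEL (helper74): reductions, points of type S, pointwise algebra
-/

set_option autoImplicit false
set_option linter.unusedSectionVars false
noncomputable section
open scoped Manifold ContDiff Topology InnerProductSpace
open Finset

namespace Crest.Agent.X212.Abel74
open An Wz78

variable {E : Type} [NormedAddCommGroup E] [NormedSpace ℝ E] [FiniteDimensional ℝ E]
  [MeasurableSpace E] [BorelSpace E]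
  {HM : Type} [TopologicalSpace HM] {I : ModelWithCorners ℝ E HM}
  {M : Type} [TopologicalSpace M] [ChartedSpace HM M] [IsManifold I ∞ M]
  [MeasurableSpace M] {ι : Type} [Fintype ι] {lam : Type} [Fintype lam]

/-- a reduction: a parallel unit section of `g` -/
structure Red (F : Fr I M ι) (m : Md M ι lam) (W : m.Cn) (ξ : M → m.A) : Prop where
  sm : Sm I ξ
  mem : ∀ x, ξ x ∈ m.gS x
  sq : ∀ x, opL (ξ x) * opL (ξ x) = -m.p x
  par : ∀ a x, nab I F.e (m.adW W) a ξ x = 0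

/-- a point of type S: the spinor lies in the half where `ξ = J` -/
structure SPt {r : ℕ} (F : Fr I M ι) (c : Cfg M ι lam r) (ξ : M → c.m.A) : Prop
    extends Red F c.m c.W ξ where
  Φ : ∀ x, opL (ξ x) (c.Φ x) = c.m.J (c.Φ x)

/-- the real curvature form of a reduction -/
def fF (F : Fr I M ι) (m : Md M ι lam) (W : m.Cn) (ξ : M → m.A) (a b : ι) (x : M) : ℝ :=
  ⟪m.Fg F W x (a, b), ξ x⟫_ℝ / 16

/-- the projector onto the half where `ξ = J` -/
def hf (m : Md M ι lam) (x : M) (ξ : m.A) : En (Fin m.N) := (1 / 2 : ℝ) • (m.p x - m.J * opL ξ)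

variable {m : Md M ι lam} {B : Base M ι lam} {x : M} {ξ η : m.A}

theorem pm_of (H : m.OK I B) (x : M) : Std94.PM (fun a b => B.P a b x) (B.l x) B.il (m.p x) m.J
    (fun a => m.ρ a x) (m.j x) :=
  ⟨H.Jsq, H.Jsk, H.psym x, H.pidem x, H.prk x, H.Jp x, H.cl x, fun a => H.ρsk a x,
    fun a => H.Jρ a x, H.jsym x, H.jJ x, H.jil x, H.jl x, H.jsq x, H.pj x, fun a s => H.jρ a x s⟩

theorem exists_lf (hB : B.OK I) (x : M) : ∃ s, Std94.LF (B.l x) B.il s :=
  Std94.PL.exists_lf ⟨hB.lsym x, hB.lidem x, hB.lrk x, hB.ilsq, hB.ilsk, hB.ill x⟩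

theorem tr_p (H : m.OK I B) (x : M) : trE (m.p x) = 16 := (trE_eq _).trans (H.prk x)

variable (hB : B.OK I) (H : m.OK I B)
include hB H

/-- the symmetric commutant consists of scalars -/
theorem sym_scalar {s : Eu lam} (hs : Std94.LF (B.l x) B.il s) {T : En (Fin m.N)} (h1 : Sym T)
    (h2 : m.p x * T = T) (h3 : m.J * T = T * m.J) (h4 : ∀ a, m.ρ a x * T = T * m.ρ a x)
    (h5 : m.j x s * T = T * m.j x s) : T = (trE T / 16) • m.p x := by
  obtain ⟨U, hU⟩ := Std94.exists_ON (hB.pr x) (hB.rk x)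
  have P := pm_of H x
  obtain ⟨u, hu⟩ := P.exists_frm hU hs
  have h2' : T * m.p x = T := by
    have := congrArg trn h2
    rwa [trn_mul, Sym.trn h1, Sym.trn (H.psym x)] at this
  have ap : ∀ {S T : En (Fin m.N)}, S = T → ∀ v, S v = T v := fun e v => by rw [e]
  obtain ⟨c, rfl⟩ := (hu.it4_iff (P.q4 hU hs) hu T).1 ⟨ap h2, ap h2', fun a y => by
    simp only [Std94.fr_apply, map_sum, map_smul]
    exact sum_congr rfl fun b _ => congrArg _ (ap (h4 b) y).symm,
    fun y => (ap h3 y).symm, fun y => (ap h5 y).symm⟩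
  rw [(Std94.symm_Xi_iff u c).1 h1, hu.Xi_coe (P.q4 hU hs), map_smul, tr_p H]
  congr 1
  simp

theorem g_anti (hξ : ξ ∈ m.gS x) (hη : η ∈ m.gS x) :
    opL ξ * opL η + opL η * opL ξ = (-⟪ξ, η⟫_ℝ / 8) • m.p x := by
  obtain ⟨s, hs⟩ := exists_lf hB x
  have c : ∀ T : En (Fin m.N), T * opL ξ = opL ξ * T → T * opL η = opL η * T →
      T * (opL ξ * opL η + opL η * opL ξ) = (opL ξ * opL η + opL η * opL ξ) * T := fun T h1 h2 =>
    ((Commute.mul_right h1 h2).add_right (Commute.mul_right h2 h1)).eq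
  rw [sym_scalar hB H hs (T := opL ξ * opL η + opL η * opL ξ) (fun v w => ?_) ?_
    (c _ (g_J hξ) (g_J hη)) (fun a => c _ (g_ρ hξ a) (g_ρ hη a)) (c _ (g_j hξ s) (g_j hη s))]
  · rw [map_add, trE_comm (opL η), ← hsL_opL η, inner_skw (g_skw hξ), opL_hsL]
    congr 1
    ring
  · rw [mul_add, ← mul_assoc, ← mul_assoc, g_p hξ, g_p hη]
  · simp only [add_apply, mul_apply_eq_comp, inner_add_left, inner_add_right, g_skw hξ _,
      g_skw hη _, neg_neg]
    exact add_comm _ _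

theorem g_sq (hξ : ξ ∈ m.gS x) : opL ξ * opL ξ = (-‖ξ‖ ^ 2 / 16) • m.p x := by
  refine smul_right_injective _ (two_ne_zero (α := ℝ)) ?_
  simp only [two_smul ℝ (opL ξ * opL ξ), g_anti hB H hξ hξ, smul_smul, real_inner_self_eq_norm_sq]
  congr 1
  ring

omit hB in
theorem norm_sq (hξ : ξ ∈ m.gS x) (h : opL ξ * opL ξ = -m.p x) : ‖ξ‖ ^ 2 = 16 := by
  rw [← real_inner_self_eq_norm_sq]
  nth_rewrite 2 [← hsL_opL ξ]
  rw [inner_skw (g_skw hξ), h, map_neg, neg_neg, tr_p H]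

theorem sq_of_norm (hξ : ξ ∈ m.gS x) (h : ‖ξ‖ ^ 2 = 16) : opL ξ * opL ξ = -m.p x := by
  rw [g_sq hB H hξ, h]; norm_num

/-- the centraliser of a unit element of `g` -/
theorem eq_of_comm (hξ : ξ ∈ m.gS x) (h : opL ξ * opL ξ = -m.p x) (hη : η ∈ m.gS x)
    (hc : opL ξ * opL η = opL η * opL ξ) : η = (⟪η, ξ⟫_ℝ / 16) • ξ := by
  have e := congrArg (opL ξ * ·) (g_anti hB H hξ hη)
  simp only [← hc, mul_add, ← mul_assoc, h, neg_mul, g_p hη, mul_smul_comm, g_p' H hξ] at e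
  refine opL_inj (smul_right_injective _ (show (-2 : ℝ) ≠ 0 by norm_num) ?_)
  simp only [map_smul, smul_smul]
  rw [neg_smul, two_smul, neg_add, e, real_inner_comm]
  congr 1
  ring

/-- an isotropic invariant projector is a half -/
theorem half {π : En (Fin m.N)} (h1 : Sym π) (h2 : π * π = π) (h3 : m.p x * π = π)
    (h4 : m.J * π = π * m.J) (h5 : ∀ a, m.ρ a x * π = π * m.ρ a x)
    (h6 : ∀ s, π * m.j x s * π = 0) (h0 : π ≠ 0) (s : Eu lam) :
    m.j x s * π + π * m.j x s = m.j x s := by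
  obtain ⟨t, ht⟩ := exists_lf hB x
  have kk : m.j x t * m.j x t = m.p x := by rw [H.jsq, ht.ls, ht.n1, one_pow, one_smul]
  have h3' : π * m.p x = π := by
    have := congrArg trn h3
    rwa [trn_mul, Sym.trn h1, Sym.trn (H.psym x)] at this
  have kJ : m.J * m.j x t = -(m.j x t * m.J) := by rw [H.jJ, neg_neg]
  have e := sym_scalar hB H ht (T := π + m.j x t * π * m.j x t) (fun v w => by
      simp only [add_apply, mul_apply_eq_comp, inner_add_left, inner_add_right, h1 _, H.jsym x t _])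
    (by rw [mul_add, ← mul_assoc, ← mul_assoc, H.pj, h3])
    (by rw [mul_add, add_mul, h4, ← mul_assoc, ← mul_assoc, kJ, neg_mul, mul_assoc _ m.J, h4,
      neg_mul, mul_assoc, mul_assoc, kJ]; simp only [mul_neg, neg_neg, mul_assoc])
    (fun a => by rw [mul_add, add_mul, h5, ← mul_assoc, ← mul_assoc, ← H.jρ, mul_assoc _ (m.ρ a x),
      h5, mul_assoc, mul_assoc, ← H.jρ]; simp only [mul_assoc])
    (by rw [mul_add, add_mul, ← mul_assoc, ← mul_assoc, kk, h3, mul_assoc (_ * π), kk, mul_assoc,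
      h3', add_comm])
  set c := trE (π + m.j x t * π * m.j x t) / 16
  have e2 := congrArg (π * ·) e
  simp only [mul_add, ← mul_assoc, h2, h6, zero_mul, add_zero, mul_smul_comm, h3'] at e2
  have c1 : c = 1 := by
    have : (1 - c) • π = 0 := by rw [sub_smul, one_smul, ← e2, sub_self]
    exact (sub_eq_zero.1 ((smul_eq_zero.1 this).resolve_right h0)).symm
  have e3 := congrArg (· * m.j x t) e
  simp only [c1, one_smul, add_mul, mul_assoc, kk, h3', H.pj] at e3
  rw [add_comm] at e3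
  have e4 : m.J * m.j x t * π + π * (m.J * m.j x t) = m.J * m.j x t := by
    rw [← mul_assoc, ← h4, mul_assoc, mul_assoc, ← mul_add, e3]
  rw [(pm_of H x).j_eq ht s]
  simp only [add_mul, mul_add, smul_mul_assoc, mul_smul_comm]
  rw [add_add_add_comm, ← smul_add, ← smul_add, e3, e4]

omit hB in
theorem mem_of_half {π : En (Fin m.N)} (h1 : Sym π) (h3 : m.p x * π = π)
    (h4 : m.J * π = π * m.J) (h5 : ∀ a, m.ρ a x * π = π * m.ρ a x)
    (h6 : ∀ s, m.j x s * π + π * m.j x s = m.j x s) :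
    hsL (m.J * ((2 : ℝ) • π - m.p x)) ∈ m.gS x := by
  have c : m.J * ((2 : ℝ) • π - m.p x) = ((2 : ℝ) • π - m.p x) * m.J := by
    simp only [mul_sub, sub_mul, mul_smul_comm, smul_mul_assoc, h4, H.Jp]
  refine mem_g (fun v w => ?_) ?_ (by rw [mul_assoc, ← c]) (fun a => ?_) fun s => ?_
  · conv_rhs => rw [c]
    simp only [mul_apply_eq_comp, H.Jsk _, sub_apply, smul_apply, inner_sub_left, inner_sub_right,
      real_inner_smul_left, real_inner_smul_right, h1 _, H.psym x _]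
  · rw [← mul_assoc, ← H.Jp, mul_assoc, mul_sub, mul_smul_comm, h3, H.pidem]
  · rw [← mul_assoc, ← H.Jρ, mul_assoc, mul_assoc]
    simp only [mul_sub, sub_mul, mul_smul_comm, smul_mul_assoc, h5, (H.cl x).pl, (H.cl x).pr]
  · rw [← mul_assoc, H.jJ, neg_mul, mul_assoc, mul_assoc, ← mul_neg]
    congr 1
    simp only [mul_sub, sub_mul, mul_smul_comm, smul_mul_assoc, j_p H, H.pj,
      eq_sub_of_add_eq (h6 s)]
    module

omit hB in
theorem sq_of_half {π : En (Fin m.N)} (h2 : π * π = π) (h3 : m.p x * π = π) (h3' : π * m.p x = π)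
    (h4 : m.J * π = π * m.J) :
    m.J * ((2 : ℝ) • π - m.p x) * (m.J * ((2 : ℝ) • π - m.p x)) = -m.p x := by
  have c : ((2 : ℝ) • π - m.p x) * m.J = m.J * ((2 : ℝ) • π - m.p x) := by
    simp only [mul_sub, sub_mul, mul_smul_comm, smul_mul_assoc, h4, H.Jp]
  rw [mul_assoc, ← mul_assoc _ m.J, c, ← mul_assoc, ← mul_assoc, H.Jsq]
  simp only [mul_sub, sub_mul, mul_smul_comm, smul_mul_assoc, neg_mul, one_mul, h2, h3, h3',
    H.pidem]
  module

omit hB in
theorem pg_adJ (ζ : m.A) : m.pg x (adc m.J ζ) = 0 := by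
  have h : ∀ η ∈ m.gS x, adc m.J η = 0 := fun η hη => by rw [adc_apply, g_J hη, sub_self, map_zero]
  rw [pg_comm (adc_skw H.Jsk) (fun η hη => by rw [h η hη]; exact zero_mem _), h _ (pg_mem x ζ)]

/-- the projection of an endomorphism which commutes with `ξ` up to `J` -/
theorem pg_eq (hξ : ξ ∈ m.gS x) (h : opL ξ * opL ξ = -m.p x) {ζ ζ' : m.A}
    (hc : adc (opL ξ) ζ = adc m.J ζ') : m.pg x ζ = (⟪ζ, ξ⟫_ℝ / 16) • ξ := by
  have e := congrArg opL (pg_adc hξ ζ)
  rw [hc, pg_adJ H, map_zero, opL_adc, eq_comm, sub_eq_zero] at e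
  rw [eq_of_comm hB H hξ h (pg_mem x ζ) e, inner_pg, pg_of_mem hξ]

/-- the quadratic map on the half -/
theorem q_eq (hξ : ξ ∈ m.gS x) (h : opL ξ * opL ξ = -m.p x) {u v : m.V} (hu : opL ξ u = m.J u)
    (hv : opL ξ v = m.J v) : m.q x u v = (⟪m.J v, u⟫_ℝ / 16) • ξ := by
  rw [Md.q, pg_eq hB H hξ h (ζ' := hsL (rk1 u v)), real_inner_comm, inner_rk1, hv]
  refine opL_inj (ContinuousLinearMap.ext fun w => ?_)
  have e1 : ⟪v, opL ξ w⟫_ℝ = ⟪v, m.J w⟫_ℝ := by
    rw [← neg_inj, ← g_skw hξ, ← H.Jsk, hv]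
  simp only [opL_adc, opL_hsL, sub_apply, mul_apply_eq_comp, rk1_apply, map_smul, hu, e1]

omit hB H in
theorem p2_smul (hξ : ξ ∈ m.gS x) (θ : ι × ι → ℝ) :
    m.p2 B x (WithLp.toLp 2 fun s => θ s • ξ) =
      WithLp.toLp 2 fun s => (∑ t, B.sd x s t * θ t) • ξ := by
  ext1 s
  simp only [Md.p2, idx_apply, map_smul, pg_of_mem hξ, smul_smul, sum_smul]

section hf
omit hB
variable (hξ : ξ ∈ m.gS x)
include hξ

theorem hf_comm {T : En (Fin m.N)} (h1 : T * m.p x = m.p x * T) (h2 : T * m.J = m.J * T)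
    (h3 : T * opL ξ = opL ξ * T) : T * hf m x ξ = hf m x ξ * T := by
  simp only [hf, mul_smul_comm, smul_mul_assoc, mul_sub, sub_mul, h1, ← mul_assoc, h2]
  simp only [mul_assoc, h3]

theorem hf_sym : Sym (hf m x ξ) := fun v w => by
  have e : m.J (opL ξ w) = opL ξ (m.J w) := congrArg (· w) (g_J hξ)
  simp only [hf, smul_apply, sub_apply, mul_apply_eq_comp, real_inner_smul_left,
    real_inner_smul_right, inner_sub_left, inner_sub_right, H.psym x v, H.Jsk (opL ξ v),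
    g_skw hξ v, neg_neg, e]

theorem J_hf : m.J * hf m x ξ = hf m x ξ * m.J := hf_comm H hξ (H.Jp x) rfl (g_J hξ)

theorem rho_hf (a : ι) : m.ρ a x * hf m x ξ = hf m x ξ * m.ρ a x :=
  hf_comm H hξ (by rw [(H.cl x).pl, (H.cl x).pr]) (H.Jρ a x).symm (g_ρ hξ a)

theorem p_hf : m.p x * hf m x ξ = hf m x ξ := by
  rw [hf, mul_smul_comm, mul_sub, H.pidem, ← mul_assoc, ← H.Jp, mul_assoc, g_p hξ]

theorem j_hf (s : Eu lam) : m.j x s * hf m x ξ + hf m x ξ * m.j x s = m.j x s := by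
  simp only [hf, mul_smul_comm, smul_mul_assoc, mul_sub, sub_mul, j_p H, H.pj, ← mul_assoc, H.jJ,
    neg_mul]
  simp only [mul_assoc, g_j hξ]
  module

variable (h : opL ξ * opL ξ = -m.p x)
include h

theorem xi_hf : opL ξ * hf m x ξ = m.J * hf m x ξ := by
  simp only [hf, mul_smul_comm, mul_sub, g_p' H hξ, ← mul_assoc, ← g_J hξ, H.Jsq]
  rw [mul_assoc, h, mul_neg, neg_mul, one_mul, sub_neg_eq_add, sub_neg_eq_add, add_comm]

omit h in
theorem hf_fix {v : m.V} (hp : m.p x v = v) (hv : opL ξ v = m.J v) : hf m x ξ v = v := by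
  have e : m.J (m.J v) = -v := congrArg (· v) H.Jsq
  simp only [hf, smul_apply, sub_apply, mul_apply_eq_comp, hp, hv, e]
  module

theorem xi_of_hf {v : m.V} (hv : hf m x ξ v = v) : opL ξ v = m.J v := by
  have := congrArg (· v) (xi_hf H hξ h)
  simpa only [mul_apply_eq_comp, hv] using this

theorem hf_hf : hf m x ξ * hf m x ξ = hf m x ξ :=
  ContinuousLinearMap.ext fun v => hf_fix H hξ (congrArg (· v) (p_hf H hξ))
    (congrArg (· v) (xi_hf H hξ h))

theorem hf_j_hf (s : Eu lam) : hf m x ξ * m.j x s * hf m x ξ = 0 := by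
  have e := congrArg (· * hf m x ξ) (j_hf H hξ s)
  simp only [add_mul, mul_assoc, hf_hf H hξ h] at e
  rwa [add_eq_left, ← mul_assoc] at e

end hf

end Crest.Agent.X212.Abel74
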