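import Crest.Agent.X212.Abel74.Red
import Crest.Agent.X212.Num57.Hs

/-!
# Row 212, ABEL (helper74): the curvature of a reduction as a closed form; its class
-/

set_option autoImplicit false
set_option linter.unusedSectionVars false
noncomputable section
open scoped Manifold ContDiff Topology InnerProductSpace
open Finset Filter MeasureTheory Module
open Crest.Agent.R208 Crest.Agent.R208.F Crest.Agent.R208.FI

namespace Crest.Agent.X212.Abel74
open An Wz78 Dr59 Int54 Num57

variable {E : Type} [NormedAddCommGroup E] [NormedSpace ℝ E] [FiniteDimensional ℝ E]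
  [MeasurableSpace E] [BorelSpace E]
  {HM : Type} [TopologicalSpace HM] {I : ModelWithCorners ℝ E HM} [I.Boundaryless]
  {M : Type} [TopologicalSpace M] [ChartedSpace HM M] [IsManifold I ∞ M]
  [MeasurableSpace M] [BorelSpace M] [SecondCountableTopology M] {ι : Type} [Fintype ι]
  {lam : Type} [Fintype lam]

/-- the curvature two-form of a reduction -/
def fm (F : Fr I M ι) (m : Md M ι lam) (W : m.Cn) (ξ : M → m.A) : M → Ext E := fm2 F (fF F m W ξ)

variable {m : Md M ι lam} {B : Base M ι lam} {G G' : Geo I M ι lam} {F : Fr I M ι} {W W' : m.Cn}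
  {ξ : M → m.A} {o : ι → ι → ι → ι → M → ℝ}

theorem h4_of [Nonempty M] (hB : B.OK I) (hG : G.OK B) : finrank ℝ E = 4 := by
  obtain ⟨x⟩ := ‹Nonempty M›
  have := fr_rk G.F x
  rw [hG.P, hB.rk] at this
  exact_mod_cast this.symm

theorem dg_fm : Dg 2 Set.univ (fm F m W ξ) := fun x _ => deg_fm2 F _ x

theorem k2_fm (hG : G.OK B) (C : m.IsConn B G W) (a b : ι) (x : M) :
    k2 G.F (fm G.F m W ξ) a b x = fF G.F m W ξ a b x :=
  k2_fm2 G.F (fun a b => fF_swap hG C b a x) (fun a b => by rw [hG.P]; exact fF_proj hG C a b x) a b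

theorem fm_neg : fm F m W (fun x => -ξ x) = -fm F m W ξ := by
  funext x
  simp only [fm, fm2_apply, fF_neg, mul_neg, neg_smul, sum_neg_distrib, Pi.neg_apply]

/-- wedge products in components -/
theorem integ_mul (h : OK F o) {u : M → Ext E} (hu : Dg 2 Set.univ u) (v : M → Ext E) :
    integ I (vol F o) (u * v) =
      1 / 4 * ∫ x, ∑ a, ∑ b, ∑ c, ∑ d, o a b c d x * (k2 F u a b x * k2 F v c d x) ∂F.μ := by
  rw [h.integ_eq, ← integral_const_mul]
  exact congrArg _ (funext fun x => rat_vol_mul F h.h4 (h.vo' x) (hu x trivial) v)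

/-- scalar products are wedge products with the dual form -/
theorem integ_st (h : OK F o) {u : M → Ext E} (hu : Dg 2 Set.univ u) (v : M → Ext E) :
    integ I (vol F o) (u * st F o v) = 1 / 2 * ∫ x, Num57.pp F u v x ∂F.μ := by
  rw [integ_mul h hu, ← integral_const_mul, ← integral_const_mul]
  refine congrArg _ (funext fun x => ?_)
  have e : ∀ a b, ∑ c, ∑ d, o a b c d x * (k2 F u a b x * k2 F (st F o v) c d x) =
      k2 F u a b x * (2 * k2 F v a b x) := fun a b => by
    rw [← h.o_st, mul_sum]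
    exact sum_congr rfl fun c _ => by rw [mul_sum]; exact sum_congr rfl fun d _ => by ring
  simp only [e, Num57.pp, mul_sum]
  exact sum_congr rfl fun a _ => sum_congr rfl fun b _ => by ring

theorem fF_tr {x : M} (h : ξ x ∈ m.gS x) (a b : ι) :
    fF F m W ξ a b x = -(1 / 16) * tr (opL (ξ x) * curv I F.e F.c W a b x) := by
  rw [fF, Md.Fg, inner_pg, pg_of_mem h, real_inner_comm, inner_skw (g_skw h), trE_eq, tr]
  ring

namespace Red
variable (R : Red G.F m W ξ) (hG : G.OK B) (C : m.IsConn B G W)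
include R hG C

theorem fm_eq : fm G.F m W ξ =
    (-(1 / 16) : ℝ) • c1 I (Num57.cn G.F W) (f0 E fun x => opL (ξ x)) :=
  ext_k2 G.F dg_fm (Dg.smul _ fun x _ => deg_c1 G.F _ _ x) fun a b x => by
    rw [k2_fm hG C, k2_smul, k2_c1 G.F (fun a => C.cc.sm a x)
      (.of_forall fun y a => by rw [hG.P]; exact C.cc.proj a y), fF_tr (R.mem x)]

theorem pa : Pa I Set.univ (Num57.cn G.F W) (f0 E fun x => opL (ξ x)) :=
  pa_cn G.F (fun x _ a => by rw [hG.P]; exact C.cc.proj a x) (fun x _ => R.sm_opL x)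
    fun x _ a => R.nE a x

omit R hG in
theorem co : Num57.Co I Set.univ (Num57.cn G.F W) := cn_co G.F fun a x _ => C.cc.sm a x

/-- **the curvature form is closed** -/
theorem cl_fm : Cl I 2 Set.univ (fm G.F m W ξ) := by
  rw [R.fm_eq hG C]
  exact Cl.smul _ ⟨fun x hx => (co C).sm.c1 (R.pa hG C).sm hx, fun x _ => deg_c1 G.F _ _ x,
    fun x hx => Num57.c1_closed isOpen_univ (co C) (R.pa hG C) hx⟩

/-- the class depends only on `ξ` -/
theorem ex_sub (R' : Red G'.F m W' ξ) (hG' : G'.OK B) (C' : m.IsConn B G' W') :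
    Ex I Set.univ (fm G'.F m W' ξ - fm G.F m W ξ) := by
  rw [R.fm_eq hG C, R'.fm_eq hG' C', ← smul_sub]
  exact Ex.smul _ ⟨_, fun x hx => (co C).sm.tg1 (co C').sm (R.pa hG C).sm hx, fun x hx => by
    rw [Pi.sub_apply, Num57.c1_sub isOpen_univ (co C) (co C') (R.pa hG C) (R'.pa hG' C') hx,
      add_sub_cancel_left]⟩

variable (hB : B.OK I) (h4 : finrank ℝ E = 4)
include hB h4

omit R in
theorem integ_fm (v : M → Ext E) : integ I (vol G.F B.o) (fm G.F m W ξ * v) = 1 / 4 *
    ∫ x, ∑ a, ∑ b, ∑ c, ∑ d, B.o a b c d x * (fF G.F m W ξ a b x * k2 G.F v c d x) ∂G.F.μ := by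
  simp only [integ_mul (OK.of_base h4 hB hG) dg_fm, k2_fm hG C]

omit R in
theorem integ_fm_st (v : M → Ext E) : integ I (vol G.F B.o) (fm G.F m W ξ * st G.F B.o v) =
    1 / 2 * ∫ x, ∑ a, ∑ b, fF G.F m W ξ a b x * k2 G.F v a b x ∂G.F.μ := by
  simp only [integ_st (OK.of_base h4 hB hG) dg_fm, Num57.pp, k2_fm hG C]

/-- **the level is minus the square of the class** -/
theorem kap_eq (H : m.OK I B) : m.kap B G.F W =
    -(4 * Real.pi ^ 2)⁻¹ * integ I (vol G.F B.o) (fm G.F m W ξ * fm G.F m W ξ) := by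
  rw [integ_fm hG C hB h4, Md.kap, ← integral_const_mul, ← integral_const_mul]
  refine congrArg _ (funext fun x => ?_)
  simp only [R.kd_eq hB hG H C, k2_fm hG C]
  field_simp
  ring

theorem kap_Q [T2Space M] [CompactSpace M] (H : m.OK I B) : m.kap B G.F W =
    -(4 * Real.pi ^ 2)⁻¹ * Q (OK.of_base h4 hB hG).ori (R.cl_fm hG C).cls (R.cl_fm hG C).cls :=
  R.kap_eq hG C hB h4 H

end Red

/-- classes with the same pairings with a spanning family have the same square -/
theorem sq_eq_of_pair {V κ : Type*} [AddCommGroup V] [Module ℝ V] (Q : V →ₗ[ℝ] V →ₗ[ℝ] ℝ)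
    (hQ : ∀ x y, Q x y = Q y x) {b : κ → V} (hb : Submodule.span ℝ (Set.range b) = ⊤) {x y : V}
    (h : ∀ q, Q x (b q) = Q y (b q)) : Q x = Q y ∧ Q x x = Q y y := by
  have e : Q x = Q y := LinearMap.ext_on hb (by rintro _ ⟨q, rfl⟩; exact h q)
  exact ⟨e, by rw [e, hQ, e]⟩

end Crest.Agent.X212.Abel74
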