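import Crest.Agent.X212.Abel74.Form
import Crest.Agent.X212.Eqv71.Cfg

/-!
# Row 212, ABEL (helper74): transport of reductions along equivalences
-/

set_option autoImplicit false
set_option linter.unusedSectionVars false
noncomputable section
open scoped Manifold ContDiff Topology InnerProductSpace
open Finset Filter

namespace Crest.Agent.X212.Abel74
open An Wz78 Eqv71

variable {E : Type} [NormedAddCommGroup E] [NormedSpace ℝ E] [FiniteDimensional ℝ E]
  [MeasurableSpace E] [BorelSpace E]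
  {HM : Type} [TopologicalSpace HM] {I : ModelWithCorners ℝ E HM}
  {M : Type} [TopologicalSpace M] [ChartedSpace HM M] [IsManifold I ∞ M]
  [MeasurableSpace M] {ι : Type} [Fintype ι] {lam : Type} [Fintype lam]
  {E' : Type} [NormedAddCommGroup E'] [NormedSpace ℝ E'] [FiniteDimensional ℝ E']
  [MeasurableSpace E'] [BorelSpace E']
  {HM' : Type} [TopologicalSpace HM'] {I' : ModelWithCorners ℝ E' HM'}
  {M' : Type} [TopologicalSpace M'] [ChartedSpace HM' M'] [IsManifold I' ∞ M']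
  [MeasurableSpace M'] {ι' : Type} [Fintype ι'] {lam' : Type} [Fintype lam']

/-- a reduction over a set -/
structure RedOn (F : Fr I M ι) (m : Md M ι lam) (W : m.Cn) (O : Set M) (ξ : M → m.A) : Prop where
  sm : ∀ x ∈ O, SA I ξ x
  mem : ∀ x ∈ O, ξ x ∈ m.gS x
  sq : ∀ x ∈ O, opL (ξ x) * opL (ξ x) = -m.p x
  par : ∀ x ∈ O, ∀ a, nab I F.e (m.adW W) a ξ x = 0

variable {m : Md M ι lam} {m' : Md M' ι' lam'} {B : Base M ι lam} {B' : Base M' ι' lam'}
  {G : Geo I M ι lam} {G' : Geo I' M' ι' lam'} {F : Fr I M ι} {W : m.Cn} {W' : m'.Cn}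
  {ξ : M → m.A} {ξ' : M' → m'.A} {O : Set M} {x : M}

theorem Red.on (R : Red F m W ξ) (O : Set M) : RedOn F m W O ξ :=
  ⟨fun x _ => R.sm x, fun x _ => R.mem x, fun x _ => R.sq x, fun x _ a => R.par a x⟩

theorem RedOn.red (R : RedOn F m W Set.univ ξ) : Red F m W ξ :=
  ⟨fun x => R.sm x trivial, fun x => R.mem x trivial, fun x => R.sq x trivial,
    fun a x => R.par x trivial a⟩

theorem RedOn.mono (R : RedOn F m W O ξ) {O' : Set M} (h : O' ⊆ O) : RedOn F m W O' ξ :=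
  ⟨fun x hx => R.sm x (h hx), fun x hx => R.mem x (h hx), fun x hx => R.sq x (h hx),
    fun x hx => R.par x (h hx)⟩

section pt
variable {x' : M'} {U : ι' → ι → ℝ} {v : CL (Eu lam) (Eu lam')} {u : CL m.V m'.V} {η : m.A}
  (e : ME m x m' x' U v u) (hη : η ∈ m.gS x)
include e hη

theorem me_app (H : m.OK I B) (a : m.V) : opL (cj u η) (u a) = u (opL η a) := by
  have h1 : trn u (u a) = m.p x a := congrArg (fun T : En _ => T a) e.uu
  have h2 : opL η (m.p x a) = opL η a := congrArg (fun T : En _ => T a) (g_p' H hη)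
  simp only [opL_cj, ContinuousLinearMap.comp_apply, h1, h2]

theorem me_sq (H : m.OK I B) (h : opL η * opL η = -m.p x) :
    opL (cj u η) * opL (cj u η) = -m'.p x' := by
  ext1 w
  have h1 : ∀ a, opL η (opL η a) = -m.p x a := fun a => congrArg (fun T : En _ => T a) h
  have h2 : ∀ a, u (m.p x a) = u a := fun a => congrArg (fun T : CL m.V m'.V => T a) (e.up H)
  have h3 : u (trn u w) = m'.p x' w := congrArg (fun T : En _ => T w) e.uu'
  rw [mul_apply_eq_comp]
  nth_rewrite 2 [opL_cj]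
  simp only [ContinuousLinearMap.comp_apply, me_app e hη H, h1, map_neg, h2, h3, neg_apply]

end pt

variable {φ : M → M'} {U : M → ι' → ι → ℝ} {v : M → CL (Eu lam) (Eu lam')} {u : M → CL m.V m'.V}

theorem fF_rel (h : LM B G B' G' O φ U v W W' u) (hx : x ∈ O) (hm : ξ x ∈ m.gS x)
    (hr : ξ' (φ x) = cj (u x) (ξ x)) (a b : ι') : fF G'.F m' W' ξ' a b (φ x) =
      ∑ s : ι × ι, U x a s.1 * U x b s.2 * fF G.F m W ξ s.1 s.2 x := by
  simp only [fF, h.Fg hx, hr, ridx_apply, sum_inner, real_inner_smul_left,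
    (h.me x hx).inner_cj _ hm, sum_div, sq2, mul_div_assoc]

/-- transport of a reduction -/
theorem RedOn.rel (R : RedOn G.F m W O ξ) (h : LM B G B' G' O φ U v W W' u)
    (hs : ∀ x ∈ O, SA I' ξ' (φ x)) (hr : ∀ x ∈ O, ξ' (φ x) = cj (u x) (ξ x)) :
    RedOn G'.F m' W' (φ '' O) ξ' := by
  refine ⟨?_, ?_, ?_, ?_⟩ <;> rintro _ ⟨x, hx, rfl⟩
  · exact hs x hx
  · rw [hr x hx]; exact (h.me x hx).cj_mem (h.be x hx) h.ok h.ok' (R.mem x hx)
  · rw [hr x hx]; exact me_sq (h.me x hx) (R.mem x hx) h.ok (R.sq x hx)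
  · intro b
    rw [h.toLG.nab hx (Eqv71.con_adW h.cn') (sa_cj (h.su x hx)) (h.itw_ad hx) (R.sm x hx) (hs x hx)
      ((h.rot.ev hx).mono hr)]
    simp only [R.par x hx, map_zero, smul_zero, sum_const_zero]

section same
variable {m' : Md M ι lam} {W' : m'.Cn} {u : M → CL m.V m'.V} {v : M → En lam}
  (h : LM B G B G O id (fun x b a => B.P b a x) v W W' u)
include h

theorem RedOn.iso (R : RedOn G.F m W O ξ) : RedOn G.F m' W' O fun x => cj (u x) (ξ x) := by
  simpa only [Set.image_id] using R.rel (ξ' := fun x => cj (u x) (ξ x)) h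
    (fun x hx => SA.app (sa_cj (h.su x hx)) (R.sm x hx)) fun _ _ => rfl

theorem fF_iso (hx : x ∈ O) (hm : ξ x ∈ m.gS x) (a b : ι) :
    fF G.F m' W' (fun x => cj (u x) (ξ x)) a b x = fF G.F m W ξ a b x := by
  refine (fF_rel (ξ' := fun x => cj (u x) (ξ x)) h hx hm rfl a b).trans ?_
  have e : ∀ k, ∑ l, B.P b l x * fF G.F m W ξ k l x = fF G.F m W ξ k b x := fun k => by
    simp only [fF_swap h.hG h.cn k, mul_neg, sum_neg_distrib, fF_proj h.hG h.cn]
  simp only [Fintype.sum_prod_type, mul_assoc, ← mul_sum, e, fF_proj h.hG h.cn]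

end same

variable {r : ℕ} {c : Cfg M ι lam r} {ξ : M → c.m.A} {ζ : Circle}

theorem ceq_half {c' : Cfg M' ι' lam' r} {u : M → CL c.m.V c'.m.V}
    (e : CEq F c c' O φ U v u ζ) (H : c.m.OK I B) (hx : x ∈ O) (hm : ξ x ∈ c.m.gS x)
    (h : opL (ξ x) (c.Φ x) = c.m.J (c.Φ x)) :
    opL (cj (u x) (ξ x)) (c'.Φ (φ x)) = c'.m.J (c'.Φ (φ x)) := by
  have k := me_of_meq e.m hx
  have h1 : ∀ a, opL (ξ x) (c.m.J a) = c.m.J (opL (ξ x) a) := fun a =>
    (congrArg (fun T : En _ => T a) (g_J hm)).symm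
  rw [e.Φ x hx, k.cs, me_app k hm H, k.J_apply]
  simp only [cs, map_add, map_smul, h1, h]

variable {c' : Cfg M ι lam r} {u : M → CL c.m.V c'.m.V} (hB : B.OK I) (hG : G.OK B)
  (A : Ad0 c B G) (A' : Ad0 c' B G)
include hB hG A A'

section
variable (e : CEq G.F c c' Set.univ id (fun x b a => B.P b a x) B.l u ζ)
include e

theorem Red.ceq (R : Red G.F c.m c.W ξ) : Red G.F c'.m c'.W fun x => cj (u x) (ξ x) :=
  ((R.on _).iso ((lg_refl hB hG isOpen_univ).of_ceq A A' e)).red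

theorem SPt.ceq (S : SPt G.F c ξ) : SPt G.F c' fun x => cj (u x) (ξ x) :=
  ⟨S.toRed.ceq hB hG A A' e, fun x =>
    ceq_half (x := x) (φ := id) e A.ok trivial (S.mem x) (S.Φ x)⟩

theorem Red.fF_ceq (R : Red G.F c.m c.W ξ) :
    fF G.F c'.m c'.W (fun x => cj (u x) (ξ x)) = fF G.F c.m c.W ξ :=
  funext fun a => funext fun b => funext fun x =>
    fF_iso ((lg_refl hB hG isOpen_univ).of_ceq A A' e) trivial (R.mem x) a b

end

/-- **reductions are transported by isomorphisms** -/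
theorem Red.iso (R : Red G.F c.m c.W ξ) (h : Cfg.Iso B G.F c c') :
    ∃ ξ', Red G.F c'.m c'.W ξ' ∧ fF G.F c'.m c'.W ξ' = fF G.F c.m c.W ξ :=
  let ⟨_, _, e⟩ := h
  ⟨_, R.ceq hB hG A A' e, R.fF_ceq hB hG A A' e⟩

/-- **points of type S are transported by isomorphisms** -/
theorem SPt.iso (S : SPt G.F c ξ) (h : Cfg.Iso B G.F c c') :
    ∃ ξ', SPt G.F c' ξ' ∧ fF G.F c'.m c'.W ξ' = fF G.F c.m c.W ξ :=
  let ⟨_, _, e⟩ := h
  ⟨_, S.ceq hB hG A A' e, S.toRed.fF_ceq hB hG A A' e⟩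

end Crest.Agent.X212.Abel74
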