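import Crest.Agent.X212.Abel74.Gap
import Crest.Agent.X212.Eq82.Leaf
import Crest.Agent.X212.Eq82.Rep

/-!
# Row 212, ABEL (helper74): labels; the leaves `NrmL` and `SepL`
-/

set_option autoImplicit false
set_option linter.unusedSectionVars false
noncomputable section
open scoped Manifold ContDiff Topology InnerProductSpace
open Finset Filter MeasureTheory
open Crest.Agent.R208 Crest.Agent.R208.F

namespace Crest.Agent.X212.Abel74
open An Wz78 Eq82 Num57 Mp86
open Line51 (Ln)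
open Dr59 (HR Cl exists_cls cls_smul)

variable {E : Type} [NormedAddCommGroup E] [NormedSpace ℝ E] [FiniteDimensional ℝ E]
  [MeasurableSpace E] [BorelSpace E]
  {HM : Type} [TopologicalSpace HM] {I : ModelWithCorners ℝ E HM} [I.Boundaryless]
  {M : Type} [TopologicalSpace M] [ChartedSpace HM M] [IsManifold I ∞ M]
  [MeasurableSpace M] [BorelSpace M] [SecondCountableTopology M] [T2Space M] [CompactSpace M]
  {ι : Type} [Fintype ι] [DecidableEq ι] {κ : Type} [Fintype κ] [DecidableEq κ] {r : ℕ}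
  {X : Bk I M ι} {L : Ln E M κ} {F : Fr I M ι}

theorem B_ok (X : Bk I M ι) (hL : L.On I Set.univ) : (X.B L).OK I :=
  hL.base_ok X.F.P_sm X.ok.sm (fun x => (X.ok.vo x).pr) (fun x => (X.ok.vo x).tr)
    (fun a b c d x => (X.ok.vo x).a1 a b c d) (fun a b c d x => (X.ok.vo x).a2 a b c d)
    (fun a b c d x => (X.ok.vo x).a3 a b c d) (fun a b c d x => (X.ok.vo x).po a b c d)
    fun x => (X.ok.vo x).nm

theorem G_ok (hL : L.On I Set.univ) (hF : X.Pos F) : (L.geo F).OK (X.B L) := by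
  have := hL.geo_ok hF.vol X.o
  rwa [hF.P] at this

theorem okF (hF : X.Pos F) : OK F X.o := ⟨X.ok.h4, hF.vol, X.ok.sm, hF.P ▸ X.ok.vo⟩

theorem Q_eq (hF : X.Pos F) : X.Q = Q (okF hF).ori := (Q_ori _ _ hF.ori).symm

theorem cl2_eq {a : M → Ext E} (h : Cl I 2 Set.univ a) : cl2 I a = h.cls := dif_pos h

/-- the components of the Hodge dual -/
def gm (F : Fr I M ι) (o : ι → ι → ι → ι → M → ℝ) (β : M → Ext E) (a b : ι) (x : M) : ℝ :=
  ∑ c, ∑ d, o a b c d x * k2 F β c d x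

/-- the density of the pairing with `β` -/
def pv (F : Fr I M ι) (o : ι → ι → ι → ι → M → ℝ) (β : M → Ext E) (f : ι → ι → M → ℝ)
    (x : M) : ℝ := ∑ s : ι × ι, gm F o β s.1 s.2 x * f s.1 s.2 x

variable {β : M → Ext E} {c : Cfg M ι (κ ⊕ κ) r} {ξ : M → c.m.A}

theorem sm_gm (hβ : Cl I 2 Set.univ β) (a b : ι) : An.Sm I (gm F X.o β a b) := fun x =>
  SA.sum _ fun c _ => SA.sum _ fun d _ => SA.mul (X.ok.sm a b c d x) (sa_k2 F (hβ.sm x trivial) c d)

theorem sm_pv (hβ : Cl I 2 Set.univ β) {f : ι → ι → M → ℝ} (hf : ∀ a b, An.Sm I (f a b)) :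
    An.Sm I (pv F X.o β f) := fun x => SA.sum _ fun _ _ => SA.mul (sm_gm hβ _ _ x) (hf _ _ x)

theorem rep_gm (hF : X.Pos F) (hβ : Cl I 2 Set.univ β) : ∃ (N : ℕ) (f g h : Fin N → M → ℝ),
    (∀ k, An.Sm I (f k) ∧ An.Sm I (g k) ∧ An.Sm I (h k)) ∧
      ∀ a b x, ∑ k, f k x * F.D a (g k) x * F.D b (h k) x = gm F X.o β a b x := by
  have v := (okF hF).vo
  have h1 : ∀ a b x, ∑ k, F.P a k x * gm F X.o β k b x = gm F X.o β a b x := fun a b x => by
    simp only [gm, mul_sum, ← mul_assoc]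
    rw [sum_comm]
    refine sum_congr rfl fun c _ => ?_
    rw [sum_comm]
    simp only [← sum_mul, (v x).po]
  have h2 : ∀ a b x, gm F X.o β a b x = -gm F X.o β b a x := fun a b x => by
    simp only [gm, (v x).a1 a b, neg_mul, sum_neg_distrib]
  exact exists_rep F (sm_gm hβ) h1 fun a b x => by
    simp only [h2 a, mul_neg, sum_neg_distrib, h1]

section red
variable (hL : L.On I Set.univ) (hF : X.Pos F) (C : c.m.IsConn (X.B L) (L.geo F) c.W)
include hL hF C

theorem lab_eq (R : Red F c.m c.W ξ) : lab F c ξ =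
    Real.pi⁻¹ • (Red.cl_fm (G := L.geo F) R (G_ok hL hF) C).cls := by
  rw [lab, ← cl2_eq]; rfl

/-- the pairing of the label with a class -/
theorem Q_lab (R : Red F c.m c.W ξ) (hβ : Cl I 2 Set.univ β) : X.Q (lab F c ξ) hβ.cls =
    (4 * Real.pi)⁻¹ * ∫ x, pv F X.o β (fF F c.m c.W ξ) x ∂F.μ := by
  rw [lab_eq hL hF C R, Q_eq hF, map_smul, LinearMap.smul_apply, Q_cls, smul_eq_mul]
  have := Red.integ_fm (ξ := ξ) (G_ok hL hF) C (B_ok X hL) X.ok.h4 β
  refine (congrArg _ this).trans ?_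
  simp only [pv, gm, Fintype.sum_prod_type, sum_mul, mul_inv, mul_assoc, mul_comm (k2 F β _ _ _)]
  rw [mul_left_comm, one_div]
  rfl

/-- the level is minus a quarter of the square of the label -/
theorem kap_lab (R : Red F c.m c.W ξ) (H : c.m.OK I (X.B L)) :
    c.kap (X.B L) (L.geo F) = -X.Q (lab F c ξ) (lab F c ξ) / 4 := by
  rw [Cfg.kap, Red.kap_Q (G := L.geo F) R (G_ok hL hF) C (B_ok X hL) X.ok.h4 H, lab_eq hL hF C R,
    Q_eq hF]
  simp only [map_smul, LinearMap.smul_apply, smul_eq_mul]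
  change _ * Q (okF hF).ori _ _ = _
  field_simp

end red

/-! ### words -/

/-- the words `Gⁿ cv` -/
def wG {N : ℕ} (f g h : Fin N → M → ℝ) (n : ℕ) (k : Fin N) : AW M :=
  ⟨.cv (f k) (g k) (h k), List.replicate n .G⟩

variable {N : ℕ} {f g h : Fin N → M → ℝ}

theorem cd_of_sm (F : Fr I M ι) {g : M → ℝ} (hg : An.Sm I g) : F.Cd g :=
  ⟨hg, fun a => Sob92.Cb_of_compact (F.sm_D hg a)⟩

theorem ok_wG (F : Fr I M ι) (hs : ∀ k, An.Sm I (f k) ∧ An.Sm I (g k) ∧ An.Sm I (h k)) (n : ℕ)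
    (k : Fin N) : (wG f g h n k).OK F :=
  ⟨⟨Sob92.Cb_of_compact (hs k).1, cd_of_sm F (hs k).2.1, cd_of_sm F (hs k).2.2⟩, fun t ht => by
    rw [List.eq_of_mem_replicate ht]; trivial⟩

theorem wd_rep (u : M → ℝ) (n : ℕ) :
    Wrd81.wd (la0 F) u (List.replicate n .G) = (G0 F)^[n] u := by
  induction n with
  | zero => rfl
  | succ n ih => rw [Function.iterate_succ_apply', ← ih]; rfl

theorem G0_iter_sum (h4 : Module.finrank ℝ E ≤ 4) {α : Type} (s : Finset α) {u : α → M → ℝ}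
    (hu : ∀ k, An.Sm I (u k)) (n : ℕ) (x : M) :
    ∑ k ∈ s, (G0 F)^[n] (u k) x = (G0 F)^[n] (fun x => ∑ k ∈ s, u k x) x := by
  classical
  induction s using Finset.induction_on with
  | empty => simp only [sum_empty, Function.iterate_fixed (G0_const (F := F) 0)]
  | insert a s ha ih =>
    simp only [sum_insert ha, ih, G0_iter_add h4 (hu a) (contMDiff_finsetSum fun k _ => hu k)]

theorem sum_aw0 (h4 : Module.finrank ℝ E ≤ 4)
    (hs : ∀ k, An.Sm I (f k) ∧ An.Sm I (g k) ∧ An.Sm I (h k))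
    (he : ∀ a b x, ∑ k, f k x * F.D a (g k) x * F.D b (h k) x = gm F X.o β a b x)
    (hf : ∀ a b, An.Sm I (fF F c.m c.W ξ a b)) (n : ℕ) (x : M) :
    ∑ k, aw0 F c ξ (wG f g h n k) x = (G0 F)^[n + 2] (pv F X.o β (fF F c.m c.W ξ)) x := by
  have := G0_iter_sum (F := F) h4 univ (u := fun k x => ∑ s : ι × ι, f k x * F.D s.1 (g k) x *
    F.D s.2 (h k) x * fF F c.m c.W ξ s.1 s.2 x) (fun k => contMDiff_finsetSum fun s _ =>
      (((hs k).1.mul (F.sm_D (hs k).2.1 _)).mul (F.sm_D (hs k).2.2 _)).mul (hf _ _)) (n + 2) x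
  refine Eq.trans (sum_congr rfl fun k _ => congrFun (wd_rep _ n) x) (this.trans ?_)
  refine congrArg (fun u => (G0 F)^[n + 2] u x) (funext fun y => ?_)
  rw [sum_comm]
  simp only [← sum_mul, he, pv]

theorem vol_pos [Nonempty M] (F : Fr I M ι) : 0 < F.μ.real Set.univ := by
  have : IsFiniteMeasure F.μ := CompactSpace.isFiniteMeasure
  have := Sob92.openPos F.toPre
  exact ENNReal.toReal_pos (isOpen_univ.measure_ne_zero _ Set.univ_nonempty) (measure_ne_top _ _)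

theorem pv_le (hβ : Cl I 2 Set.univ β) {f : ι → ι → M → ℝ} (hf : ∀ a b, An.Sm I (f a b)) {K : ℝ}
    (hK : ∀ y, ∑ s : ι × ι, gm F X.o β s.1 s.2 y ^ 2 ≤ K) {u : M → ℝ}
    (hu : ∀ y, u y = 16 * ∑ a, ∑ b, f a b y ^ 2) :
    ∫ y, pv F X.o β f y ^ 2 ∂F.μ ≤ K * ∫ y, u y ∂F.μ := by
  have hc := fun a b => (hf a b).continuous
  rw [← integral_const_mul, funext hu]
  refine integral_mono (intg ((sm_pv hβ hf).continuous.pow 2)) (intg (by fun_prop)) fun y => ?_
  refine (sum_mul_sq_le_sq_mul_sq _ _ _).trans (mul_le_mul (hK y) ?_ (by positivity)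
    (le_trans (by positivity) (hK y)))
  rw [Fintype.sum_prod_type]
  exact le_mul_of_one_le_left (by positivity) (by norm_num)

variable (X) in
/-- **the leaf `NrmL`** -/
theorem nrmL [ConnectedSpace M] (hL : L.On I Set.univ) : NrmL X L := by
  intro F hF a ha R
  have h4 := X.ok.h4.le
  have hB := B_ok X hL
  have hG := G_ok hL hF
  have hv := vol_pos F
  obtain ⟨z, hz⟩ : ∃ z, X.Q a z ≠ 0 := not_forall.1 fun h => ha (X.ok.Q_nondeg h)
  obtain ⟨β, hβ, e⟩ := exists_cls ((F.μ.real Set.univ / (4 * Real.pi * X.Q a z)) • z)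
  obtain ⟨N, f, g, h, hs, he⟩ := rep_gm hF hβ
  have hc := fun a b => (sm_gm (F := F) (X := X) hβ a b).continuous
  obtain ⟨K, hK⟩ := isCompact_univ.exists_bound_of_continuousOn
    (show Continuous fun x => ∑ s : ι × ι, gm F X.o β s.1 s.2 x ^ 2 by fun_prop).continuousOn
  obtain ⟨n, hn⟩ := gap (F := F) h4 (ε := (2 * √(|K| * R) + 1)⁻¹) (by positivity)
  refine ⟨List.ofFn (wG f g h n), fun ζ hζ => ?_, fun c ξ A S hl hR => ?_⟩
  · obtain ⟨k, rfl⟩ := List.mem_ofFn.1 hζ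
    exact ok_wG _ hs n k
  have hf : ∀ a b, An.Sm I (fF F c.m c.W ξ a b) :=
      Red.sm_fF (G := L.geo F) S.toRed hB hG A.ok A.conn
  have hn2 : ∀ y, ‖c.m.Fg F c.W y‖ ^ 2 = 16 * ∑ a, ∑ b, fF F c.m c.W ξ a b y ^ 2 :=
    Red.norm_Fg (G := L.geo F) S.toRed hB hG A.ok A.conn
  have hp := sm_pv (F := F) (X := X) hβ hf
  have h1 : ⨍ y, pv F X.o β (fF F c.m c.W ξ) y ∂F.μ = 1 := by
    have := Q_lab hL hF A.conn S.toRed hβ
    rw [e, hl, map_smul, smul_eq_mul] at this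
    rw [average_eq, smul_eq_mul, inv_mul_eq_one₀ hv.ne']
    field_simp at this
    exact this
  have h2 : ∫ y, pv F X.o β (fF F c.m c.W ξ) y ^ 2 ∂F.μ ≤ |K| * R :=
    (pv_le hβ hf (fun y => (le_abs_self _).trans ((hK y trivial).trans (le_abs_self K)))
      hn2).trans
      (mul_le_mul_of_nonneg_left hR (abs_nonneg K))
  refine ⟨(G0 F)^[n + 2] (pv F X.o β (fF F c.m c.W ξ)), fun x => ?_⟩
  have h3 := (hn (n + 2) (by omega) _ hp x).trans (mul_le_mul_of_nonneg_left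
    (Real.sqrt_le_sqrt h2) (by positivity))
  have h5 : (2 * √(|K| * R) + 1)⁻¹ * √(|K| * R) ≤ 1 / 2 := by
    rw [inv_mul_le_iff₀ (by positivity)]; linarith
  rw [h1] at h3
  obtain ⟨h6, h7⟩ := abs_le.1 (h3.trans h5)
  refine ⟨by linarith, by linarith, ?_⟩
  have e' : ∀ l, c.aws F l = fun x => aws0 F c ξ l x • ξ x :=
    SPt.aws_eq (G := L.geo F) S A bumps_of_compact hB hG
  simp only [← sum_aw0 h4 hs he hf, e', aws0, List.map_ofFn, List.sum_ofFn, Function.comp_apply]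

theorem tend_G0 [PreconnectedSpace M] (h4 : Module.finrank ℝ E ≤ 4) {u w : M → ℝ}
    (hu : An.Sm I u) (hw : Continuous w) : Tendsto (fun n => ∫ x, (G0 F)^[n] u x * w x ∂F.μ) atTop
      (𝓝 ((⨍ x, u x ∂F.μ) * ∫ x, w x ∂F.μ)) := by
  rw [← integral_const_mul, Metric.tendsto_atTop]
  intro ε hε
  set K := √(∫ x, u x ^ 2 ∂F.μ) * ∫ x, |w x| ∂F.μ with hK
  have K0 : 0 ≤ K := mul_nonneg (Real.sqrt_nonneg _) (integral_nonneg fun _ => abs_nonneg _)
  obtain ⟨n₀, h⟩ := gap (F := F) h4 (ε := ε / (K + 1)) (by positivity)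
  refine ⟨n₀, fun n hn => ?_⟩
  have hc := (sm_G0_iter (F := F) hu n).continuous
  rw [dist_eq_norm, ← integral_sub (intg (by fun_prop)) (intg (by fun_prop))]
  refine (norm_integral_le_of_norm_le (g := fun x => ε / (K + 1) * √(∫ x, u x ^ 2 ∂F.μ) * |w x|)
    (intg (continuous_const.mul hw.abs)) (.of_forall fun x => ?_)).trans_lt ?_
  · rw [← sub_mul, norm_mul]
    exact mul_le_mul_of_nonneg_right (h n hn u hu x) (norm_nonneg _)
  · rw [integral_const_mul, mul_assoc, ← hK, div_mul_eq_mul_div, div_lt_iff₀ (by positivity)]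
    linarith

variable (X) in
/-- **the leaf `SepL`** -/
theorem sepL [ConnectedSpace M] (hL : L.On I Set.univ) : SepL X L := by
  intro F hF c c' ξ ξ' A A' S S' h0 ho
  have h4 := X.ok.h4.le
  have hB := B_ok X hL
  have hG := G_ok hL hF
  refine sub_eq_zero.1 (X.ok.Q_nondeg fun z => ?_)
  obtain ⟨β, hβ, rfl⟩ := exists_cls z
  obtain ⟨N, f, g, h, hs, he⟩ := rep_gm hF hβ
  have ok : AW.OK X.F ⟨.q [.im] [], []⟩ :=
    ⟨⟨fun t ht => by rw [List.mem_singleton.1 ht]; trivial, fun _ h => by cases h⟩,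
      fun _ h => by cases h⟩
  have key : ∀ (c : Cfg M ι (κ ⊕ κ) 0) (ξ : M → c.m.A), c.Adm (X.B L) (L.geo F) → SPt F c ξ →
      Tendsto (fun n => ∑ k, ob F c (some (⟨_, ok_wG X.F hs n k⟩, ⟨_, ok⟩))) atTop
        (𝓝 ((F.μ.real Set.univ)⁻¹ * (4 * Real.pi * X.Q (lab F c ξ) hβ.cls) *
          ob (F₀ := X.F) F c none)) := fun c ξ A S => by
    have hf : ∀ a b, An.Sm I (fF F c.m c.W ξ a b) :=
      Red.sm_fF (G := L.geo F) S.toRed hB hG A.ok A.conn
    have hw : Continuous fun x => ‖c.Φ x‖ ^ 2 := A.sm.continuous.norm.pow 2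
    have := (tend_G0 (F := F) h4 (sm_pv (F := F) (X := X) hβ hf) hw).comp (tendsto_add_atTop_nat 2)
    rw [Q_lab hL hF A.conn S.toRed hβ, mul_inv_cancel_left₀ (by positivity)]
    rw [average_eq, smul_eq_mul] at this
    refine this.congr fun n => ?_
    have e := SPt.aw_eq (G := L.geo F) S A bumps_of_compact hB hG
    have e' : ∀ w, c.aw F w = fun x => aw0 F c ξ w x • ξ x := e
    have eJ : ∀ x, aw0 F c ξ ⟨.q [.im] [], []⟩ x = ‖c.Φ x‖ ^ 2 / 16 := fun x => by
      change ⟪c.m.J (c.Φ x), c.m.J (c.Φ x)⟫_ℝ / 16 = _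
      rw [A.ok.Jsk, ← mul_apply_eq_comp, A.ok.Jsq]
      simp
    simp only [ob, e', real_inner_smul_left, real_inner_smul_right, S.toRed.inn A.ok, eJ,
      Function.comp_apply]
    rw [← integral_finsetSum _ fun k _ => ?_]
    · refine congrArg _ (funext fun x => ?_)
      rw [← sum_aw0 h4 hs he hf, sum_mul]
      exact sum_congr rfl fun k _ => by ring
    · have : Continuous (aw0 F c ξ (wG f g h n k)) := by
        rw [show aw0 F c ξ (wG f g h n k) = _ from wd_rep _ n]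
        exact (sm_G0_iter (sm_G0 _) n).continuous
      exact intg (by fun_prop)
  have h1 := key c ξ A S
  simp only [ho] at h1
  have h2 := tendsto_nhds_unique h1 (key c' ξ' A' S')
  have h3 : ob (F₀ := X.F) F c' none ≠ 0 := by
    rw [← ho]
    have := Sob92.openPos F.toPre
    intro k
    have hw : Continuous fun x => ‖c.Φ x‖ ^ 2 := A.sm.continuous.norm.pow 2
    have := (hw.integral_pos_of_hasCompactSupport_nonneg_nonzero (μ := F.μ)
      (x := (Function.ne_iff.1 h0).choose) (HasCompactSupport.of_compactSpace _)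
      (fun _ => sq_nonneg _) (pow_ne_zero _ (norm_ne_zero_iff.2 (Function.ne_iff.1 h0).choose_spec)))
    exact this.ne' k
  have h5 := mul_left_cancel₀ (by positivity : 4 * Real.pi ≠ 0) (mul_left_cancel₀
    (inv_ne_zero (vol_pos F).ne') (mul_right_cancel₀ h3 h2))
  change X.Q _ _ = 0
  rw [map_sub, LinearMap.sub_apply, h5, sub_self]

end Crest.Agent.X212.Abel74
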