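import Crest.Agent.X212.Abel74.Defs
import Crest.Agent.X212.Wz78.Par
import Crest.Agent.X212.Mp86.Res
import Crest.Agent.X212.Std94.Smo

/-!
# Row 212, ABEL (helper74): curvature and words of a reduction
-/

set_option autoImplicit false
set_option linter.unusedSectionVars false
noncomputable section
open scoped Manifold ContDiff Topology InnerProductSpace
open Finset Filter MeasureTheory

namespace Crest.Agent.X212.Abel74
open An Wz78 Mp86 Eqv71 Wrd81

variable {E : Type} [NormedAddCommGroup E] [NormedSpace ℝ E] [FiniteDimensional ℝ E]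
  [MeasurableSpace E] [BorelSpace E]
  {HM : Type} [TopologicalSpace HM] {I : ModelWithCorners ℝ E HM}
  {M : Type} [TopologicalSpace M] [ChartedSpace HM M] [IsManifold I ∞ M]
  [MeasurableSpace M] {ι : Type} [Fintype ι] {lam : Type} [Fintype lam]

/-- the scalar resolvent -/
def G0 (F : Fr I M ι) (u : M → ℝ) : M → ℝ := F.res (fun _ _ => 0) u

theorem mc_zero : Mc I fun (_ : ι) (_ : M) => (0 : ℝ →L[ℝ] ℝ) :=
  ⟨fun _ => contMDiff_const, fun _ _ v w => by simp⟩

variable {m : Md M ι lam} {B : Base M ι lam} {G : Geo I M ι lam} {F : Fr I M ι} {W : m.Cn}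
  {ξ : M → m.A}

theorem mcW (C : m.IsConn B G W) : Mc I W := ⟨fun a x => C.cc.sm a x, C.sk⟩

theorem mcA (C : m.IsConn B G W) : Mc I (m.adW W) :=
  ⟨fun a x => sa_adW (C.cc.sm a x), fun a x => adW_skw C a x⟩

theorem fF_neg (a b : ι) (x : M) : fF F m W (fun x => -ξ x) a b x = -fF F m W ξ a b x := by
  simp only [fF, inner_neg_right, neg_div]

theorem hf_add (x : M) (η : m.A) : hf m x η + hf m x (-η) = m.p x := by
  simp only [hf, map_neg, mul_neg]; module

theorem fF_swap (hG : G.OK B) (C : m.IsConn B G W) (a b : ι) (x : M) :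
    fF G.F m W ξ a b x = -fF G.F m W ξ b a x := by
  rw [fF, fF, show (a, b) = (b, a).swap from rfl, Fg_swap hG C, inner_neg_left, neg_div]

theorem fF_proj (hG : G.OK B) (C : m.IsConn B G W) (a b : ι) (x : M) :
    ∑ k, B.P a k x * fF G.F m W ξ k b x = fF G.F m W ξ a b x := by
  simp only [fF, ← Fg_proj hG C a b, sum_inner, real_inner_smul_left, sum_div, mul_div_assoc]

namespace Red
variable (R : Red F m W ξ)
include R

theorem neg : Red F m W fun x => -ξ x :=
  ⟨R.sm.neg, fun x => neg_mem (R.mem x), fun x => by rw [map_neg, neg_mul_neg, R.sq],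
    fun a x => by rw [nab_neg, R.par, neg_zero]⟩

theorem nE (a : ι) (x : M) : nabE I F.e W a (fun y => opL (ξ y)) x = 0 := by
  rw [opL_nab a (R.sm x), R.par, map_zero]

theorem sm_opL : Sm I fun y => opL (ξ y) := fun x => SA.clm opL (R.sm x)

theorem nab_xi {u : M → ℝ} {x : M} (hu : SA I u x) (a : ι) :
    nab I F.e (m.adW W) a (fun y => u y • ξ y) x = F.D a u x • ξ x := by
  rw [nab_smul a hu (R.sm x), R.par, smul_zero, add_zero]; rfl

theorem comm_curv (hW : ∀ a, Sm I (W a)) (a b : ι) (x : M) :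
    curv I F.e F.c W a b x * opL (ξ x) = opL (ξ x) * curv I F.e F.c W a b x :=
  (frm F).curv_par (fun a => hW a x) (R.sm_opL x) (fun a => .of_forall (R.nE a)) a b

variable (H : m.OK I B)
include H

theorem inn (x : M) : ⟪ξ x, ξ x⟫_ℝ = 16 := by
  rw [real_inner_self_eq_norm_sq, norm_sq H (R.mem x) (R.sq x)]

theorem nrm (x : M) : ‖ξ x‖ = 4 := by
  rw [← sq_eq_sq₀ (norm_nonneg _) (by norm_num), norm_sq H (R.mem x) (R.sq x)]; norm_num

theorem smul_inj {x : M} {s t : ℝ} (h : s • ξ x = t • ξ x) : s = t :=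
  smul_left_injective ℝ (fun h0 => by simpa [h0] using R.nrm H x) h

theorem sm_hf : Sm I fun x => hf m x (ξ x) := fun x => SA.smul contMDiffAt_const
  ((H.sp x).sub (SA.mul contMDiffAt_const (R.sm_opL x)))

theorem norm_hf (x : M) : ‖hf m x (ξ x)‖ ≤ 1 :=
  ContinuousLinearMap.opNorm_le_bound _ zero_le_one fun v => by
    have h : ‖hf m x (ξ x) v‖ * ‖hf m x (ξ x) v‖ ≤ ‖v‖ * ‖hf m x (ξ x) v‖ := by
      rw [← real_inner_self_eq_norm_mul_norm, hf_sym H (R.mem x), ← mul_apply_eq_comp,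
        hf_hf H (R.mem x) (R.sq x)]
      exact real_inner_le_norm _ _
    rcases (norm_nonneg (hf m x (ξ x) v)).eq_or_lt with k | k
    · rw [← k]; positivity
    · rw [one_mul]; exact le_of_mul_le_mul_right h k

theorem tr_hf (hB : B.OK I) (x : M) : trE (hf m x (ξ x)) = 8 := by
  have h : trE (m.J * opL (ξ x)) = 0 := by
    have := congrArg (fun η => ⟪ξ x, η⟫_ℝ) (pg_Jp (x := x) hB H)
    simp only [inner_zero_right, ← inner_pg, pg_of_mem (R.mem x), inner_skw (g_skw (R.mem x)),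
      ← mul_assoc, neg_eq_zero] at this
    rwa [trE_comm, ← mul_assoc, g_p (R.mem x), trE_comm] at this
  rw [hf, map_smul, map_sub, h, tr_p H]; norm_num

end Red

namespace Red
variable (R : Red G.F m W ξ) (hB : B.OK I) (hG : G.OK B) (H : m.OK I B) (C : m.IsConn B G W)
include R H C

theorem hf_par (a : ι) (x : M) : nabE I G.F.e W a (fun x => hf m x (ξ x)) x = 0 := by
  have h1 : SA I (fun y => m.J * opL (ξ y)) x := SA.mul contMDiffAt_const (R.sm_opL x)
  simp only [hf]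
  rw [nabE_smul a contMDiffAt_const ((H.sp x).sub h1), nabE_sub a (H.sp x) h1,
    nabE_mul a contMDiffAt_const (R.sm_opL x), nabE_J C, R.nE,
    show nabE I G.F.e W a m.p x = 0 from C.cc.par a x]
  simp

omit C in
theorem rho_rho (a b : ι) (x : M) : m.ρ a x * hf m x (ξ x) * (m.ρ b x * hf m x (ξ x)) =
    m.ρ a x * m.ρ b x * hf m x (ξ x) := by
  rw [mul_assoc, ← mul_assoc (hf _ _ _), ← rho_hf H (R.mem x), mul_assoc,
    hf_hf H (R.mem x) (R.sq x), mul_assoc]

/-- the half is a Clifford module with a compatible connection -/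
theorem cc_hf : CC I G.F.e B.P G.F.Gam (fun x => hf m x (ξ x))
    (fun a x => m.ρ a x * hf m x (ξ x)) W where
  toCon := C.cc.toCon
  sp := R.sm_hf H
  sρ a x := SA.mul (H.sρ a x) (R.sm_hf H x)
  cl x := ⟨fun a b => by
      rw [R.rho_rho H, R.rho_rho H, ← add_mul, (H.cl x).rel, smul_mul_assoc, p_hf H (R.mem x)],
    fun a => by rw [← mul_assoc, ← rho_hf H (R.mem x), mul_assoc, hf_hf H (R.mem x) (R.sq x)],
    fun a => by rw [mul_assoc, hf_hf H (R.mem x) (R.sq x)],
    fun a => by simp only [← smul_mul_assoc, ← sum_mul, (H.cl x).proj]⟩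
  par := R.hf_par H C
  comp a b x := by
    have := nabE_mul (e := G.F.e) (A := W) a (H.sρ b x) (R.sm_hf H x)
    rw [R.hf_par H C, mul_zero, add_zero, show nabE I G.F.e W a (m.ρ b) x = _ from C.cc.comp a b x,
      sum_mul] at this
    simp only [smul_mul_assoc] at this
    exact this

include hB hG

/-- **the curvature of a reduction is abelian** -/
theorem Fg_eq (x : M) (s : ι × ι) : m.Fg G.F W x s = fF G.F m W ξ s.1 s.2 x • ξ x := by
  refine eq_of_comm hB H (R.mem x) (R.sq x) (Fg_mem _ s) ?_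
  have h := congrArg opL (curv_adW_g hB hG H C s.1 s.2 (R.mem x))
  rw [curv_adW fun a => C.cc.sm a x, opL_adc, opL_adc, R.comm_curv fun a x => C.cc.sm a x,
    sub_self] at h
  exact (sub_eq_zero.1 h.symm).symm

theorem sm_fF (a b : ι) : Sm I (fF G.F m W ξ a b) := fun x =>
  (SA.app (SA.clm (innerSL ℝ) (Wz78.sm_Fg hG C (Std94.sm_pg hB H) (a, b) x)) (R.sm x)).div_const 16

/-- the curvature form is closed -/
theorem fF_closed (a b k : ι) (x : M) :
    d2 I G.F.e G.F.c (fun _ _ => 0) (fF G.F m W ξ) a b k x = 0 := by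
  have h := Fg_bianchi hG H C (Std94.sm_pg hB H) a b k x
  simp only [d2, R.Fg_eq hB hG H C, fun a b k => R.nab_xi (R.sm_fF hB hG H C b k x) a, smul_smul,
    ← sum_smul, ← sub_smul, ← add_smul] at h
  simp only [d2, nab_zero, smul_eq_mul]
  exact R.smul_inj H (h.trans (zero_smul ℝ _).symm)

theorem kd_eq (x : M) : m.kd B G.F W x = -(16 * Real.pi ^ 2)⁻¹ * ∑ a, ∑ b, ∑ c, ∑ d,
    B.o a b c d x * (fF G.F m W ξ a b x * fF G.F m W ξ c d x) := by
  rw [Md.kd, PiLp.inner_apply]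
  simp only [Wz78.idx_apply, R.Fg_eq hB hG H C, ContinuousLinearMap.id_apply,
    inner_sum, real_inner_smul_left, real_inner_smul_right, R.inn H, Base.st,
    Fintype.sum_prod_type, mul_sum]
  refine sum_congr rfl fun a _ => sum_congr rfl fun b _ => sum_congr rfl fun c _ =>
    sum_congr rfl fun d _ => ?_
  field_simp
  ring

theorem norm_Fg (x : M) : ‖m.Fg G.F W x‖ ^ 2 = 16 * ∑ a, ∑ b, fF G.F m W ξ a b x ^ 2 := by
  simp only [PiLp.norm_sq_eq_of_L2, R.Fg_eq hB hG H C, norm_smul, R.nrm H, mul_pow,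
    Real.norm_eq_abs, sq_abs, Fintype.sum_prod_type, mul_sum]
  exact sum_congr rfl fun a _ => sum_congr rfl fun b _ => by ring

theorem p2_Fg (x : M) : m.p2 B x (m.Fg G.F W x) =
    WithLp.toLp 2 fun s => (∑ t, B.sd x s t * fF G.F m W ξ t.1 t.2 x) • ξ x := by
  rw [← p2_smul (R.mem x)]
  congr 1
  ext1 s
  exact R.Fg_eq hB hG H C x s

/-- the twisting curvature on the half -/
theorem tw_hf (a b : ι) (x : M) : tw I G.F.e G.F.c G.F.Gam m.p m.ρ W a b x * hf m x (ξ x) =
    ((fL B G x (a, b) + 2 * fF G.F m W ξ a b x) / 2) • (m.J * hf m x (ξ x)) := by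
  rw [tw_eq hB hG H C, R.Fg_eq hB hG H C, map_smul, add_mul, smul_mul_assoc, smul_mul_assoc,
    mul_assoc, p_hf H (R.mem x), xi_hf H (R.mem x) (R.sq x)]
  module

theorem tw_half (a b : ι) (x : M) : tw I G.F.e G.F.c G.F.Gam (fun x => hf m x (ξ x))
    (fun a x => m.ρ a x * hf m x (ξ x)) W a b x =
    ((fL B G x (a, b) + 2 * fF G.F m W ξ a b x) / 2) • (m.J * hf m x (ξ x)) := by
  rw [← R.tw_hf hB hG H C]
  simp only [tw, spin, sub_mul, mul_assoc _ (m.p x), p_hf H (R.mem x), R.rho_rho H, smul_mul_assoc,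
    sum_mul]

end Red

/-! ### words -/

/-- scalar letters -/
def la0 (F : Fr I M ι) : La M → (M → ℝ) → M → ℝ
  | .mul f, u => fun x => f x * u x
  | .G, u => G0 F u

variable {r n : ℕ}

/-- scalar seeds -/
def sd0 (F : Fr I M ι) (c : Cfg M ι lam r) (ξ : M → c.m.A) : Sd M → M → ℝ
  | .q u v => fun x => ⟪c.m.J (c.sw F v x), c.sw F u x⟫_ℝ / 16
  | .cv f g h => G0 F (G0 F fun x =>
      ∑ s : ι × ι, f x * F.D s.1 g x * F.D s.2 h x * fF F c.m c.W ξ s.1 s.2 x)

/-- scalar words -/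
def aw0 (F : Fr I M ι) (c : Cfg M ι lam r) (ξ : M → c.m.A) (w : AW M) : M → ℝ :=
  wd (la0 F) (sd0 F c ξ w.s) w.l

/-- sums of scalar words -/
def aws0 (F : Fr I M ι) (c : Cfg M ι lam r) (ξ : M → c.m.A) (L : List (AW M)) (x : M) : ℝ :=
  (L.map fun w => aw0 F c ξ w x).sum

variable [BoundarylessManifold I M] [T2Space M]

/-- **the resolvent on the line of a reduction is the scalar resolvent** -/
theorem Red.res_xi (R : Red F m W ξ) (H : m.OK I B) (hA : Mc I (m.adW W))
    (hb : Bumps I F.e F.dv) (u : M → ℝ) :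
    F.res (m.adW W) (fun x => u x • ξ x) = fun x => G0 F u x • ξ x := by
  have hp : ∀ a x, Sob92.dv I (F.e a) ξ x = -m.adW W a x (ξ x) := fun a x =>
    eq_neg_of_add_eq_zero_left (R.par a x)
  refine res_map (T := fun x => (ContinuousLinearMap.lsmul ℝ ℝ).flip (ξ x))
    (T' := fun x => ((1 / 16 : ℝ) • innerSL ℝ) (ξ x)) hb (fun _ => contMDiff_const) hA
    (fun x => SA.clm _ (R.sm x)) (fun x => SA.clm _ (R.sm x))
    ⟨_, fun x => (ContinuousLinearMap.le_opNorm _ _).trans_eq (by rw [R.nrm H])⟩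
    ⟨_, fun x => (ContinuousLinearMap.le_opNorm _ _).trans_eq (by rw [R.nrm H])⟩
    (fun x a => ?_) (fun x a => ?_) fun x => ?_
  · rw [Sob92.dv_clm _ (SA.md (R.sm x)), hp]
    ext; simp
  · rw [Sob92.dv_clm _ (SA.md (R.sm x)), hp]
    refine ContinuousLinearMap.ext fun η => ?_
    have := hA.sk a x (ξ x) η
    change (1 / 16 : ℝ) * ⟪-m.adW W a x (ξ x), η⟫_ℝ + 0 = (1 / 16 : ℝ) * ⟪ξ x, m.adW W a x η⟫_ℝ
    rw [inner_neg_left, this, neg_neg, add_zero]
  · simp only [ContinuousLinearMap.flip_apply, ContinuousLinearMap.lsmul_apply, smul_apply,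
      innerSL_apply_apply, real_inner_smul_right, R.inn H, smul_eq_mul]
    ring

theorem Red.res_iter (R : Red F m W ξ) (H : m.OK I B) (hA : Mc I (m.adW W))
    (hb : Bumps I F.e F.dv) (u : M → ℝ) (k : ℕ) :
    (F.res (m.adW W))^[k] (fun x => u x • ξ x) = fun x => (G0 F)^[k] u x • ξ x := by
  induction k with
  | zero => rfl
  | succ k ih => rw [Function.iterate_succ_apply', ih, R.res_xi H hA hb, Function.iterate_succ_apply']

/-- the resolvent preserves the half -/
theorem Red.res_hf (R : Red G.F m W ξ) (H : m.OK I B) (C : m.IsConn B G W)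
    (hb : Bumps I G.F.e G.F.dv) {s : M → m.V} (hs : ∀ x, hf m x (ξ x) (s x) = s x) (x : M) :
    hf m x (ξ x) (G.F.res W s x) = G.F.res W s x :=
  res_fix hb (mcW C) (R.sm_hf H) ⟨1, R.norm_hf H⟩
    (fun x a => by rw [← sub_eq_zero, add_sub_assoc]; exact R.hf_par H C a x) hs x

variable {c : Cfg M ι lam r} {ξ : M → c.m.A}

theorem Red.wd_la (R : Red G.F c.m c.W ξ) (H : c.m.OK I B) (C : c.m.IsConn B G c.W)
    (hb : Bumps I G.F.e G.F.dv) (u : M → ℝ) (l : List (La M)) :
    wd (c.la G.F) (fun x => u x • ξ x) l = fun x => wd (la0 G.F) u l x • ξ x :=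
  (wd_map (op := la0 G.F) (op' := c.la G.F) (fun u x => u x • ξ x) u (fun t a => by
    cases t with
    | mul f => exact funext fun x => mul_smul _ _ _
    | G => exact (R.res_xi H (mcA C) hb a).symm) l).symm

theorem Red.sd_cv (R : Red G.F c.m c.W ξ) (hB : B.OK I) (hG : G.OK B) (H : c.m.OK I B)
    (C : c.m.IsConn B G c.W) (hb : Bumps I G.F.e G.F.dv) (f g h : M → ℝ) :
    c.sd G.F (.cv f g h) = fun x => sd0 G.F c ξ (.cv f g h) x • ξ x := by
  simp only [Cfg.sd, sd0, R.Fg_eq hB hG H C, smul_smul, ← sum_smul, R.res_xi H (mcA C) hb]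

namespace SPt
variable (S : SPt G.F c ξ) (A : c.Adm B G)
include S A

omit [BoundarylessManifold I M] [T2Space M] in
theorem hf_Φ (x : M) : hf c.m x (ξ x) (c.Φ x) = c.Φ x :=
  hf_fix A.ok (S.mem x) (by rw [← A.pos, ← mul_apply_eq_comp, p_pp A.ok]) (S.Φ x)

omit [BoundarylessManifold I M] [T2Space M] in
/-- the quadratic term is abelian -/
theorem mu_eq (hB : B.OK I) (x : M) : c.m.mu B x (c.Φ x) (c.Φ x) = WithLp.toLp 2 fun s =>
    (⟪c.m.J (rp c.m B x s (c.Φ x)), c.Φ x⟫_ℝ / 16) • ξ x := by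
  ext1 s
  rw [mu_apply hB A.ok, q_eq hB A.ok (S.mem x) (S.sq x) (S.Φ x)]
  rw [← mul_apply_eq_comp, g_rp A.ok (S.mem x), mul_apply_eq_comp, S.Φ, ← mul_apply_eq_comp,
    ← J_rp A.ok, mul_apply_eq_comp]

variable (hb : Bumps I G.F.e G.F.dv)
include hb

/-- spinor words stay in the half -/
theorem hf_sw (w : SW M) (x : M) : hf c.m x (ξ x) (c.sw G.F w x) = c.sw G.F w x := by
  revert x
  refine wd_ind (p := fun u : M → c.m.V => ∀ x, hf c.m x (ξ x) (u x) = u x) (S.hf_Φ A)
    (fun t u hu x => ?_) w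
  cases t with
  | mul f => simp only [Cfg.lt, map_smul, hu]
  | cl g => simp only [Cfg.lt, map_sum, map_smul, ← mul_apply_eq_comp (hf _ _ _),
      ← rho_hf A.ok (S.mem x), mul_apply_eq_comp, hu]
  | im => rw [Cfg.lt, ← mul_apply_eq_comp, ← J_hf A.ok (S.mem x), mul_apply_eq_comp, hu]
  | G => exact S.toRed.res_hf A.ok A.conn hb hu x

theorem xi_sw (w : SW M) (x : M) : opL (ξ x) (c.sw G.F w x) = c.m.J (c.sw G.F w x) :=
  xi_of_hf A.ok (S.mem x) (S.sq x) (S.hf_sw A hb w x)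

/-- **weight two scalars vanish at points of type S** -/
theorem sg_eq (g : Sg M lam) : c.sg G.F g = 0 := by
  have h : ∀ x s u v, hf c.m x (ξ x) u = u → hf c.m x (ξ x) v = v → ⟪c.m.j x s u, v⟫_ℝ = 0 :=
    fun x s u v hu hv => by
      rw [← hu, ← hv, ← hf_sym A.ok (S.mem x), ← mul_apply_eq_comp, ← mul_apply_eq_comp,
        hf_j_hf A.ok (S.mem x) (S.sq x)]
      simp
  have k := S.hf_sw A hb
  refine (integral_congr_ae (.of_forall fun x => ?_)).trans (integral_zero _ _)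
  simp only [hm, h x _ _ _ (k _ x) (k _ x), h x _ _ (c.m.J (c.sw G.F g.v x)) (k _ x)
    (by rw [← mul_apply_eq_comp, ← J_hf A.ok (S.mem x), mul_apply_eq_comp, k]), neg_zero]
  rfl

theorem co_eq (hz : c.z = 0) (d : Co M lam r) : c.co G.F d = 0 := by
  cases d <;> simp [Cfg.co, hz, S.sg_eq A hb]

variable (hB : B.OK I) (hG : G.OK B)
include hB hG

theorem sd_eq (s : Sd M) : c.sd G.F s = fun x => sd0 G.F c ξ s x • ξ x := by
  cases s with
  | q u v => exact funext fun x => q_eq hB A.ok (S.mem x) (S.sq x) (S.xi_sw A hb u x) (S.xi_sw A hb v x)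
  | cv f g h => exact S.toRed.sd_cv hB hG A.ok A.conn hb f g h

/-- **adjoint words are scalar words** -/
theorem aw_eq (w : AW M) : c.aw G.F w = fun x => aw0 G.F c ξ w x • ξ x := by
  rw [Cfg.aw, S.sd_eq A hb hB hG, S.toRed.wd_la A.ok A.conn hb]; rfl

theorem aws_eq (L : List (AW M)) : c.aws G.F L = fun x => aws0 G.F c ξ L x • ξ x := by
  funext x
  induction L with
  | nil => simp [Cfg.aws, aws0]
  | cons w L ih =>
    simp only [Cfg.aws, aws0, List.map_cons, List.sum_cons, add_smul] at ih ⊢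
    rw [ih, S.aw_eq A hb hB hG]

variable (hz : c.z = 0)
include hz

omit hG in
theorem hf_tD (T : Tm M lam r n) (x : M) :
    hf c.m x (ξ x) (c.tD B G.F T x) = c.tD B G.F T x := by
  cases T <;> simp only [Cfg.tD, Pi.zero_apply, map_zero, S.co_eq A hb hz, cs, Complex.zero_re,
    Complex.zero_im, zero_smul, add_zero]
  rw [← mul_apply_eq_comp, pm_comm (by rw [p_hf A.ok (S.mem x), ← hf_comm A.ok (S.mem x) rfl
    (A.ok.Jp x).symm (by rw [g_p (S.mem x), g_p' A.ok (S.mem x)]), p_hf A.ok (S.mem x)])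
    fun a => (rho_hf A.ok (S.mem x) a).symm, mul_apply_eq_comp, S.hf_sw A hb]

theorem tC_eq (T : Tm M lam r n) (x : M) :
    ∃ θ : ι × ι → ℝ, c.tC B G.F T x = WithLp.toLp 2 fun s => θ s • ξ x := by
  have h0 : (0 : Fm (ι × ι) c.m.A) = WithLp.toLp 2 fun s => (0 : ι × ι → ℝ) s • ξ x := by
    ext1; simp
  cases T with
  | ad g h w => exact ⟨_, by
      simp only [Cfg.tC, S.aw_eq A hb hB hG, smul_smul]; exact p2_smul (S.mem x) _⟩
  | adj d s g h u v l =>
    have e : c.qj G.F d s u v = fun y => (0 : M → ℝ) y • ξ y := funext fun y => by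
      simp [Cfg.qj, S.co_eq A hb hz, cs, ← qL_apply]
    exact ⟨_, by
      simp only [Cfg.tC, e, S.toRed.wd_la A.ok A.conn hb, smul_smul]; exact p2_smul (S.mem x) _⟩
  | adn f g h φ L => exact ⟨_, by
      simp only [Cfg.tC, S.aws_eq A hb hB hG, smul_smul]; exact p2_smul (S.mem x) _⟩
  | _ => exact ⟨0, h0⟩

omit hB hG in
theorem tS_eq (T : Tm M lam r n) : c.tS G.F T = 0 := by
  cases T <;> simp [Cfg.tS, hz, S.sg_eq A hb]

variable {K : Type} [Fintype K] (T : K → Tm M lam r n) (w : K → ℝ)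

omit hG in
theorem wpt_D (x : M) : hf c.m x (ξ x) ((wpt B G.F T w).D c x) = (wpt B G.F T w).D c x := by
  simp only [wpt, map_sum, map_smul, S.hf_tD A hb hB hz]

theorem wpt_C (x : M) :
    ∃ θ : ι × ι → ℝ, (wpt B G.F T w).C c x = WithLp.toLp 2 fun s => θ s • ξ x := by
  choose θ h using fun k => S.tC_eq A hb hB hG hz (T k) x
  refine ⟨fun s => ∑ k, w k * θ k s, ?_⟩
  ext1 s
  simp only [wpt, h, WithLp.ofLp_sum, Finset.sum_apply, PiLp.smul_apply, sum_smul, mul_smul]

omit hB hG in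
theorem wpt_S : (wpt B G.F T w).S c = 0 := by
  funext i
  simp [wpt, S.tS_eq A hb hz]

end SPt

omit [BoundarylessManifold I M] [T2Space M] in
/-- the `ξ`-component of the curvature equation -/
theorem SPt.eC_eq (S : SPt G.F c ξ) (A : c.Adm B G) (hB : B.OK I) (hG : G.OK B) (τ : Pt M ι lam r n)
    (x : M) (s : ι × ι) : c.eC B G τ x s = (∑ t, B.sd x s t * fF G.F c.m c.W ξ t.1 t.2 x -
      ⟪c.m.J (rp c.m B x s (c.Φ x)), c.Φ x⟫_ℝ / 16) • ξ x - τ.C c x s := by
  simp only [Cfg.eC, S.toRed.p2_Fg hB hG A.ok A.conn, S.mu_eq A hB, PiLp.sub_apply, sub_smul]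

end Crest.Agent.X212.Abel74
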