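import Crest.Agent.X212.Abel74.Cls
import Crest.Agent.X212.Cmp73.Cv

/-!
# Row 212, ABEL (helper74): limits of reductions
-/

set_option autoImplicit false
set_option linter.unusedSectionVars false
noncomputable section
open scoped Manifold ContDiff Topology InnerProductSpace
open Finset Filter
open Crest.Agent.R208 Crest.Agent.R208.F

namespace Crest.Agent.X212.Abel74
open An Wz78 Cmp73 Dr59

variable {E : Type} [NormedAddCommGroup E] [NormedSpace ℝ E] [FiniteDimensional ℝ E]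
  [MeasurableSpace E] [BorelSpace E]
  {HM : Type} [TopologicalSpace HM] {I : ModelWithCorners ℝ E HM} [I.Boundaryless]
  {M : Type} [TopologicalSpace M] [ChartedSpace HM M] [IsManifold I ∞ M]
  [MeasurableSpace M] [BorelSpace M] [T2Space M] [SecondCountableTopology M] {ι : Type} [Fintype ι]
  {lam : Type} [Fintype lam] {α : Type} {l : Filter α} {Ω : Set M}

/-- smooth convergence of frames -/
structure FCv (l : Filter α) (Ω : Set M) (F : α → Fr I M ι) (F₀ : Fr I M ι) : Prop where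
  mb : ∀ a k, ∀ x ∈ Ω, MB I l x k fun i => Sob92.dv I ((F i).e a) (extChartAt I x)
  pt : ∀ a, ∀ x ∈ Ω, Tendsto (fun i => Sob92.dv I ((F i).e a) (extChartAt I x) x) l
    (𝓝 (Sob92.dv I (F₀.e a) (extChartAt I x) x))
  c : ∀ a b k, Cv I l Ω (fun i => (F i).c a b k) (F₀.c a b k)

variable {F : α → Fr I M ι} {F₀ : Fr I M ι}
  {N : Type} [NormedAddCommGroup N] [NormedSpace ℝ N] {f : α → M → N} {g : M → N}

namespace FCv

theorem const : FCv l Ω (fun _ => F₀) F₀ :=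
  ⟨fun a _ _ _ => MB.vf (Eventually.of_forall (F₀.sm a)), fun _ _ _ => tendsto_const_nhds,
    fun a b k => Cv.fixed' (F₀.c_sm a b k)⟩

theorem mono (h : FCv l Ω F F₀) {l' : Filter α} (hl : l' ≤ l) {Ω' : Set M} (hΩ : Ω' ⊆ Ω) :
    FCv l' Ω' F F₀ :=
  ⟨fun a k x hx => (h.mb a k x (hΩ hx)).mono hl, fun a x hx => (h.pt a x (hΩ hx)).mono_left hl,
    fun a b k => (h.c a b k).mono hl hΩ⟩

/-- frames written in a fixed frame -/
theorem of_mix {ι' : Type} [Fintype ι'] (P : Pre I M ι') {S : α → M → ι → ι' → ℝ}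
    {S₀ : M → ι → ι' → ℝ} (h : ∀ᶠ i in l, Prm93.Mix P (F i).toPre fun a b x => S i x a b)
    (h₀ : Prm93.Mix P F₀.toPre fun a b x => S₀ x a b)
    (hS : ∀ a b, Cv I l Ω (fun i x => S i x a b) fun x => S₀ x a b)
    (hc : ∀ a b k, Cv I l Ω (fun i => (F i).c a b k) (F₀.c a b k)) : FCv l Ω F F₀ := by
  refine ⟨fun a k x hx => (MB.sum fun b => ((hS a b).mb k x hx).smul
    (MB.vf (Eventually.of_forall (P.sm b)))).congr ?_, fun a x hx => ?_, hc⟩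
  · exact (tendsto_fst.eventually h).mono fun q hq => congrFun (hq.D a (extChartAt I x)) q.2
  · rw [show Sob92.dv I (F₀.e a) (extChartAt I x) x = _ from congrFun (h₀.D a (extChartAt I x)) x]
    exact (tendsto_finsetSum _ fun b _ => ((hS a b).pt x hx).smul_const _).congr'
      (h.mono fun i hi => (congrFun (hi.D a (extChartAt I x)) x).symm)

variable (h : FCv l Ω F F₀)
include h

theorem gain {x : M} (hx : x ∈ Ω) {k : ℕ} (h0 : MB I l x 0 f)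
    (h1 : ∀ a, MB I l x k fun i => Sob92.dv I ((F i).e a) (f i)) : MB I l x (k + 1) f := by
  refine MB.gain (X := fun a i => (F i).e a) (fun a => h.mb a k x hx)
    (fun a => (h.mb a 1 x hx).tendsto (h.pt a x hx)) (fun v => ?_) h0 h1
  obtain ⟨R, -, hR⟩ := Sob92.exists_rinv (I := I) F₀.sm x (Num57.exists_comb F₀ x)
  exact ⟨R x v, (Sob92.comb_apply _ _).symm.trans (hR.self_of_nhds v)⟩

variable [l.NeBot] (hΩ : IsOpen Ω) [FiniteDimensional ℝ N]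
include hΩ

theorem D (hf : Cv I l Ω f g) (a : ι) :
    Cv I l Ω (fun i => Sob92.dv I ((F i).e a) (f i)) (Sob92.dv I (F₀.e a) g) :=
  hf.dv hΩ (h.mb a) (h.pt a)

variable {A : α → ι → M → N →L[ℝ] N} {A₀ : ι → M → N →L[ℝ] N}
  (hA : ∀ a, Cv I l Ω (fun i => A i a) (A₀ a))
include hA

theorem nab (hf : Cv I l Ω f g) (a : ι) :
    Cv I l Ω (fun i => nab I (F i).e (A i) a (f i)) (nab I F₀.e A₀ a g) :=
  (h.D hΩ hf a).add ((hA a).app hf)

theorem curv (a b : ι) :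
    Cv I l Ω (fun i => curv I (F i).e (F i).c (A i) a b) (curv I F₀.e F₀.c A₀ a b) :=
  (((h.D hΩ (hA b) a).sub (h.D hΩ (hA a) b)).add (((hA a).mul (hA b)).sub
    ((hA b).mul (hA a)))).sub (Cv.sum fun k => (h.c a b k).smul (hA k))

end FCv

/-- bounded parallel sections have bounded jets -/
theorem FCv.mb_par (h : FCv l Ω F F₀) {A : α → ι → M → N →L[ℝ] N}
    (hA : ∀ a, MBOn I l Ω fun i => A i a) {C : ℝ}
    (hf : ∀ x ∈ Ω, ∀ᶠ q : α × M in l ×ˢ 𝓝 x, SA I (f q.1) q.2 ∧ ‖f q.1 q.2‖ ≤ C ∧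
      ∀ a, Wz78.nab I (F q.1).e (A q.1) a (f q.1) q.2 = 0) : MBOn I l Ω f := by
  intro k x hx
  have h0 : MB I l x 0 f :=
    MB.zero_of ((hf x hx).mono fun _ h => h.1) ⟨C, (hf x hx).mono fun _ h => h.2.1⟩
  induction k with
  | zero => exact h0
  | succ k ih =>
    exact h.gain hx h0 fun a => ((hA a k x hx).app ih).neg.congr
      ((hf x hx).mono fun q hq => eq_neg_of_add_eq_zero_left (hq.2.2 a))

variable {m : Md M ι lam} {B : Base M ι lam} {W : α → m.Cn} {W₀ : m.Cn} {ξ : α → M → m.A}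
  {ξ₀ : M → m.A} (h : FCv l Ω F F₀) (hΩ : IsOpen Ω) (H : m.OK I B)
  (hW : ∀ a, Cv I l Ω (fun i => W i a) (W₀ a))
include h hΩ H hW

omit hΩ in
theorem mb_red (R : ∀ x ∈ Ω, ∀ᶠ q : α × M in l ×ˢ 𝓝 x, RedOn (F q.1) m (W q.1) {q.2} (ξ q.1)) :
    MBOn I l Ω ξ :=
  h.mb_par (A := fun i => m.adW (W i)) (fun a => ((hW a).clm adcL).mb) (C := 4) fun x hx =>
    (R x hx).mono fun q hq => ⟨hq.sm _ rfl, by
      rw [← sq_le_sq₀ (norm_nonneg _) (by norm_num), norm_sq H (hq.mem _ rfl) (hq.sq _ rfl)]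
      norm_num, hq.par _ rfl⟩

variable [l.NeBot] (hξ : Cv I l Ω ξ ξ₀)
include hξ

omit H in
/-- a limit of reductions is a reduction -/
theorem redOn_lim (R : ∀ x ∈ Ω, ∀ᶠ i in l, RedOn (F i) m (W i) {x} (ξ i)) :
    RedOn F₀ m W₀ Ω ξ₀ where
  sm _ hx := hξ.smoothAt hΩ hx
  mem x hx := hξ.mem_closed hx (m.gS x).closed_of_finiteDimensional
    ((R x hx).mono fun _ h => h.mem _ rfl)
  sq x hx := ((hξ.clm opL).mul (hξ.clm opL)).eq_of (Cv.const _) hx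
    ((R x hx).mono fun _ h => h.sq _ rfl)
  par x hx a := (h.nab hΩ (A := fun i => m.adW (W i)) (fun a => (hW a).clm adcL) hξ a).eq_of
    (Cv.const _) hx ((R x hx).mono fun _ h => h.par _ rfl a)

omit hξ in
theorem cv_Fg (hB : B.OK I) (s : ι × ι) :
    Cv I l Ω (fun i x => m.Fg (F i) (W i) x s) fun x => m.Fg F₀ W₀ x s :=
  (Cv.fixed' (Std94.sm_pg hB H)).app ((h.curv hΩ hW s.1 s.2).clm hsL)

theorem cv_fF (hB : B.OK I) (a b : ι) :
    Cv I l Ω (fun i => fF (F i) m (W i) (ξ i) a b) (fF F₀ m W₀ ξ₀ a b) :=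
  (((cv_Fg h hΩ H hW hB (a, b)).bil (innerSL ℝ) hξ).mul (Cv.const (16 : ℝ)⁻¹) :)

omit h hΩ H hW in
theorem half_lim {Φ : α → M → m.V} {Φ₀ : M → m.V} (hΦ : Cv I l Ω Φ Φ₀) {x : M} (hx : x ∈ Ω)
    (e : ∀ᶠ i in l, opL (ξ i x) (Φ i x) = m.J (Φ i x)) : opL (ξ₀ x) (Φ₀ x) = m.J (Φ₀ x) :=
  ((hξ.clm opL).app hΦ).eq_of (hΦ.clm m.J) hx e

omit h hΩ H hW hξ

omit [l.NeBot] in
/-- a smooth section which is a reduction on a dense set is a reduction -/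
theorem RedOn.of_dense {G : Geo I M ι lam} (R : RedOn G.F m W₀ Ω ξ₀) (hd : Dense Ω)
    (hs : An.Sm I ξ₀) (hB : B.OK I) (hG : G.OK B) (H : m.OK I B) (C : m.IsConn B G W₀) :
    Red G.F m W₀ ξ₀ := by
  have h1 : An.Sm I fun x => opL (ξ₀ x) := fun x => SA.clm opL (hs x)
  refine ⟨hs, fun x => ?_, fun x => ?_, fun a x => ?_⟩
  · rw [← congrFun (Continuous.ext_on hd (f := fun x => m.pg x (ξ₀ x))
      ((Std94.sm_pg hB H).continuous.clm_apply hs.continuous) hs.continuous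
      fun y hy => pg_of_mem (R.mem y hy)) x]
    exact pg_mem _ _
  · exact congrFun (Continuous.ext_on hd (h1.continuous.mul h1.continuous) H.sp.continuous.neg
      R.sq) x
  · exact congrFun (Continuous.ext_on hd (ContMDiff.continuous (n := ∞) fun y =>
      (Eqv71.geo_frm hG).sN (fun a => (con_adW C).sm a y) a (hs y)) continuous_const
      fun y hy => R.par y hy a) x

omit [l.NeBot] in
theorem half_of_dense {Φ₀ : M → m.V} (hd : Dense Ω) (hs : An.Sm I ξ₀) (hΦ : An.Sm I Φ₀)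
    (e : ∀ x ∈ Ω, opL (ξ₀ x) (Φ₀ x) = m.J (Φ₀ x)) (x : M) : opL (ξ₀ x) (Φ₀ x) = m.J (Φ₀ x) :=
  congrFun (Continuous.ext_on hd ((opL.continuous.comp hs.continuous).clm_apply hΦ.continuous)
    (m.J.continuous.comp hΦ.continuous) e) x

/-- on a closed manifold the class is eventually that of the limit -/
theorem ev_ex [CompactSpace M] {G : α → Geo I M ι lam} {G₀ : Geo I M ι lam} (hB : B.OK I)
    (H : m.OK I B) (hG₀ : G₀.OK B) (C₀ : m.IsConn B G₀ W₀) (R₀ : Red G₀.F m W₀ ξ₀)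
    (hξ : Cv I l Set.univ ξ ξ₀)
    (R : ∀ᶠ i in l, (G i).OK B ∧ m.IsConn B (G i) (W i) ∧ Red (G i).F m (W i) (ξ i)) :
    ∀ᶠ i in l, Ex I Set.univ (fm G₀.F m W₀ ξ₀ - fm (G i).F m (W i) (ξ i)) := by
  filter_upwards [R, hξ.unif isOpen_univ isCompact_univ subset_rfl one_pos] with i hi k
  refine hi.2.2.ex_close hB hi.1 H hi.2.1 R₀ hG₀ C₀ fun x => ?_
  have h1 := norm_sub_sq_real (ξ i x) (ξ₀ x)
  have h2 := k x trivial
  rw [hi.2.2.nrm H, R₀.nrm H, real_inner_comm] at h1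
  nlinarith [norm_nonneg (ξ i x - ξ₀ x)]

variable {r : ℕ} {𝒰 : Ultrafilter α} {G : α → Geo I M ι lam} {G₀ : Geo I M ι lam}
  {c : α → Cfg M ι lam r} {c₀ : Cfg M ι lam r}

/-- **limits of reductions and of points of type S** (the hypothesis `h` is `Eq82.SLim`) -/
theorem slim_red [CompactSpace M] (hB : B.OK I) (hG₀ : G₀.OK B) (A₀ : Eqv71.Ad0 c₀ B G₀)
    (f : FCv (𝒰 : Filter α) Set.univ (fun i => (G i).F) G₀.F)
    (h : ∃ (W : α → c₀.m.Cn) (Φ : α → M → c₀.m.V) (z : α → EuclideanSpace ℂ (Fin r)),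
      (∀ᶠ i in (𝒰 : Filter α), Cfg.Adm ⟨c₀.m, W i, Φ i, z i⟩ B (G i) ∧
        Cfg.Iso B (G i).F (c i) ⟨c₀.m, W i, Φ i, z i⟩) ∧
      (∀ a, Cv I 𝒰 Set.univ (fun i => W i a) (c₀.W a)) ∧ Cv I 𝒰 Set.univ Φ c₀.Φ ∧
      Tendsto z 𝒰 (𝓝 c₀.z)) {ξ : ∀ i, M → (c i).m.A}
    (R : ∀ᶠ i in (𝒰 : Filter α), (G i).OK B ∧ Eqv71.Ad0 (c i) B (G i) ∧
      Red (G i).F (c i).m (c i).W (ξ i)) :
    ∃ ξ₀, Red G₀.F c₀.m c₀.W ξ₀ ∧
      ((∀ᶠ i in (𝒰 : Filter α), SPt (G i).F (c i) (ξ i)) → SPt G₀.F c₀ ξ₀) ∧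
      (∀ a b, Cv I 𝒰 Set.univ (fun i => fF (G i).F (c i).m (c i).W (ξ i) a b)
        (fF G₀.F c₀.m c₀.W ξ₀ a b)) ∧
      ∀ᶠ i in (𝒰 : Filter α),
        Ex I Set.univ (fm G₀.F c₀.m c₀.W ξ₀ - fm (G i).F (c i).m (c i).W (ξ i)) := by
  obtain ⟨W, Φ, z, h1, hW, hΦ, -⟩ := h
  have key : ∀ᶠ i in (𝒰 : Filter α), ∃ η, Red (G i).F c₀.m (W i) η ∧
      fF (G i).F c₀.m (W i) η = fF (G i).F (c i).m (c i).W (ξ i) ∧
      (SPt (G i).F (c i) (ξ i) → ∀ x, opL (η x) (Φ i x) = c₀.m.J (Φ i x)) := by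
    filter_upwards [h1, R] with i ⟨a, u, ζ, e⟩ ⟨g, b, r⟩
    have k1 := r.ceq hB g b (Eqv71.ad0 a) e
    have k2 := r.fF_ceq hB g b (Eqv71.ad0 a) e
    refine ⟨_, k1, k2, fun S => ?_⟩
    have k3 := (S.ceq hB g b (Eqv71.ad0 a) e).Φ
    exact k3
  obtain ⟨η, hη⟩ := key.choice
  obtain ⟨ξ₀, hξ⟩ := (mb_red f A₀.ok hW fun x _ =>
    (tendsto_fst.eventually hη).mono fun q hq => hq.1.on _).exists_cv
  have R₀ := (redOn_lim f isOpen_univ hW hξ fun x _ => hη.mono fun i hi => hi.1.on _).red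
  refine ⟨ξ₀, R₀, fun S => ⟨R₀, fun x => half_lim hξ hΦ trivial
    ((hη.and S).mono fun i hi => hi.1.2.2 hi.2 x)⟩, fun a b =>
    (cv_fF f isOpen_univ A₀.ok hW hξ hB a b).congr' isOpen_univ
      (hη.mono fun i hi x _ => by rw [hi.2.1]) fun _ _ => rfl, ?_⟩
  filter_upwards [hη, ev_ex hB A₀.ok hG₀ A₀.conn R₀ hξ (G := G) (W := W)
    (((R.and h1).and hη).mono fun i hi => ⟨hi.1.1.1, hi.1.2.1.conn, hi.2.1⟩)] with i hi k
  rwa [fm, fm, hi.2.1] at k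

end Crest.Agent.X212.Abel74
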