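import Crest.Agent.X212.Abel74.Spt
import Crest.Agent.X212.Rf65.Poi
import Crest.Agent.X212.Num57.Cof
import Crest.Agent.X212.Dr59.HR

/-!
# Row 212, ABEL (helper74): spectral gap of the resolvent on closed manifolds
-/

set_option autoImplicit false
set_option linter.unusedSectionVars false
noncomputable section
open scoped Manifold ContDiff Topology InnerProductSpace
open Set Filter MeasureTheory

namespace Crest.Agent.X212.Abel74
open An Wz78 Wrd81 Mp86

variable {E : Type} [NormedAddCommGroup E] [NormedSpace ℝ E] [FiniteDimensional ℝ E]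
  [MeasurableSpace E] [BorelSpace E]
  {HM : Type} [TopologicalSpace HM] {I : ModelWithCorners ℝ E HM} [I.Boundaryless]
  {M : Type} [TopologicalSpace M] [ChartedSpace HM M] [IsManifold I ∞ M]
  [MeasurableSpace M] [T2Space M] [BorelSpace M] [SecondCountableTopology M]
  {ι : Type} [Fintype ι] {F : Fr I M ι}
  {V : Type} [NormedAddCommGroup V] [InnerProductSpace ℝ V] [FiniteDimensional ℝ V]
  {A : ι → M → V →L[ℝ] V} {s w : M → V}

/-- functions with vanishing derivatives are constant on connected open sets -/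
theorem const_of_D {U : Set M} (hU : IsOpen U) (hc : IsPreconnected U) {u : M → ℝ}
    (hu : ∀ x ∈ U, SA I u x) (h : ∀ a, ∀ x ∈ U, F.D a u x = 0) : ∃ r, ∀ x ∈ U, u x = r := by
  obtain ⟨r, hr⟩ := Dr59.Cl.const_of_preconnected (I := I) (a := Dr59.fn E u) hU hc
    ⟨Dr59.sm_fn hu, Dr59.dg_fn _, fun x hx => by
      rw [Dr59.dM_fn (hu x hx).md, ← Num57.fm1_k1 F (Dr59.dg_df (U := U) u x hx), Num57.fm1_apply]
      simp only [Num57.k1_df, fun a => h a x hx, zero_smul, Finset.sum_const_zero]⟩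
  exact ⟨r, fun x hx => FaithfulSMul.algebraMap_injective ℝ _ (hr x hx)⟩

theorem par_inner (hA : Mc I A) {U : Set M} (hU : IsOpen U) (hc : IsPreconnected U)
    (hs : Sm I s) (hw : Sm I w) (h1 : ∀ a, ∀ x ∈ U, nab I F.e A a s x = 0)
    (h2 : ∀ a, ∀ x ∈ U, nab I F.e A a w x = 0) : ∃ r, ∀ x ∈ U, ⟪s x, w x⟫_ℝ = r :=
  const_of_D (F := F) hU hc (fun x _ => SA.inner (hs x) (hw x)) fun a x hx => by
    rw [Pre.D_def, Wz78.dv_inner a (hA.sk a x) (hs x) (hw x), h1 a x hx, h2 a x hx]; simp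

/-- the section of a point of type S is unique -/
theorem SPt.unique [PreconnectedSpace M] {lam : Type} [Fintype lam] {r : ℕ} {B : Base M ι lam}
    {G : Geo I M ι lam} {c : Cfg M ι lam r} {ξ η : M → c.m.A} (S : SPt G.F c ξ) (S' : SPt G.F c η)
    (hB : B.OK I) (Ad : c.Adm B G) (h0 : c.Φ ≠ 0) : ξ = η := by
  obtain ⟨y, hy⟩ := Function.ne_iff.1 h0
  obtain ⟨r, hr⟩ := par_inner (mcA Ad.conn) isOpen_univ isPreconnected_univ S.sm S'.sm
    (fun a x _ => S.par a x) fun a x _ => S'.par a x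
  have e := hr y trivial
  rw [← xi_eq hB Ad.ok (S.mem y) (S.sq y) (S'.mem y) (S'.sq y)
    (by rw [← Ad.pos, ← mul_apply_eq_comp, p_pp Ad.ok]) hy (S.Φ y) (S'.Φ y), S.inn Ad.ok] at e
  funext x
  rw [← sub_eq_zero, ← norm_eq_zero, ← pow_eq_zero_iff two_ne_zero, norm_sub_sq_real,
    S.nrm Ad.ok, S'.nrm Ad.ok, hr x trivial, ← e]
  norm_num

variable (F A) in
/-- orthogonal to the parallel sections -/
def Orth (s : M → V) : Prop :=
  ∀ η : M → V, Sm I η → (∀ a x, nab I F.e A a η x = 0) → ∫ x, ⟪s x, η x⟫_ℝ ∂F.μ = 0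

variable [CompactSpace M]

theorem intg {f : M → ℝ} (hf : Continuous f) : Integrable f F.μ :=
  hf.integrable_of_hasCompactSupport (HasCompactSupport.of_compactSpace f)

theorem ip_isRes (hA : Mc I A) {u : M → V} (h : F.IsRes A s u) (hw : Sm I w) :
    ∫ x, ⟪s x, w x⟫_ℝ ∂F.μ = ∫ x, ⟪u x, w x⟫_ℝ ∂F.μ +
      ∫ x, ∑ a, ⟪nab I F.e A a u x, nab I F.e A a w x⟫_ℝ ∂F.μ := by
  rw [← integral_lap hA.sm hA.sk h.1 hw (HasCompactSupport.of_compactSpace w),
    ← integral_add (intg (h.1.continuous.inner hw.continuous))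
      (intg ((sm_lap hA.sm h.1).continuous.inner hw.continuous))]
  simp only [← inner_add_left, h.2.2]

theorem Orth.res (h : Orth F A s) (hA : Mc I A) : Orth F A (F.res A s) := fun η h1 h2 => by
  rcases res_cases F A s with k | k
  · simpa [h η h1 h2, h2] using (ip_isRes hA k h1).symm
  · simp [k.2]

theorem contr (h4 : Module.finrank ℝ E ≤ 4) (hA : Mc I A) : ∃ θ : ℝ, 0 ≤ θ ∧ θ < 1 ∧
    ∀ s : M → V, Continuous s → Orth F A s →
      ∫ x, ‖F.res A s x‖ ^ 2 ∂F.μ ≤ θ ^ 2 * ∫ x, ‖s x‖ ^ 2 ∂F.μ := by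
  obtain ⟨c, hc, hp⟩ := Rf65.poincare F h4 hA.sm hA.sk
  refine ⟨c / (c + 1), by positivity, (div_lt_one (by positivity)).2 (lt_add_one c),
    fun s hs ho => ?_⟩
  rcases res_cases F A s with k | k
  swap
  · simp only [k.2, Pi.zero_apply, norm_zero]; simp; positivity
  have h1 := hp _ k.1 (ho.res hA)
  have h2 := ip_isRes hA k k.1
  simp only [real_inner_self_eq_norm_sq] at h2
  have hv := k.1.continuous
  generalize F.res A s = v at *
  have h3 : ∫ x, ⟪s x, v x⟫_ℝ ∂F.μ ≤ c / (c + 1) / 2 * ∫ x, ‖s x‖ ^ 2 ∂F.μ +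
      (c + 1) / c / 2 * ∫ x, ‖v x‖ ^ 2 ∂F.μ := by
    rw [← integral_const_mul, ← integral_const_mul,
      ← integral_add (intg (by fun_prop)) (intg (by fun_prop))]
    refine integral_mono (intg (hs.inner hv)) (intg (by fun_prop)) fun x => ?_
    have a := real_inner_le_norm (s x) (v x)
    have b : 0 ≤ c / (c + 1) / 2 * (‖s x‖ - (c + 1) / c * ‖v x‖) ^ 2 := by positivity
    have d : c / (c + 1) / 2 * (‖s x‖ - (c + 1) / c * ‖v x‖) ^ 2 = c / (c + 1) / 2 * ‖s x‖ ^ 2 +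
      (c + 1) / c / 2 * ‖v x‖ ^ 2 - ‖s x‖ * ‖v x‖ := by field_simp; ring
    simp only
    linarith
  generalize ∫ x, ‖v x‖ ^ 2 ∂F.μ = N at *
  generalize ∫ x, ‖s x‖ ^ 2 ∂F.μ = S at *
  generalize ∫ x, ∑ a, ‖nab I F.e A a v x‖ ^ 2 ∂F.μ = D at *
  rw [h2] at h3
  have h5 : (c + 1) / c * N ≤ N + D := by
    rw [div_mul_eq_mul_div, div_le_iff₀ hc]; nlinarith
  have h6 : (c + 1) / c * N ≤ c / (c + 1) * S := by linarith
  have h7 := mul_le_mul_of_nonneg_left h6 (show 0 ≤ c / (c + 1) by positivity)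
  rw [← mul_assoc, show c / (c + 1) * ((c + 1) / c) = 1 by field_simp] at h7
  linarith [sq (c / (c + 1))]

theorem sm_iter (hs : Sm I s) (n : ℕ) : Sm I ((F.res A)^[n] s) := by
  cases n with
  | zero => exact hs
  | succ n => rw [Function.iterate_succ_apply']; exact sm_res _ _ _

/-- **spectral gap**: high powers of the resolvent are small from `L²` to `L^∞` -/
theorem gap_orth (h4 : Module.finrank ℝ E ≤ 4) (hA : Mc I A) {ε : ℝ} (hε : 0 < ε) :
    ∃ n₀, ∀ n ≥ n₀, ∀ s : M → V, Sm I s → Orth F A s → ∀ x,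
      ‖(F.res A)^[n] s x‖ ≤ ε * √(∫ x, ‖s x‖ ^ 2 ∂F.μ) := by
  obtain ⟨θ, h0, h1, h⟩ := contr (F := F) h4 hA
  obtain ⟨C, hF⟩ := Cht98.exists_tame F h4
  have hS := (l4_of_tame hF).mono (le_abs_self (C 0))
  have := Sob92.openPos F.toPre
  set K := (3 + 8 * |C 0| ^ 2) * √|C 0|
  have ht := (tendsto_pow_atTop_nhds_zero_of_lt_one h0 h1).const_mul K
  rw [mul_zero] at ht
  obtain ⟨n₀, hn⟩ := eventually_atTop.1 (ht.eventually (ge_mem_nhds hε))
  refine ⟨n₀ + 2, fun n hn' s hs ho x => ?_⟩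
  obtain ⟨k, rfl⟩ : ∃ k, n = k + 2 := ⟨n - 2, by omega⟩
  have key : ∀ k, Orth F A ((F.res A)^[k] s) ∧ ∫ x, ‖(F.res A)^[k] s x‖ ^ 2 ∂F.μ ≤
      (θ ^ k * √(∫ x, ‖s x‖ ^ 2 ∂F.μ)) ^ 2 := fun k => by
    induction k with
    | zero => exact ⟨ho, by
        rw [pow_zero, one_mul, Real.sq_sqrt (integral_nonneg fun _ => sq_nonneg _)]; rfl⟩
    | succ k ih =>
      rw [Function.iterate_succ_apply']
      refine ⟨ih.1.res hA, (h _ (sm_iter hs k).continuous ih.1).trans
        ((mul_le_mul_of_nonneg_left ih.2 (sq_nonneg _)).trans_eq (by ring))⟩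
  rw [Function.iterate_succ_apply', Function.iterate_succ_apply']
  refine (sup_res_res hA hS (abs_nonneg _) (by positivity) (sm_iter hs k).continuous
    (key k).2 x).trans ?_
  rw [← mul_assoc, ← mul_assoc]
  exact mul_le_mul_of_nonneg_right (hn k (by omega)) (Real.sqrt_nonneg _)

/-! ### the scalar resolvent -/

variable {u v : M → ℝ}

omit [CompactSpace M] in
theorem isRes_const (r : ℝ) : F.IsRes (fun _ _ => 0) (fun _ => r) fun _ => r :=
  ⟨contMDiff_const, ⟨_, fun _ => le_rfl⟩, fun x => by simp [lap, nab_zero]⟩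

theorem G0_const (r : ℝ) : G0 F (fun _ => r) = fun _ => r :=
  res_eq bumps_of_compact mc_zero (isRes_const r)

theorem G0_smul (r : ℝ) (u : M → ℝ) : G0 F (fun x => r * u x) = fun x => r * G0 F u x :=
  res_smul bumps_of_compact mc_zero r u

theorem sm_G0 (u : M → ℝ) : Sm I (G0 F u) := sm_res _ _ _

theorem sm_G0_iter (hu : Sm I u) (n : ℕ) : Sm I ((G0 F)^[n] u) := sm_iter hu n

theorem abs_G0_le {C : ℝ} (h : ∀ x, |u x| ≤ C) (x : M) : |G0 F u x| ≤ C :=
  norm_res_le bumps_of_compact mc_zero h x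

variable (h4 : Module.finrank ℝ E ≤ 4)
include h4

theorem isRes_G0 (hu : Sm I u) : F.IsRes (fun _ _ => 0) u (G0 F u) :=
  ((rh_closed h4 mc_zero fun _ _ => by simp).isRes_tst hu (HasCompactSupport.of_compactSpace u)).1

theorem G0_add (hu : Sm I u) (hv : Sm I v) :
    G0 F (fun x => u x + v x) = fun x => G0 F u x + G0 F v x :=
  res_add bumps_of_compact mc_zero ⟨_, isRes_G0 h4 hu⟩ ⟨_, isRes_G0 h4 hv⟩

theorem integral_G0 (hu : Sm I u) : ∫ x, G0 F u x ∂F.μ = ∫ x, u x ∂F.μ := by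
  simpa [nab_zero] using
    (ip_isRes (F := F) mc_zero (isRes_G0 h4 hu) (w := fun _ => 1) contMDiff_const).symm

theorem G0_iter_add (hu : Sm I u) (hv : Sm I v) (n : ℕ) :
    (G0 F)^[n] (fun x => u x + v x) = fun x => (G0 F)^[n] u x + (G0 F)^[n] v x := by
  induction n with
  | zero => rfl
  | succ n ih => simp only [Function.iterate_succ_apply', ih,
      G0_add h4 (sm_G0_iter hu n) (sm_G0_iter hv n)]

omit h4 in
theorem G0_iter_smul (r : ℝ) (u : M → ℝ) (n : ℕ) :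
    (G0 F)^[n] (fun x => r * u x) = fun x => r * (G0 F)^[n] u x := by
  induction n with
  | zero => rfl
  | succ n ih => simp only [Function.iterate_succ_apply', ih, G0_smul]

/-- **high powers of the scalar resolvent are close to the mean value** -/
theorem gap [PreconnectedSpace M] {ε : ℝ} (hε : 0 < ε) : ∃ n₀, ∀ n ≥ n₀, ∀ u : M → ℝ, Sm I u →
    ∀ x, |(G0 F)^[n] u x - ⨍ y, u y ∂F.μ| ≤ ε * √(∫ x, u x ^ 2 ∂F.μ) := by
  obtain ⟨n₀, h⟩ := gap_orth (F := F) h4 mc_zero hε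
  refine ⟨n₀, fun n hn u hu x => ?_⟩
  have hi := intg (F := F) hu.continuous
  set a := ⨍ y, u y ∂F.μ with ha
  have h0 : ∫ y, (u y + -a) ∂F.μ = 0 := integral_sub_average F.μ u
  have h1 := h n hn (fun y => u y + -a) (hu.add contMDiff_const) (fun η h1 h2 => by
    obtain ⟨r, hr⟩ := const_of_D (F := F) isOpen_univ isPreconnected_univ (fun x _ => h1 x)
      fun a x _ => by simpa [nab_zero, Pre.D_def] using h2 a x
    simp only [fun x => hr x trivial, RCLike.inner_apply, conj_trivial, integral_const_mul, h0,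
      mul_zero]) x
  change |(G0 F)^[n] _ x| ≤ _ at h1
  rw [G0_iter_add h4 hu contMDiff_const, Function.iterate_fixed (G0_const _)] at h1
  refine h1.trans (mul_le_mul_of_nonneg_left (Real.sqrt_le_sqrt ?_) hε.le)
  have hc := hu.continuous
  have e : ∫ y, u y ^ 2 ∂F.μ = ∫ y, (‖u y + -a‖ ^ 2 + (2 * a * (u y + -a) + a ^ 2)) ∂F.μ :=
    congrArg _ (funext fun y => by rw [Real.norm_eq_abs, sq_abs]; ring)
  rw [e, integral_add (intg (by fun_prop)) (intg (by fun_prop)),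
    integral_add (intg (by fun_prop)) (intg (by fun_prop)), integral_const_mul, h0]
  linarith [show 0 ≤ ∫ _ : M, a ^ 2 ∂F.μ from integral_nonneg fun _ => sq_nonneg _]

end Crest.Agent.X212.Abel74
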