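import Crest.Agent.X212.Abel74.Out
import Crest.Agent.X212.Mp86.Szl
import Crest.Agent.X212.Pj41.Two

/-!
# Row 212, CmpL (helper74): paths of frames converge; limits without bubbles
-/

set_option autoImplicit false
set_option linter.unusedSectionVars false
noncomputable section
open scoped Manifold ContDiff Topology InnerProductSpace NNReal
open Filter MeasureTheory Set

namespace Crest.Agent.X212.Abel74
open An Wz78 Eq82 Cmp73
open Pj41 (Iso0 OKOn ConnOn Par0 pshC)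
open Line51 (Ln)
open Prm93 (SB)

variable {E : Type} [NormedAddCommGroup E] [NormedSpace ℝ E] [FiniteDimensional ℝ E]
  [MeasurableSpace E] [BorelSpace E]
  {HM : Type} [TopologicalSpace HM] {I : ModelWithCorners ℝ E HM} [I.Boundaryless]
  {M : Type} [TopologicalSpace M] [ChartedSpace HM M] [IsManifold I ∞ M]
  [MeasurableSpace M] [BorelSpace M] [SecondCountableTopology M] [T2Space M]
  {ι : Type} [Fintype ι] {lam : Type} [Fintype lam] {r : ℕ} {α : Type} {l : Filter α}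

section sb
variable {T : Type} [NormedAddCommGroup T] [NormedSpace ℝ T] {N : Type} [NormedAddCommGroup N]
  [NormedSpace ℝ N] {F : Pre I M ι} {Q : Set T} {t : α → T} {t₀ : T} (hQ : IsOpen Q) (h₀ : t₀ ∈ Q)
  (ht : Tendsto t l (𝓝 t₀))
include hQ h₀ ht

theorem sb_mb (x : M) : ∀ (k : ℕ) {f : T → M → N}, SB F Q f → MB I l x k fun i => f (t i)
  | 0, f, h => by
    obtain ⟨C, hC⟩ := h.bound 0 h₀
    rw [hQ.nhdsWithin_eq h₀] at hC
    exact MB.zero_of (tendsto_fst.eventually ((ht.eventually (hQ.mem_nhds h₀)).mono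
      fun i hi y => (h.cb _ hi).choose_spec.1 y) |>.mono fun q hq => hq q.2)
      ⟨C, (tendsto_fst.eventually (ht.eventually hC)).mono fun q hq => hq [] le_rfl q.2⟩
  | k + 1, _, h => MB.gainP F (sb_mb x 0 h) fun a => sb_mb x k (h.D a)

/-- smooth families converge smoothly -/
theorem sb_cv {f : T → M → N} (h : SB F Q f) : Cv I l univ (fun i => f (t i)) (f t₀) :=
  ⟨fun k x _ => sb_mb hQ h₀ ht x k h, fun x _ =>
    ((h.ev x).continuousOn.continuousAt (hQ.mem_nhds h₀)).tendsto.comp ht⟩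

theorem fam_fcv {𝔉 : Mod61.Fam I M ι lam T} (h : 𝔉.OK) (e : 𝔉.Q = Q) :
    FCv l univ (fun i => (𝔉.G (t i)).F) (𝔉.G t₀).F := by
  subst e
  exact .of_mix 𝔉.F0.toPre ((ht.eventually (hQ.mem_nhds h₀)).mono fun i hi => h.mix _ hi)
    (h.mix _ h₀) (fun a b => sb_cv hQ h₀ ht (h.sS a b)) fun a b k => sb_cv hQ h₀ ht (h.sc a b k)

end sb

section conn
variable {B : Base M ι lam} {G G₀ : Geo I M ι lam} {m m' : Md M ι lam} {W : m.Cn} {W' : m'.Cn}
  {u : M → CL m.V m'.V} {O : Set M}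

theorem Ws_conn (h : Iso0 I m m' O u) (hO : IsOpen O) (hm : OKOn I B m O) (hm' : OKOn I B m' O)
    (hG : G.F.P = B.P) (C : ConnOn B G m W O) (C' : ConnOn B G₀ m' W' O) :
    ConnOn B G m' (Ws G.F W W' u) O := by
  have K := (Pj41.conn_push h hO hm hm' hG C).1
  have z : ∀ a, ∀ x ∈ O, ∀ T : En (Fin m'.N), m'.p x * T = T → T * m'.p x = T →
      Ws G.F W W' u a x * T - T * Ws G.F W W' u a x =
        pshC G.F u W a x * T - T * pshC G.F u W a x := fun a x hx T h1 h2 => by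
    have e1 : (1 - m'.p x) * T = 0 := by rw [sub_mul, one_mul, h1, sub_self]
    have e2 : T * (1 - m'.p x) = 0 := by rw [mul_sub, mul_one, h2, sub_self]
    rw [Ws_eq h hx (C'.sk a x hx), add_mul, mul_add, mul_assoc, e1, ← mul_assoc, ← mul_assoc, e2]
    simp
  have s : ∀ x ∈ O, SA I (fun y => 1 - m'.p y) x := fun x hx =>
    ContMDiffAt.sub contMDiffAt_const (hm'.sp x hx)
  refine ⟨fun a x hx => (ContMDiffAt.add (K.sm a x hx) (SA.mul (SA.mul (s x hx) (C'.sm a x hx))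
      (s x hx))).congr_of_eventuallyEq ((hO.eventually_mem hx).mono fun y hy =>
        Ws_eq h hy (C'.sk a y hy)), fun a x hx => ?_, fun a x hx => ?_, fun a b x hx => ?_,
    fun a x hx => Ws_skw h hO hm hm' C C'.sk hx a, fun a x hx => ?_, fun a x hx s => ?_⟩
  · simp only [Ws_eq h hx (C'.sk _ x hx), smul_add, Finset.sum_add_distrib, K.proj a x hx]
    rw [← C'.proj a x hx]
    simp only [Finset.mul_sum, Finset.sum_mul, mul_smul_comm, smul_mul_assoc]
  · rw [z a x hx _ (hm'.pidem x hx) (hm'.pidem x hx), K.par a x hx]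
  · rw [z a x hx _ ((hm'.cl x hx).pl b) ((hm'.cl x hx).pr b), K.comp a b x hx]
  · have c : Commute m'.J (1 - m'.p x) := (Commute.one_right _).sub_right (hm'.Jp x hx)
    rw [Ws_eq h hx (C'.sk a x hx)]
    exact (Commute.add_right (K.J a x hx) ((c.mul_right (C'.J a x hx)).mul_right c)).eq
  · rw [z a x hx _ (hm'.pj x hx s) (hm'.jp hx s), K.j a x hx]

theorem cv_Ws {Ω : Set M} {G : α → Geo I M ι lam} {m : α → Md M ι lam} {W : ∀ n, (m n).Cn}
    {u : ∀ n, M → CL (m n).V m'.V} (H : m'.OK I B) (C₀ : m'.IsConn B G₀ W')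
    (hA : ∀ a, Cv I l Ω (fun n => dft (G n).F (W n) W' (u n) a) fun _ => 0) (a : ι) :
    Cv I l Ω (fun n => Ws (G n).F (W n) W' (u n) a) (W' a) :=
  (((Cv.fixed' (C₀.cc.sm a)).sub (hA a)).add (((hA a).clm Eqv71.trnL).mul
    ((Cv.const 1).sub (Cv.fixed' H.sp)))).congr (fun _ _ => .of_forall fun _ => rfl)
    fun x _ => by simp

end conn

variable [CompactSpace M]

/-- **an Uhlenbeck limit without bubbles is a strong limit** -/
theorem slim_of {B : Base M ι lam} {G : α → Geo I M ι lam} {G₀ : Geo I M ι lam}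
    {c : α → Cfg M ι lam r} {c₀ : Cfg M ι lam r} {u : ∀ n, M → CL (c n).m.V c₀.m.V} (hB : B.OK I)
    (A : ∀ᶠ n in l, (G n).OK B ∧ (c n).Adm B (G n)) (A₀ : c₀.Adm B G₀)
    (hu : ∀ x, ∃ O, IsOpen O ∧ x ∈ O ∧ ∀ᶠ n in l, Iso0 I (c n).m c₀.m O (u n))
    (hA : ∀ a, Cv I l univ (fun n => dft (G n).F (c n).W c₀.W (u n) a) fun _ => 0)
    (hΦ : Cv I l univ (fun n x => u n x ((c n).Φ x)) c₀.Φ)
    (hz : Tendsto (fun n => (c n).z) l (𝓝 c₀.z)) : SLim B l G c c₀ := by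
  have i : ∀ᶠ n in l, ∀ x ∈ univ, Iso0 I (c n).m c₀.m {x} (u n) :=
    ev_compact isCompact_univ fun x _ => let ⟨O, h1, h2, h3⟩ := hu x
      (h3.prod_mk (h1.mem_nhds h2)).mono fun q hq => hq.1.mono (singleton_subset_iff.2 hq.2)
  refine ⟨fun n => Ws (G n).F (c n).W c₀.W (u n), _, _, ?_, cv_Ws A₀.ok A₀.conn hA, hΦ, hz⟩
  filter_upwards [A, i] with n ⟨hG, a⟩ k
  have h : Iso0 I (c n).m c₀.m univ (u n) :=
    ⟨fun x hx => (k x hx).su x rfl, fun x hx => (k x hx).iso x rfl, fun x hx => (k x hx).J x rfl,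
      fun x hx => (k x hx).ρ x rfl, fun x hx => (k x hx).j x rfl⟩
  have o := Pj41.OK.on a.ok univ
  have o' := Pj41.OK.on A₀.ok univ
  have C := Pj41.IsConn.on a.conn univ
  have C' := Pj41.IsConn.on A₀.conn univ
  have K := Ws_conn h isOpen_univ o o' hG.P C C'
  exact ⟨⟨A₀.ok, K.isConn A₀.ok, fun x => SA.app (h.su x trivial) (a.sm x),
    fun x => by rw [h.pp (B := B) (mem_univ x), a.pos], a.z⟩, u n, 1, h.mEq o o',
    (Pj41.par0_iff (K.proj' hB)).1 (Ws_par h isOpen_univ o o' C C'.sk),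
    fun x _ => by simp [cs], by simp⟩

variable [DecidableEq ι] {κ : Type} [Fintype κ] [DecidableEq κ] {X : Bk I M ι} {L : Ln E M κ}
  {𝒰 : Ultrafilter α}

theorem slim_of_lim {F : α → Fr I M ι} {F₀ : Fr I M ι} {c : α → Cfg M ι (κ ⊕ κ) r}
    {c₀ : Cfg M ι (κ ⊕ κ) r} {u : ∀ n, M → CL (c n).m.V c₀.m.V} (hg : (cG X L F F₀ 𝒰).OK)
    (A : ∀ n, (c n).Adm (X.B L) (L.geo (F n))) (h : (cG X L F F₀ 𝒰).Lim c c₀ ∅ u) :
    SLim (X.B L) 𝒰 (fun n => L.geo (F n)) c c₀ :=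
  slim_of hg.B₀ (.of_forall fun n => ⟨hg.H n, A n⟩) h.adm (fun x => h.iso x id)
    (fun a => compl_empty (α := M) ▸ h.A a) (compl_empty (α := M) ▸ h.Φ) h.z

variable (P : Pa X L) {t : α → ℝ} {t₀ : ℝ}

theorem pa_fcv (ht : Tendsto t l (𝓝 t₀)) : FCv l univ (fun i => P.F (t i)) (P.F t₀) := by
  have := fam_fcv isOpen_univ (mem_univ t₀) ht P.ok P.Q
  simp only [P.G] at this
  exact this

/-- **the backgrounds along a path converge** -/
theorem cG_ok (ht : Tendsto t 𝒰 (𝓝 t₀)) : (cG X L (fun i => P.F (t i)) (P.F t₀) 𝒰).OK := by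
  have f := pa_fcv P ht
  refine ⟨X.ok.h4, fun _ => P.hB, fun _ => P.hG _, P.hB, P.hG _, fun _ => P.hG _, finite_empty,
    fun _ _ => .of_forall fun _ => trivial, fun n => Pj41.FRel.refl _ isOpen_univ, fun _ _ _ _ _ _ _ => rfl,
    fun _ _ _ => rfl, fun _ => rfl, fun _ _ _ _ => rfl,
    fun a => ⟨fun k x => f.mb a k x trivial, fun x => f.pt a x trivial⟩, f.c, fun a => ?_⟩
  have := sb_cv isOpen_univ (mem_univ t₀) ht (P.Q ▸ P.ok.sa a)
  simp only [P.G] at this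
  exact this

end Crest.Agent.X212.Abel74
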