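import Crest.Agent.X212.Abel74.Iso
import Crest.Agent.X212.Grp76.Md
import Crest.Agent.X212.Mod61.Hs

/-!
# Row 212, ABEL (helper74): gauge transformations; close reductions have the same class
-/

set_option autoImplicit false
set_option linter.unusedSectionVars false
noncomputable section
open scoped Manifold ContDiff Topology InnerProductSpace
open Finset Filter
open Crest.Agent.R208 Crest.Agent.R208.F

namespace Crest.Agent.X212.Abel74
open An Wz78 Grp76 Std94 Dr59

variable {E : Type} [NormedAddCommGroup E] [NormedSpace ℝ E] [FiniteDimensional ℝ E]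
  [MeasurableSpace E] [BorelSpace E]
  {HM : Type} [TopologicalSpace HM] {I : ModelWithCorners ℝ E HM} [I.Boundaryless]
  {M : Type} [TopologicalSpace M] [ChartedSpace HM M] [IsManifold I ∞ M]
  [MeasurableSpace M] [BorelSpace M] [T2Space M] [SecondCountableTopology M] {ι : Type} [Fintype ι]
  {lam : Type} [Fintype lam]
  {m : Md M ι lam} {B : Base M ι lam} {G G' : Geo I M ι lam} {W W' : m.Cn} {ξ η : M → m.A}
  (hB : B.OK I) (hG : G.OK B) (H : m.OK I B) (C : m.IsConn B G W)
include hB hG H C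

/-- **a gauge transformation acts on connections** -/
theorem exists_gauge {u : M → En (Fin m.N)} (hs : An.Sm I u) (hi : ∀ x, Itx m m x (u x))
    (h1 : ∀ x, trn (u x) * u x = m.p x) (h2 : ∀ x, u x * trn (u x) = m.p x) :
    ∃ W', Eqv71.LM B G B G Set.univ id (fun x b a => B.P b a x) B.l W W' u := by
  have st : ∀ x, SA I (fun y => trn (u y)) x := fun x => Eqv71.sa_trn (hs x)
  have hn := fun a x => itx_nab H C (fun y => SA.md (hs y)) hi a x
  have hF := Eqv71.geo_frm hG
  have ht : ∀ a x, nabE I G.F.e W a (fun y => trn (u y)) x = trn (nabE I G.F.e W a u x) :=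
    fun a x => by
      simp only [nabE, Eqv71.dv_trn (hs x), map_add, map_sub, trn_mul, Skw.trn (C.sk a x)]
      noncomm_ring
  have hk : ∀ a x, Skw (nabE I G.F.e W a u x * trn (u x)) := fun a x => by
    have := nabE_mul (e := G.F.e) (A := W) a (hs x) (st x)
    rw [funext h2, show nabE I G.F.e W a m.p x = 0 from C.cc.par a x, ht] at this
    refine Eqv71.skw_of_trn ?_
    rw [trn_mul, Eqv71.trn_trn]
    exact eq_neg_of_add_eq_zero_right this.symm
  have C' := Mod61.isConn_addC H C (β := fun x => WithLp.toLp 2 fun a =>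
      -hsL (nabE I G.F.e W a u x * trn (u x)))
    (fun a x => (SA.clm hsL ((hF.sNE (fun a => C.cc.sm a x) a (hs x)).mul (st x))).neg)
    (fun x a => neg_mem (Fx.mem_of_itx (itx_mul hB H (hn a x) (itx_trn hB H (hi x))) (hk a x)))
    fun x a => by
      have : nabE I G.F.e W a u x = ∑ b, B.P a b x • nabE I G.F.e W b u x := by
        simp only [nabE, smul_add, sum_add_distrib, hF.projD]
        rw [← C.cc.proj a x]
        simp only [sum_mul, mul_sum, smul_mul_assoc, mul_smul_comm, smul_sub, sum_sub_distrib]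
      change ∑ b, B.P a b x • -hsL _ = -hsL _
      rw [this]
      simp only [smul_neg, sum_neg_distrib, sum_mul, map_sum, smul_mul_assoc, map_smul]
  refine ⟨_, (Eqv71.lg_refl hB hG isOpen_univ).lm H H C C' ⟨fun x _ => (hs x).contMDiffWithinAt,
    fun x _ => h1 x, fun x _ => h2 x, fun x _ => (itx_eq (hi x)).2.2.2.1, fun x _ b => ?_,
    fun x _ s => ?_⟩ fun x _ a => ?_⟩
  · rw [(H.cl x).proj b]
    exact ((itx_eq (hi x)).2.2.1 b).symm
  · rw [id, H.jl]
    exact ((itx_eq (hi x)).2.2.2.2 s).symm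
  · simp only [id, (hB.pr x).symm _ a, C'.cc.proj]
    change _ + (_ + opL (-hsL _)) * u x - u x * W a x = 0
    rw [map_neg, opL_hsL, add_mul, neg_mul, mul_assoc, h1, (itx_eq (hn a x)).2.1, nabE,
      Pre.D_def]
    abel

/-- **close reductions have cohomologous curvature forms** -/
theorem Red.ex_close (R : Red G.F m W ξ) (R' : Red G'.F m W' η) (hG' : G'.OK B)
    (C' : m.IsConn B G' W') (h : ∀ x, -16 < ⟪η x, ξ x⟫_ℝ) :
    Ex I Set.univ (fm G'.F m W' η - fm G.F m W ξ) := by
  set T : M → En (Fin m.N) := fun x => m.p x - opL (η x) * opL (ξ x) with hT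
  set s : M → ℝ := fun x => 2 + ⟪η x, ξ x⟫_ℝ / 8 with hs
  have s0 : ∀ x, 0 < s x := fun x => by have := h x; simp only [hs]; linarith
  have tT : ∀ x, trn (T x) = m.p x - opL (ξ x) * opL (η x) := fun x => by
    simp only [hT, map_sub, trn_mul, Sym.trn (H.psym x), Skw.trn (g_skw (R.mem x)),
      Skw.trn (g_skw (R'.mem x)), neg_mul_neg]
  have key : ∀ x {a b : m.A}, a ∈ m.gS x → b ∈ m.gS x → opL a * opL a = -m.p x →
      opL b * opL b = -m.p x → (m.p x - opL a * opL b) * (m.p x - opL b * opL a) =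
        (2 + ⟪a, b⟫_ℝ / 8) • m.p x := fun x a b ha hb qa qb => by
    have e := g_anti hB H ha hb
    have e2 : opL a * opL b * (opL b * opL a) = m.p x := by
      rw [mul_assoc, ← mul_assoc (opL b), qb, neg_mul, g_p ha, mul_neg, qa, neg_neg]
    rw [sub_mul, mul_sub, mul_sub, e2, H.pidem, ← mul_assoc, g_p hb, mul_assoc, g_p' H hb,
      add_smul, two_smul, ← neg_neg (⟪a, b⟫_ℝ / 8), ← neg_div, neg_smul, ← e]
    abel
  have nn : ∀ x, (√(s x))⁻¹ * (√(s x))⁻¹ * s x = 1 := fun x => by
    rw [← mul_inv, Real.mul_self_sqrt (s0 x).le, inv_mul_cancel₀ (s0 x).ne']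
  have ts : ∀ (r : ℝ) (A : En (Fin m.N)), trn (r • A) = r • trn A := map_smul Eqv71.trnL
  have h2 : ∀ x, T x * trn (T x) = s x • m.p x := fun x => by
    rw [tT]; exact key x (R'.mem x) (R.mem x) (R'.sq x) (R.sq x)
  obtain ⟨W₁, k⟩ := exists_gauge hB hG H C (u := fun x => (√(s x))⁻¹ • T x)
    (fun x => SA.smul ((((Real.contDiffAt_sqrt (s0 x).ne').inv (Real.sqrt_pos.2 (s0 x)).ne'
      ).contMDiffAt).comp x (contMDiffAt_const.add ((SA.app (SA.clm (innerSL ℝ) (R'.sm x))
        (R.sm x)).div_const 8))) ((H.sp x).sub (SA.mul (R'.sm_opL x) (R.sm_opL x))))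
    (fun x => by
      have a := R'.mem x
      have b := R.mem x
      refine itx_of ?_ ?_ (fun k => ?_) ?_ fun t => ?_ <;>
        simp only [hT, mul_smul_comm, smul_mul_assoc, mul_sub, sub_mul, H.pidem]
      · rw [← mul_assoc, g_p a]
      · rw [mul_assoc, g_p' H b]
      · rw [(H.cl x).pl, (H.cl x).pr, mul_assoc, ← g_ρ b, ← mul_assoc, ← g_ρ a, mul_assoc]
      · rw [H.Jp, mul_assoc, ← g_J b, ← mul_assoc, ← g_J a, mul_assoc]
      · rw [H.pj, j_p H, mul_assoc, ← g_j b, ← mul_assoc, ← g_j a, mul_assoc])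
    (fun x => by
      rw [ts, smul_mul_smul_comm, tT, key x (R.mem x) (R'.mem x) (R.sq x) (R'.sq x),
        real_inner_comm, smul_smul, nn, one_smul])
    fun x => by rw [ts, smul_mul_smul_comm, h2, smul_smul, nn, one_smul]
  have e : (fun x => Eqv71.cj ((√(s x))⁻¹ • T x) (ξ x)) = η := funext fun x => by
    have e1 : T x * opL (ξ x) = opL (η x) * T x := by
      simp only [hT, mul_sub, sub_mul, g_p (R.mem x), g_p' H (R'.mem x), mul_assoc, R.sq x]
      rw [← mul_assoc, R'.sq, mul_neg, neg_mul, g_p (R.mem x), g_p' H (R'.mem x)]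
      abel
    rw [Eqv71.cj_apply, ts]
    change hsL ((_ • T x) * (opL (ξ x) * (_ • trn (T x)))) = _
    rw [← mul_assoc, smul_mul_assoc, e1, smul_mul_smul_comm, mul_assoc, h2, mul_smul_comm,
      smul_smul, nn, one_smul, g_p' H (R'.mem x), hsL_opL]
  have R₁ := ((R.on _).iso k).red
  have e₁ : fm G.F m W₁ η = fm G.F m W ξ := congrArg (Num57.fm2 G.F) (funext fun a =>
    funext fun b => funext fun x => e ▸ fF_iso k trivial (R.mem x) a b)
  rw [e] at R₁
  exact e₁ ▸ R₁.ex_sub hG k.cn' R' hG' C'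

end Crest.Agent.X212.Abel74
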