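import Crest.Agent.X212.Abel74.Cmp
import Crest.Agent.X212.Cmp73.Qw

/-!
# Row 212, CmpL (helper74): `CmpL` from the core of COMP
-/

set_option autoImplicit false
set_option linter.unusedSectionVars false
noncomputable section
open scoped Manifold ContDiff Topology
open Filter Set

namespace Crest.Agent.X212.Abel74
open An Eq82 Cmp73
open Line51 (Ln)

variable {E : Type} [NormedAddCommGroup E] [NormedSpace ℝ E] [FiniteDimensional ℝ E]
  [MeasurableSpace E] [BorelSpace E]
  {HM : Type} [TopologicalSpace HM] {I : ModelWithCorners ℝ E HM} [I.Boundaryless]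
  {M : Type} [TopologicalSpace M] [ChartedSpace HM M] [IsManifold I ∞ M]
  [MeasurableSpace M] [BorelSpace M] [SecondCountableTopology M] [T2Space M] [CompactSpace M]
  {ι : Type} [Fintype ι] [DecidableEq ι] {lam : Type} [Fintype lam] {r m : ℕ} {α : Type}

theorem ifc {g : Gs I I M ι lam fun _ : α => M} {c : α → Cfg M ι lam r} (h : g.OK → g.Core c) :
    Ifc g c m :=
  ⟨h, fun k _ _ _ _ _ _ _ a b d => k.qt a b d, fun k _ _ _ _ _ a b d => k.qa a b d,
    fun k _ _ _ a b => k.qg a b, fun _ _ _ _ _ a b => a.add b,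
    fun k _ J _ _ _ a b => .fsum k J fun i hi => (a i hi).smul (b i), fun k e _ _ a b =>
      let ⟨h1, c', u, h2, h3⟩ := k.comp_sol a (fun n x => sub_eq_zero.1 ((b n).D x))
        (fun n x => sub_eq_zero.1 ((b n).C x)) (.of_forall fun n => (b n).S) e
      ⟨h1, c', u, h2, fun R => (h3 R).2⟩⟩

variable {κ : Type} [Fintype κ] [DecidableEq κ] {X : Bk I M ι} {L : Ln E M κ}

/-- **`CmpL` from the core of COMP** -/
theorem cmpL_core (hL : L.On I univ) (H : ∀ (α : Type) (r : ℕ)
    (g : Gs I I M ι (κ ⊕ κ) fun _ : α => M) (c : α → Cfg M ι (κ ⊕ κ) r), g.OK → g.Core c) :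
    CmpL X L := cmpL_of hL fun _ _ _ _ _ => ifc (H _ _ _ _)

end Crest.Agent.X212.Abel74
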