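import Crest.Agent.X212.Abel74.Kap
import Crest.Agent.X212.Shi84.Unq

/-!
# Row 212, CmpL (helper74): compactness on closed four-manifolds from the word layer of COMP
-/

set_option autoImplicit false
set_option linter.unusedSectionVars false
noncomputable section
open scoped Manifold ContDiff Topology InnerProductSpace NNReal
open Filter MeasureTheory Set

namespace Crest.Agent.X212.Abel74
open An Wz78 Eq82 Cmp73 Mp86
open Line51 (Ln)

variable {E : Type} [NormedAddCommGroup E] [NormedSpace ℝ E] [FiniteDimensional ℝ E]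
  [MeasurableSpace E] [BorelSpace E]
  {HM : Type} [TopologicalSpace HM] {I : ModelWithCorners ℝ E HM} [I.Boundaryless]
  {M : Type} [TopologicalSpace M] [ChartedSpace HM M] [IsManifold I ∞ M]
  [MeasurableSpace M] [BorelSpace M] [SecondCountableTopology M] [T2Space M] [CompactSpace M]
  {ι : Type} [Fintype ι] {lam : Type} [Fintype lam] {r m : ℕ} {α : Type}

/-- finite combinations of terms -/
def fpt {β : Type} (B : Base M ι lam) (F : Fr I M ι) (J : Finset β) (T : β → Tm M lam r m)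
    (a : β → ℝ) : Pt M ι lam r m where
  D c x := ∑ k ∈ J, a k • c.tD B F (T k) x
  C c x := ∑ k ∈ J, a k • c.tC B F (T k) x
  S c i := ∑ k ∈ J, (a k : ℂ) * c.tS F (T k) i

theorem wq_fpt (B : Base M ι lam) (F : Fr I M ι) {F₀ : Fr I M ι} {q : Eq82.Wt lam r m F₀ →₀ ℝ}
    {J : Finset (Eq82.Wt lam r m F₀)} (h : q.support ⊆ J) : wq B F q = fpt B F J Subtype.val q := by
  simp only [wq, fpt, Pt.mk.injEq]
  exact ⟨funext fun c => funext fun x => Finsupp.sum_of_support_subset _ h _ fun _ _ => zero_smul _ _,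
    funext fun c => funext fun x => Finsupp.sum_of_support_subset _ h _ fun _ _ => zero_smul _ _,
    funext fun c => funext fun x => Finsupp.sum_of_support_subset _ h _ fun _ _ => by simp⟩

/-- the values of a family of perturbations converge -/
abbrev QP (g : Gs I I M ι lam fun _ : α => M) (c : α → Cfg M ι lam r) (τ : α → Pt M ι lam r m)
    (τ₀ : Pt M ι lam r m) : Prop :=
  g.QT c (fun n => (τ n).D (c n)) (fun n => (τ n).C (c n)) (fun n => (τ n).S (c n)) τ₀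

/-- the word layer of COMP -/
structure Ifc (g : Gs I I M ι lam fun _ : α => M) (c : α → Cfg M ι lam r) (m : ℕ) : Prop where
  core : g.OK → g.Core c
  qt : g.Bk c → ∀ w K (T : α → Tm M lam r m) T' D C S, g.WR w → g.cT c T T' →
    (∀ n, vT (c n) (g.B n) (g.G n).F K (w n) (T n) (D n) (C n) (S n)) → g.QT c D C S (g.pT T')
  qa : g.Bk c → ∀ w K ξ ξ' s, g.WR w → g.cA c ξ ξ' →
    (∀ n, vA (c n) (g.G n).F K (w n) (ξ n) (s n)) → g.QA c s fun b => b.aw g.G₀.F (ξ' b)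
  qg : g.Bk c → ∀ a a' z, g.cG c a a' → (∀ n, vG (c n) (g.G n).F (a n) (z n)) →
    g.QC c z fun b => b.sg g.G₀.F (a' b)
  add : g.Bk c → ∀ (τ τ' : α → Pt M ι lam r m) τ₀ τ₀', QP g c τ τ₀ → QP g c τ' τ₀' →
    QP g c (fun n => (τ n).add (τ' n)) (τ₀.add τ₀')
  fsum : g.Bk c → ∀ (β : Type) (J : Finset β) (T : β → Tm M lam r m) (a : α → β → ℝ) a₀,
    (∀ k ∈ J, g.QT c (fun n => (c n).tD (g.B n) (g.G n).F (T k))
      (fun n => (c n).tC (g.B n) (g.G n).F (T k)) (fun n => (c n).tS (g.G n).F (T k))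
      (g.pT fun _ => T k)) → (∀ k, Tendsto (fun n => a n k) g.l (𝓝 (a₀ k))) →
    QP g c (fun n => fpt (g.B n) (g.G n).F J T (a n)) (fpt g.B₀ g.G₀.F J T a₀)
  sol : g.Bk c → (∀ x, (g.fb c (g.F g.Pᶜ x)).En) → ∀ (τ : α → Pt M ι lam r m) τ₀, QP g c τ τ₀ →
    (∀ n, (c n).Sol (g.B n) (g.G n) (τ n)) → g.Hyp c ∧ ∃ c' u, g.Lim c c' (g.S c) u ∧
      ((∃ C, ∀ x, ‖c'.m.Fg g.G₀.F c'.W x‖ ≤ C) → c'.Sol g.B₀ g.G₀ τ₀)

theorem ev_tmS {T : Type} {F₀ : Fr I M ι} {G : T → Geo I M ι lam} {K : Set T} (h : Un F₀ G K)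
    {X : Tm M lam r m} (hX : X.OK F₀) : ∀ᶠ N : ℕ in atTop, ∀ t ∈ K, TmS (G t).F N X := by
  cases X with
  | ad g k ξ => exact h.ev_sd hX.2.2.1
  | adn f g k φ L => exact ((eventually_all_finite L.finite_toSet).2 fun ξ hξ =>
      h.ev_sd (hX.2.2.2.2.2 ξ hξ).1).mono fun N a t ht ξ hξ => a ξ hξ t ht
  | _ => exact .of_forall fun _ _ _ => trivial

theorem tmB_empty [IsEmpty M] (c : Cfg M ι lam r) (F : Fr I M ι) (K : ℝ≥0) (w : M → ℝ)
    (T : Tm M lam r m) : TmB c F K w T := by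
  have : ∀ s, SdB c F K w s := fun s => by
    cases s
    exacts [trivial, ⟨by simp, isEmptyElim⟩]
  cases T <;> simp [TmB, this]

variable [DecidableEq ι] {κ : Type} [Fintype κ] [DecidableEq κ] {X : Bk I M ι} {L : Ln E M κ}
  {P : Pa X L} {t : α → ℝ} {c : α → Cfg M ι (κ ⊕ κ) r}

theorem pa_tame (P : Pa X L) (s : ℝ) : ∃ C, (P.F s).Tame C := by
  have := P.ok.tameG s (P.Q ▸ mem_univ s)
  rwa [P.G] at this

theorem pa_lh (A : ∀ n, (c n).Adm (X.B L) (L.geo (P.F (t n)))) (n : α) :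
    Lh (c n) (X.B L) (L.geo (P.F (t n))) := lh_of P.hB (P.hG _) (pa_tame P _) (A n)

/-- uniform bounds of the curvature seeds -/
theorem tmB_pa (ht : ∀ n, t n ∈ Icc (0 : ℝ) 1) (A : ∀ n, (c n).Adm (X.B L) (L.geo (P.F (t n))))
    {S R : ℝ} (S0 : 0 ≤ S) (hS : ∀ n, L4 (P.F (t n)).toPre S)
    (hR : ∀ n, ∫ x, ‖(c n).m.Fg (P.F (t n)) (c n).W x‖ ^ 2 ∂(P.F (t n)).μ ≤ R)
    {T : Tm M (κ ⊕ κ) r m} (hT : T.OK X.F) : ∃ K, ∀ n, TmB (c n) (P.F (t n)) K (fun _ => 1) T := by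
  obtain ⟨N, hN⟩ := (ev_tmS (un_pa P) hT).exists
  refine ⟨kS S N (|R| + 1), fun n => ?_⟩
  rcases isEmpty_or_nonempty M with _ | ⟨⟨x⟩⟩
  · exact tmB_empty ..
  refine tmB_le (pa_lh A n) (wts_one (hS n) S0) (by positivity) (fun _ => integ_of_cont
    ((continuous_const.mul (Mp86.sm_Fg P.hB (P.hG _) (A n).ok (A n).conn).continuous.norm).pow 2))
    (fun _ => ?_) (tm_fr _ hT) (hN _ (ht n)) x
  simp only [one_mul]
  exact (hR n).trans (by nlinarith [le_abs_self R, abs_nonneg R, sq_nonneg |R|])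

/-- the conclusion of `Cmp.comp` -/
def Cc (P : Pa X L) (𝒰 : Ultrafilter α) (t : α → ℝ) (t₀ : ℝ) (τ₀ : Pt M ι (κ ⊕ κ) r m)
    (c : α → Cfg M ι (κ ⊕ κ) r) (k : ℝ) : Prop :=
  ∃ (c₀ : Cfg M ι (κ ⊕ κ) r) (l : ℕ), c₀.Sol (X.B L) (L.geo (P.F t₀)) τ₀ ∧
    c₀.kap (X.B L) (L.geo (P.F t₀)) = k - l ∧
    (l = 0 → SLim (X.B L) (𝒰 : Filter α) (fun i => L.geo (P.F (t i))) c c₀) ∧
    (True → Out X (𝒰 : Filter α) (fun i => P.F (t i)) (P.F t₀) c c₀)

theorem Cc.reindex {𝒰 : Ultrafilter α} {t₀ k : ℝ} {τ₀ : Pt M ι (κ ⊕ κ) r m} {e : α → α}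
    (he : ∀ᶠ i in (𝒰 : Filter α), e i = i) (h : Cc P 𝒰 (t ∘ e) t₀ τ₀ (c ∘ e) k) :
    Cc P 𝒰 t t₀ τ₀ c k := by
  obtain ⟨c₀, l, h1, h2, h3, h4⟩ := h
  have k : ∀ {f : α → ℝ} {y : ℝ}, Tendsto (fun i => f (e i)) 𝒰 (𝓝 y) → Tendsto f 𝒰 (𝓝 y) :=
    fun {f} _ a => a.congr' (he.mono fun i hi => congrArg f hi)
  refine ⟨c₀, l, h1, h2, fun l0 => ?_, fun _ => ⟨fun o => k ((h4 trivial).ob o),
    fun g hg => k ((h4 trivial).sg g hg), fun ξ hξ => ?_⟩⟩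
  · obtain ⟨W, Φ, z, a, b⟩ := h3 l0
    exact ⟨W, Φ, z, (a.and he).mono fun i hi => by simpa only [Function.comp, hi.2] using hi.1, b⟩
  · obtain ⟨ξ₀, a, b⟩ := (h4 trivial).spt (fun i => ξ (e i))
      ((tendsto_id.congr' (EventuallyEq.symm he)).eventually hξ)
    exact ⟨ξ₀, a, fun y => k (f := fun i => X.Q (lab (P.F (t i)) (c i) (ξ i)) y) (b y)⟩

/-- compactness when all bounds hold for all indices -/
theorem comp_all (hL : L.On I univ) {𝒰 : Ultrafilter α} {t₀ k S C : ℝ} (ht : Tendsto t 𝒰 (𝓝 t₀))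
    (H : Ifc (cG X L (fun i => P.F (t i)) (P.F t₀) 𝒰) c m) {β β' : Type} {J : Finset β}
    {J' : Finset β'} {T : β → Tm M (κ ⊕ κ) r m} {T' : β' → Tm M (κ ⊕ κ) r m}
    (hT : ∀ k, (T k).OK X.F) (hT' : ∀ k, (T' k).OK X.F) {a : α → β → ℝ} {a' : α → β' → ℝ}
    {a₀ : β → ℝ} {a₀' : β' → ℝ} (ha : ∀ k, Tendsto (fun n => a n k) 𝒰 (𝓝 (a₀ k)))
    (ha' : ∀ k, Tendsto (fun n => a' n k) 𝒰 (𝓝 (a₀' k))) (h1 : ∀ n, t n ∈ Icc (0 : ℝ) 1)
    (h2 : ∀ n, (c n).Sol (X.B L) (L.geo (P.F (t n)))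
      ((fpt (X.B L) (P.F (t n)) J T (a n)).add (fpt (X.B L) (P.F (t n)) J' T' (a' n))))
    (h3 : ∀ n, (c n).kap (X.B L) (L.geo (P.F (t n))) = k) (S0 : 0 ≤ S)
    (h4 : ∀ n, L4 (P.F (t n)).toPre S) (h5 : ∀ n x, ‖(c n).Φ x‖ ^ 2 ≤ C)
    (h6 : ∀ n x, ‖(c n).m.p2 (X.B L) x ((c n).m.Fg (P.F (t n)) (c n).W x)‖ ≤ C)
    (h7 : ∀ n, ∫ x, ‖(c n).m.Fg (P.F (t n)) (c n).W x‖ ^ 2 ∂(P.F (t n)).μ ≤ C) :
    Cc P 𝒰 t t₀ ((fpt (X.B L) (P.F t₀) J T a₀).add (fpt (X.B L) (P.F t₀) J' T' a₀')) c k := by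
  have hg := cG_ok P ht
  have A := fun n => (h2 n).toAdm
  have K : (cG X L (fun i => P.F (t i)) (P.F t₀) 𝒰).Bk c := ⟨hg, H.core hg, Shi84.int hg,
    Shi84.fat hg, Shi84.unq (pa_tame P t₀).choose_spec, pa_tame P t₀, A,
    √C, .of_forall fun n x => Real.le_sqrt_of_sq_le (h5 n x)⟩
  have b := fun {T : Tm M (κ ⊕ κ) r m} => tmB_pa (T := T) h1 A S0 h4 h7
  have q := fun {T : Tm M (κ ⊕ κ) r m} (hT : T.OK X.F) => H.qt K _ _ _ _ _ _ _ wr_one
    (ct_fix hg c hT) fun n => (pa_lh A n).lit (tm_fr _ hT) ((b hT).choose_spec n)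
  obtain ⟨hy, c₀, u, h, s⟩ := H.sol K (fun x => ⟨C.toNNReal, univ, univ_mem, fun n => by
      have := (P.F (t n)).fin
      refine (setLIntegral_le_lintegral _ _).trans (le_trans (le_of_eq
        (ofReal_integral_eq_lintegral_ofReal (integ_of_cont (μ := (P.F (t n)).μ) ((Mp86.sm_Fg P.hB (P.hG _) (A n).ok
          (A n).conn).continuous.norm.pow 2)) (.of_forall fun _ => sq_nonneg _)).symm)
        (ENNReal.ofReal_le_ofReal (h7 n)))⟩) _ _
    (H.add K _ _ _ _ (H.fsum K _ J T a a₀ (fun k _ => q (hT k)) ha)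
      (H.fsum K _ J' T' a' a₀' (fun k _ => q (hT' k)) ha')) h2
  have bf := (lh_of P.hB (P.hG _) (pa_tame P t₀) h.adm).bF
  obtain ⟨l, l1, l2⟩ := kap_lim hg A hL (fun _ => P.pos _) (P.pos _) h h3 (.of_forall h6)
  have qa := fun {ξ : AW M} (hξ : ξ.OK X.F) => H.qa K _ _ _ _ _ wr_one (ca_fix hg c hξ) fun n =>
    (pa_lh A n).aw (aw_fr _ hξ) ((b (T := .ad 0 0 ξ)
      ⟨cd_of_sm _ contMDiff_const, cd_of_sm _ contMDiff_const, hξ⟩).choose_spec n)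
  refine ⟨c₀, l, s bf, l1, fun l0 => slim_of_lim hg A (l2 l0 ▸ h), fun _ => ⟨fun o => ?_,
    fun g k => (H.qg K _ _ _ (cg_fix hg c k) (fun n => (pa_lh A n).sg (sg_fr _ k)) c₀ u
      ⟨hy, h, bf⟩).norm, out_spt hL (fun _ => P.pos _) (P.pos _) hg hy h⟩⟩
  rcases o with _ | ⟨⟨ξ, hξ⟩, η, hη⟩
  · exact ob_none hg A h (.of_forall h5)
  have k1 := (qa hξ).lim c₀ u ⟨hy, h, bf⟩
  have k2 := (qa hη).lim c₀ u ⟨hy, h, bf⟩
  obtain ⟨C1, b1⟩ := (qa hξ).bd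
  obtain ⟨C2, b2⟩ := (qa hη).bd
  exact lim_int hg A h (la_inner hg A h k1 k2 (qa hη).p) (fun n => continuous_iff_continuousAt.2
    fun y => (((qa hξ).pf y).sm n y).continuousAt.inner (((qa hη).pf y).sm n y).continuousAt)
    (k1.sm.continuous.inner k2.sm.continuous) (C := C1 * C2) ((b1.and b2).mono fun n k x =>
      (norm_inner_le_norm _ _).trans (mul_le_mul (k.1 x) (k.2 x) (norm_nonneg _)
        ((norm_nonneg _).trans (k.1 x))))

theorem exists_reindex {l : Filter α} [l.NeBot] {p : α → Prop} (h : ∀ᶠ i in l, p i) :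
    ∃ e : α → α, (∀ᶠ i in l, e i = i) ∧ ∀ i, p (e i) := by
  classical
  obtain ⟨i₀, h₀⟩ := h.exists
  exact ⟨fun i => if p i then i else i₀, h.mono fun i hi => if_pos hi, fun i => by
    by_cases k : p i <;> simp only [k, if_true, if_false, h₀]⟩

/-- **`CmpL` from the word layer of COMP** -/
theorem cmpL_of (hL : L.On I univ) (H : ∀ (α : Type) (r m : ℕ) (g : Gs I I M ι (κ ⊕ κ) fun _ : α => M)
    (c : α → Cfg M ι (κ ⊕ κ) r), Ifc g c m) : CmpL X L := fun P D w hD hw r m => by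
  classical
  have e0 : (0 : ℝ) < 1 / 48 := by norm_num
  have e1 : (48 : ℝ) * (1 / 48) ≤ 1 := by norm_num
  refine ⟨1 / 48, e0, cmp_bdd P hD hw.continuous e0.le e1, fun α 𝒰 t t₀ q q₀ c k ht hq h => ?_⟩
  obtain ⟨C, C0, hC⟩ := apr_pa P hD hw.continuous e0.le e1 t hq
  obtain ⟨S, S0, hS⟩ := fam_l4 P.ok (P.Q ▸ mem_univ t₀) ht
  simp only [P.G] at hS
  obtain ⟨e, he, g⟩ := exists_reindex ((h.and hC).and hS)
  have te : Tendsto e 𝒰 𝒰 := tendsto_id.congr' (EventuallyEq.symm he)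
  obtain ⟨J, j1, j2⟩ := hq
  have sp : ∀ i, (q i).support ⊆ J ∪ q₀.support := fun i T hT => by
    by_contra hn
    rw [Finset.mem_union, not_or, Finsupp.notMem_support_iff] at hn
    exact Finsupp.mem_support_iff.1 hT ((j1 i T hn.1).trans hn.2)
  have b := fun i => (g i).1.2 (g i).1.1.1 (g i).1.1.2.1 _ (g i).1.1.2.2.1
  have p : 0 ≤ 128 * Real.pi ^ 2 * |k| := by positivity
  refine Cc.reindex he ?_
  rw [pq, wq_fpt _ _ (Finset.subset_union_right (s₁ := J))]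
  refine comp_all (C := 6 * C + 128 * Real.pi ^ 2 * |k|) hL (ht.comp te) (H _ _ _ _ _) (ed_ok hD)
    (fun T => T.2.1) (a := fun i => w (t (e i))) (a' := fun i => q (e i))
    (fun j => ((continuous_apply j).comp hw.continuous).continuousAt.tendsto.comp (ht.comp te))
    (fun T => (j2 T).comp te) (fun i => (g i).1.1.1) (fun i => ?_) (fun i => (g i).1.1.2.2.2) S0
    (fun i => (g i).2) (fun i x => ((b i).1 x).trans (by linarith)) (fun i x => ?_) fun i => ?_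
  · have := (g i).1.1.2.2.1
    rwa [pq, wq_fpt _ _ (sp _)] at this
  · refine le_add_of_le_of_nonneg (abs_le_of_sq_le_sq' (((solOn_of_sol (g i).1.1.2.2.1).norm_p2_sq
      P.hB (mem_univ x)).trans ?_) (by positivity)).2 p
    nlinarith [pow_le_pow_left₀ (sq_nonneg _) ((b i).1 x) 2,
      pow_le_pow_left₀ (norm_nonneg _) ((b i).2.1 x) 2]
  · refine (integral_Fg_sq P.hB (P.hG _) (g i).1.1.2.2.1.toAdm).2.trans_le (add_le_add
      ((mul_le_mul_of_nonneg_left (b i).2.2.2 zero_le_two).trans (by linarith)) ?_)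
    rw [(g i).1.1.2.2.2]
    exact mul_le_mul_of_nonneg_left (le_abs_self k) (by positivity)

end Crest.Agent.X212.Abel74
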