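import Crest.Agent.X212.Pat85.Tr
import Crest.Agent.X212.Cmp73.Core
import Crest.Agent.X212.Abel74.Cmf

/-!
# Row 212, CmpL (helper74): compactness for the abelian links
-/

set_option autoImplicit false
noncomputable section
open scoped Manifold ContDiff Topology
open Filter Set

namespace Crest.Agent.X212.Abel74
open An Eq82 Cmp73
open Line51 (Ln)

variable {E : Type} [NormedAddCommGroup E] [NormedSpace ℝ E] [FiniteDimensional ℝ E]
  [MeasurableSpace E] [BorelSpace E]
  {HM : Type} [TopologicalSpace HM] {I : ModelWithCorners ℝ E HM} [I.Boundaryless]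
  {M : Type} [TopologicalSpace M] [ChartedSpace HM M] [IsManifold I ∞ M]
  [MeasurableSpace M] [BorelSpace M] [SecondCountableTopology M] [T2Space M] [CompactSpace M]
  {ι : Type} [Fintype ι] [DecidableEq ι] {κ : Type} [Fintype κ] [DecidableEq κ] {X : Bk I M ι}
  {L : Ln E M κ}

theorem cmpL (hL : L.On I univ) : CmpL X L :=
  cmpL_core hL fun _ _ _ _ hg => hg.core fun _ ha =>
    Pat85.ga hg ha (E' := EuclideanSpace ℝ (Fin 4)) (Pat85.cvxOn_compact
      (ContinuousLinearEquiv.ofFinrankEq (by rw [hg.h4]; simp)) isCompact_univ) (by simp)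

end Crest.Agent.X212.Abel74
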