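import Crest.Agent.X212.Cmp73.Val
import Crest.Agent.X212.Mon62.REx
import Crest.Agent.X212.Mp86.Bd
import Crest.Agent.X212.Std94.Smo
import Crest.Agent.X212.Wz78.Par
import Crest.Agent.X212.Eqv71.Alg

/-!
# Row 212, CQ-LIT (helper74): the literal values of words are values in the sense of `Cmp73.Val`
-/

set_option autoImplicit false
set_option linter.unusedSectionVars false
noncomputable section
open scoped Manifold ContDiff Topology InnerProductSpace NNReal ENNReal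
open Filter MeasureTheory Set

namespace Crest.Agent.X212.Abel74
open An Wz78 Cmp73 Mp86
open Wrd81 (wd)

variable {E : Type} [NormedAddCommGroup E] [NormedSpace ℝ E] [FiniteDimensional ℝ E]
  [MeasurableSpace E] [BorelSpace E]
  {HM : Type} [TopologicalSpace HM] {I : ModelWithCorners ℝ E HM} [I.Boundaryless]
  {M : Type} [TopologicalSpace M] [ChartedSpace HM M] [IsManifold I ∞ M]
  [MeasurableSpace M] [BorelSpace M] [SecondCountableTopology M] [T2Space M]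
  {ι : Type} [Fintype ι] {lam : Type} [Fintype lam] {r n : ℕ}

section defs
variable (c : Cfg M ι lam r) (F : Fr I M ι) (K : ℝ≥0) (w : M → ℝ)

/-- the two bounds for a curvature seed -/
def CvB (f g h : M → ℝ) : Prop :=
  ∫⁻ x, ‖w x • F.res (c.m.adW c.W) (cvS c F f g h) x‖ₑ ^ 4 ∂F.μ ≤ K ∧
    ∀ x, ‖F.res (c.m.adW c.W) (F.res (c.m.adW c.W) (cvS c F f g h)) x‖ ≤ K

def SdB : Sd M → Prop
  | .q _ _ => True
  | .cv f g h => CvB c F K w f g h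

/-- all curvature seeds of a term are bounded -/
def TmB : Tm M lam r n → Prop
  | .ad _ _ ξ => SdB c F K w ξ.s
  | .adn _ _ _ _ L => ∀ ξ ∈ L, SdB c F K w ξ.s
  | _ => True

end defs

/-- the standing hypotheses -/
structure Lh (c : Cfg M ι lam r) (B : Base M ι lam) (G : Geo I M ι lam) : Prop where
  hB : B.OK I
  hG : G.OK B
  tame : ∃ C, G.F.Tame C
  ok : c.m.OK I B
  conn : c.m.IsConn B G c.W
  sm : An.Sm I c.Φ
  pos : ∀ x, c.m.pp B x (c.Φ x) = c.Φ x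
  bΦ : ∃ C, ∀ x, ‖c.Φ x‖ ≤ C
  bF : ∃ C, ∀ x, ‖c.m.Fg G.F c.W x‖ ≤ C

variable (I) in
/-- smooth and bounded -/
def SBd {N : Type} [NormedAddCommGroup N] [NormedSpace ℝ N] (s : M → N) : Prop :=
  An.Sm I s ∧ ∃ C, ∀ x, ‖s x‖ ≤ C

section sbd
variable {N N' : Type} [NormedAddCommGroup N] [NormedSpace ℝ N] [NormedAddCommGroup N']
  [NormedSpace ℝ N'] {s : M → N} {F : Fr I M ι}

theorem SBd.of_cb (h : F.Cb s) : SBd I s := let ⟨C, h1, h2⟩ := h; ⟨h1, C 0, h2 0 [] le_rfl⟩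

theorem SBd.of_le {t : M → N'} {f : M → ℝ} (hf : SBd I f) (h : SBd I s) (ht : An.Sm I t)
    (e : ∀ x, ‖t x‖ ≤ ‖f x‖ * ‖s x‖) : SBd I t :=
  let ⟨_, C, h1⟩ := hf; let ⟨_, D, h2⟩ := h
  ⟨ht, C * D, fun x => (e x).trans (mul_le_mul (h1 x) (h2 x) (norm_nonneg _)
    ((norm_nonneg _).trans (h1 x)))⟩

theorem SBd.const (a : N) : SBd I fun _ : M => a := ⟨contMDiff_const, _, fun _ => le_rfl⟩

theorem SBd.smul {f : M → ℝ} (hf : SBd I f) (h : SBd I s) : SBd I fun x => f x • s x :=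
  hf.of_le h (hf.1.smul h.1) fun _ => (norm_smul _ _).le

theorem SBd.sum {κ : Type} [Fintype κ] {u : κ → M → N} (h : ∀ k, SBd I (u k)) :
    SBd I fun x => ∑ k, u k x := by
  choose C hC using fun k => (h k).2
  exact ⟨contMDiff_finsetSum fun k _ => (h k).1, ∑ k, C k, fun x => norm_sum_le_of_le _
    fun k _ => hC k x⟩

theorem SBd.app {T : M → N →L[ℝ] N'} (hT : SBd I T) (h : SBd I s) : SBd I fun x => T x (s x) :=
  let ⟨a, C, h1⟩ := hT; let ⟨b, D, h2⟩ := h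
  ⟨a.clm_apply b, C * D, fun x => (T x).le_of_opNorm_le_of_le (h1 x) (h2 x)⟩

end sbd

section res
variable {V : Type} [NormedAddCommGroup V] [InnerProductSpace ℝ V] [FiniteDimensional ℝ V]
  {F : Fr I M ι} {A : ι → M → V →L[ℝ] V} {s : M → V}

theorem sbd_res (F : Fr I M ι) (A : ι → M → V →L[ℝ] V) (s : M → V) : SBd I (F.res A s) :=
  ⟨sm_res F A s, bdd_res F A s⟩

theorem rs_res (hF : ∃ C, F.Tame C) (hA : Mc I A) (hs : SBd I s) : Rs F A s (F.res A s) :=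
  let ⟨_, hF⟩ := hF
  ⟨sm_res F A s, (res_spec (Mon62.exists_res_sm hF hA.sm hA.sk hs.1 hs.2)).2.2,
    fun _ hm => norm_res_le (bumps_of_tame F hF) hA hm⟩

theorem itw_of {T : M → V →L[ℝ] V} {x : M} (h : ∀ a, nabE I F.e A a T x = 0) :
    Eqv71.Itw I F.e A A T x := fun a => by
  rw [← sub_eq_zero, ← h a, nabE, add_sub_assoc]; rfl

end res

namespace Lh
variable {c : Cfg M ι lam r} {B : Base M ι lam} {G : Geo I M ι lam} {K : ℝ≥0} {w : M → ℝ}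
  (h : Lh c B G)
include h

theorem bp : Bumps I G.F.e G.F.dv := let ⟨_, k⟩ := h.tame; bumps_of_tame _ k

theorem res_p {s : M → c.m.V} (hs : ∀ x, c.m.p x (s x) = s x) (x : M) :
    c.m.p x (G.F.res c.W s x) = G.F.res c.W s x :=
  res_fix h.bp (mc_W h.conn) h.ok.sp ⟨1, fun x => ContinuousLinearMap.opNorm_le_bound _ zero_le_one
    fun v => by rw [one_mul]; exact (proj_le (h.ok.psym x) (h.ok.pidem x) v).2.2⟩
    (fun x => itw_of fun a => h.conn.cc.par a x) hs x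

theorem res_g {s : M → c.m.A} (hs : ∀ x, s x ∈ c.m.gS x) (x : M) :
    G.F.res (c.m.adW c.W) s x ∈ c.m.gS x := by
  have sg := Std94.sm_pg h.hB h.ok
  rw [← res_fix h.bp (mc_adW h.conn) sg ⟨1, fun x => ContinuousLinearMap.opNorm_le_bound _
    zero_le_one fun v => by rw [one_mul]; exact norm_pg x v⟩
    (fun x => itw_of fun a => pg_par h.ok h.conn sg a x) (fun x => pg_of_mem (hs x)) x]
  exact pg_mem x _

theorem sbd_ρ (a : ι) : SBd I (c.m.ρ a) := by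
  classical
  refine ⟨h.ok.sρ a, 1, fun x => ContinuousLinearMap.opNorm_le_bound _ zero_le_one fun v => ?_⟩
  have := norm_cl (h.hB.pr x) (h.ok.cl x) (fun a => h.ok.ρsk a x) (h.ok.psym x) (h.ok.pidem x)
    (Pi.single a 1) v
  simp only [Pi.single_apply, ite_smul, one_smul, zero_smul, Finset.sum_ite_eq', Finset.mem_univ,
    if_true, ite_pow, one_pow, ne_eq, OfNat.ofNat_ne_zero, not_false_eq_true, zero_pow,
    one_mul] at this
  rw [one_mul]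
  exact (abs_le_of_sq_le_sq' this (norm_nonneg _)).2

theorem lt (t : Lt M) (s : M → c.m.V) (ht : t.OK G.F) (hs : SBd I s ∧ ∀ x, c.m.p x (s x) = s x) :
    (SBd I (c.lt G.F t s) ∧ ∀ x, c.m.p x (c.lt G.F t s x) = c.lt G.F t s x) ∧
      vLt c G.F t s (c.lt G.F t s) := by
  cases t with
  | mul f => exact ⟨⟨(SBd.of_cb ht).smul hs.1, fun x => by simp only [Cfg.lt, map_smul, hs.2]⟩, rfl⟩
  | cl g =>
    refine ⟨⟨SBd.sum fun a => (SBd.of_cb (ht.2 a)).smul ((h.sbd_ρ a).app hs.1), fun x => ?_⟩, rfl⟩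
    simp only [Cfg.lt, map_sum, map_smul, ← mul_apply_eq_comp (c.m.p x), (h.ok.cl x).pl]
  | im =>
    refine ⟨⟨(SBd.const _).app hs.1, fun x => ?_⟩, rfl⟩
    simp only [Cfg.lt, ← mul_apply_eq_comp (c.m.p x), ← h.ok.Jp, mul_apply_eq_comp c.m.J, hs.2]
  | G => exact ⟨⟨sbd_res _ _ _, h.res_p hs.2⟩, rs_res h.tame (mc_W h.conn) hs.1, h.res_p hs.2⟩

theorem sw {u : SW M} (hu : SW.OK G.F u) :
    (SBd I (c.sw G.F u) ∧ ∀ x, c.m.p x (c.sw G.F u x) = c.sw G.F u x) ∧ vS c G.F u (c.sw G.F u) :=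
  vw_wd (p := fun s => SBd I s ∧ ∀ x, c.m.p x (s x) = s x) ⟨⟨h.sm, h.bΦ⟩, fun x => by
    rw [← h.pos x, ← mul_apply_eq_comp, p_pp h.ok]⟩ h.lt u hu

theorem la (t : La M) (s : M → c.m.A) (ht : t.OK G.F) (hs : SBd I s ∧ ∀ x, s x ∈ c.m.gS x) :
    (SBd I (c.la G.F t s) ∧ ∀ x, c.la G.F t s x ∈ c.m.gS x) ∧ vLa c G.F t s (c.la G.F t s) := by
  cases t with
  | mul f => exact ⟨⟨(SBd.of_cb ht).smul hs.1, fun x => Submodule.smul_mem _ _ (hs.2 x)⟩, rfl⟩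
  | G => exact ⟨⟨sbd_res _ _ _, h.res_g hs.2⟩, rs_res h.tame (mc_adW h.conn) hs.1, h.res_g hs.2⟩

theorem sbd_q {a b : M → c.m.V} (ha : SBd I a) (hb : SBd I b) :
    SBd I fun x => c.m.q x (a x) (b x) :=
  let ⟨s, C, h1⟩ := ha; let ⟨t, D, h2⟩ := hb
  ⟨fun x => sa_q (Std94.sm_pg h.hB h.ok) (s x) (t x), C * D, fun x => (norm_q _ _).trans
    (mul_le_mul (h1 x) (h2 x) (norm_nonneg _) ((norm_nonneg _).trans (h1 x)))⟩

theorem sbd_cvS {f g k : M → ℝ} (hf : G.F.Cb f) (hg : G.F.Cd g) (hk : G.F.Cd k) :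
    SBd I (cvS c G.F f g k) :=
  SBd.sum fun s => (((SBd.of_cb hf).smul (.of_cb (hg.2 s.1))).smul (.of_cb (hk.2 s.2))).smul
    ⟨sm_Fg h.hG h.conn (Std94.sm_pg h.hB h.ok) s, h.bF.imp fun _ b x =>
      (PiLp.norm_apply_le _ s).trans (b x)⟩

theorem cv2 {f g k : M → ℝ} (hf : G.F.Cb f) (hg : G.F.Cd g) (hk : G.F.Cd k)
    (b : CvB c G.F K w f g k) : Cv2 c G.F K w (cvS c G.F f g k)
      (G.F.res (c.m.adW c.W) (cvS c G.F f g k))
      (G.F.res (c.m.adW c.W) (G.F.res (c.m.adW c.W) (cvS c G.F f g k))) :=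
  have m := h.res_g (s := cvS c G.F f g k) fun _ => Submodule.sum_mem _ fun _ _ =>
    Submodule.smul_mem _ _ (pg_mem _ _)
  ⟨sm_res _ _ _, sm_res _ _ _, m, h.res_g m, (rs_res h.tame (mc_adW h.conn) (h.sbd_cvS hf hg hk)).eq,
    (rs_res h.tame (mc_adW h.conn) (sbd_res _ _ _)).eq, b.1, b.2⟩

theorem sd {s : Sd M} (hs : s.OK G.F) (b : SdB c G.F K w s) :
    (SBd I (c.sd G.F s) ∧ ∀ x, c.sd G.F s x ∈ c.m.gS x) ∧ vSd c G.F K w s (c.sd G.F s) := by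
  cases s with
  | q u v => exact ⟨⟨h.sbd_q (h.sw hs.1).1.1 (h.sw hs.2).1.1, fun _ => q_mem _ _⟩,
      _, _, (h.sw hs.1).2, (h.sw hs.2).2, rfl⟩
  | cv f g k => exact ⟨⟨sbd_res _ _ _, (h.cv2 hs.1 hs.2.1 hs.2.2 b).m⟩, _, h.cv2 hs.1 hs.2.1 hs.2.2 b⟩

theorem aw {ξ : AW M} (hξ : ξ.OK G.F) (b : SdB c G.F K w ξ.s) : vA c G.F K w ξ (c.aw G.F ξ) :=
  ⟨_, (h.sd hξ.1 b).2, (vw_wd (p := fun s => SBd I s ∧ ∀ x, s x ∈ c.m.gS x) (h.sd hξ.1 b).1 h.la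
    ξ.l hξ.2).2⟩

theorem aws : ∀ {L : List (AW M)}, (∀ ξ ∈ L, ξ.OK G.F) → (∀ ξ ∈ L, SdB c G.F K w ξ.s) →
    vAs c G.F K w L (c.aws G.F L)
  | [], _, _ => rfl
  | _ :: _, a, b => ⟨_, aws (fun _ k => a _ (.tail _ k)) fun _ k => b _ (.tail _ k), _,
      h.aw (a _ (.head _)) (b _ (.head _)), rfl⟩

theorem sg {g : Sg M lam} (hg : g.OK G.F) : vG c G.F g (c.sg G.F g) :=
  ⟨_, _, (h.sw hg.2.2.1).2, (h.sw hg.2.2.2).2, rfl⟩

theorem sgs : ∀ {L : List (Sg M lam)}, (∀ g ∈ L, g.OK G.F) →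
    VW (fun g s u => ∃ a, vG c G.F g a ∧ u = ‖a‖ ^ 2 + s) 0 L
      (L.map fun g' => ‖c.sg G.F g'‖ ^ 2).sum
  | [], _ => rfl
  | _ :: _, a => ⟨_, sgs fun _ k => a _ (.tail _ k), _, h.sg (a _ (.head _)), rfl⟩

theorem co {d : Co M lam r} (hd : d.OK G.F) : vC c G.F d (c.co G.F d) := by
  cases d with
  | z i => rfl
  | s g L => exact ⟨_, _, h.sg hd.1, h.sgs hd.2, rfl⟩

theorem vj {d : Co M lam r} {s : M → Eu lam} {u : SW M} (hd : d.OK G.F) (hu : SW.OK G.F u) :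
    vJ c G.F d s u fun x => cs c.m.J (c.co G.F d) (c.m.j x (s x) (c.sw G.F u x)) :=
  ⟨_, _, h.co hd, (h.sw hu).2, rfl⟩

theorem sbd_j {s : M → Eu lam} {a : M → c.m.V} (hs : SBd I s) (ha : SBd I a) (z : ℂ) :
    SBd I fun x => cs c.m.J z (c.m.j x (s x) (a x)) :=
  let ⟨s1, C, h1⟩ := hs; let ⟨t, D, h2⟩ := ha
  (SBd.const (Eqv71.csL c.m.J z)).app ⟨(h.ok.sj.clm_apply s1).clm_apply t, C * D, fun x =>
    (norm_j h.hB h.ok x _ _).trans
      (mul_le_mul (h1 x) (h2 x) (norm_nonneg _) ((norm_nonneg _).trans (h1 x)))⟩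

theorem vq {d : Co M lam r} {s : M → Eu lam} {u v : SW M} {l : List (La M)} (hd : d.OK G.F)
    (hs : G.F.Cb s) (hu : SW.OK G.F u) (hv : SW.OK G.F v) (hl : ∀ t ∈ l, La.OK G.F t) :
    vQ c G.F d s u v l (wd (c.la G.F) (c.qj G.F d s u v) l) :=
  ⟨_, _, h.vj hd hu, (h.sw hv).2, (vw_wd (p := fun s => SBd I s ∧ ∀ x, s x ∈ c.m.gS x)
    ⟨h.sbd_q (h.sbd_j (.of_cb hs) (h.sw hu).1.1 _) (h.sw hv).1.1, fun _ => q_mem _ _⟩ h.la l hl).2⟩

/-- **LIT** -/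
theorem lit {T : Tm M lam r n} (hT : T.OK G.F) (b : TmB c G.F K w T) :
    vT c B G.F K w T (c.tD B G.F T) (c.tC B G.F T) (c.tS G.F T) := by
  cases T with
  | lin u => exact ⟨⟨_, (h.sw hT).2, rfl⟩, rfl, rfl⟩
  | anti d s u => exact ⟨⟨_, h.vj hT.1 hT.2.2, rfl⟩, rfl, rfl⟩
  | ad g k ξ => exact ⟨rfl, ⟨_, h.aw hT.2.2 b, funext fun x => by
      simp only [Cfg.tC, ddS, Pi.one_apply, one_mul]⟩, rfl⟩
  | adj d s g k u v l => exact ⟨rfl, ⟨_, h.vq hT.1 hT.2.1 hT.2.2.2.2.1 hT.2.2.2.2.2.1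
      hT.2.2.2.2.2.2, funext fun x => by simp only [Cfg.tC, ddS, Pi.one_apply, one_mul]⟩, rfl⟩
  | adn f g k φ L => exact ⟨rfl, ⟨_, h.aws hT.2.2.2.2.2 b, funext fun x => by
      simp only [Cfg.tC, ddS, smul_smul]⟩, rfl⟩
  | cut i z g => exact ⟨rfl, rfl, _, h.sg hT, rfl⟩
  | cz i z k => exact ⟨rfl, rfl, rfl⟩

end Lh

/-! ### the bounds of the seeds -/

section bounds
variable {c : Cfg M ι lam r} {B : Base M ι lam} {G : Geo I M ι lam} {K K' : ℝ≥0} {w w' : M → ℝ}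
  {S β : ℝ} {f g k : M → ℝ} {F : Fr I M ι}

theorem CvB.mono (h : CvB c F K w f g k) (hK : K ≤ K') (hw : ∀ x, |w' x| ≤ |w x|) :
    CvB c F K' w' f g k :=
  ⟨(lintegral_mono fun x => pow_le_pow_left' (enorm_le_iff_norm_le.2 (by
    rw [norm_smul, norm_smul]; exact mul_le_mul_of_nonneg_right (hw x) (norm_nonneg _))) 4).trans
      (h.1.trans (ENNReal.coe_le_coe.2 hK)), fun x => (h.2 x).trans (NNReal.coe_le_coe.2 hK)⟩

theorem SdB.mono {s : Sd M} (h : SdB c F K w s) (hK : K ≤ K') (hw : ∀ x, |w' x| ≤ |w x|) :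
    SdB c F K' w' s := by
  cases s
  exacts [trivial, CvB.mono h hK hw]

theorem TmB.mono {T : Tm M lam r n} (h : TmB c F K w T) (hK : K ≤ K') (hw : ∀ x, |w' x| ≤ |w x|) :
    TmB c F K' w' T := by
  cases T with
  | ad g k ξ => exact SdB.mono h hK hw
  | adn f g k φ L => exact fun ξ hξ => (h ξ hξ).mono hK hw
  | _ => trivial

/-- the bounds from weighted energies of the seed -/
theorem cvB_of {W : M → M → ℝ} (hW : Wts G.F S W) (h : c.m.IsConn B G c.W) (hβ : 0 ≤ β)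
    (hi : ∀ x, Integrable (fun y => (W x y * ‖cvS c G.F f g k y‖) ^ 2) G.F.μ)
    (hb : ∀ x, ∫ y, (W x y * ‖cvS c G.F f g k y‖) ^ 2 ∂G.F.μ ≤ β ^ 2)
    (h1 : (S * (2 * β) ^ 2) ^ 2 ≤ K) (h2 : 4 * (3 + 8 * S ^ 2) * √S * β ≤ K) (x₀ : M) :
    CvB c G.F K (W x₀) f g k := by
  have := Cht98.openPos G.F.toPre
  refine ⟨?_, fun x => ((le_mul_of_one_le_left (norm_nonneg _) (hW.one x)).trans
    ((hW.wt x).sup_GG (mc_adW h) hW.l4 hW.nn hβ (hi x) (hb x) x)).trans h2⟩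
  obtain ⟨a1, a2⟩ := (hW.wt x₀).l4_le (mc_adW h) hW.l4 hW.nn hβ (hi x₀) (hb x₀)
  have e : ∀ x, ‖W x₀ x • G.F.res (c.m.adW c.W) (cvS c G.F f g k) x‖ₑ ^ 4 =
      ENNReal.ofReal ((W x₀ x * ‖G.F.res (c.m.adW c.W) (cvS c G.F f g k) x‖) ^ 4) := fun x => by
    have := ((hW.wt x₀).pos x).le
    rw [← ofReal_norm, norm_smul, Real.norm_of_nonneg this,
      ENNReal.ofReal_pow (by positivity)]
  simp only [e]
  rw [← ofReal_integral_eq_lintegral_ofReal a1 (.of_forall fun _ => by positivity)]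
  exact ENNReal.ofReal_le_of_le_toReal (a2.trans h1)

theorem norm_cvS {N : ℝ} (hf : ∀ x, f x ^ 2 ≤ N) (hg : G1 F N g) (hk : G1 F N k) (y : M) :
    ‖cvS c F f g k y‖ ^ 2 ≤ N ^ 3 * ‖c.m.Fg F c.W y‖ ^ 2 := by
  refine (norm_sum_smul_sq _ _).trans (mul_le_mul_of_nonneg_right ?_ (sq_nonneg _))
  have N0 := (sq_nonneg _).trans (hf y)
  rw [sum_sq_prod (fun a => f y * F.D a g y) fun a => F.D a k y]
  simp only [mul_pow, ← Finset.mul_sum]
  rw [pow_succ N, sq N]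
  exact mul_le_mul (mul_le_mul (hf y) (hg y) (by positivity) N0) (hk y) (by positivity)
    (by positivity)

/-- the constant of the seeds -/
def kS (S N σ : ℝ) : ℝ≥0 :=
  ((S * (2 * (√(N ^ 3) * σ)) ^ 2) ^ 2 + |4 * (3 + 8 * S ^ 2) * √S * (√(N ^ 3) * σ)|).toNNReal

/-- the bounds from `Wts` and `Cfg.Le` -/
theorem cvB_le {W : M → M → ℝ} {σ N : ℝ} (hW : Wts G.F S W) (h : c.m.IsConn B G c.W)
    (hc : Continuous (cvS c G.F f g k)) (hσ0 : 0 ≤ σ)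
    (hi : ∀ x, Integrable (fun y => (W x y * ‖c.m.Fg G.F c.W y‖) ^ 2) G.F.μ)
    (hσ : ∀ x, ∫ y, (W x y * ‖c.m.Fg G.F c.W y‖) ^ 2 ∂G.F.μ ≤ σ ^ 2)
    (hf : ∀ x, f x ^ 2 ≤ N) (hg : G1 G.F N g) (hk : G1 G.F N k) (x₀ : M) :
    CvB c G.F (kS S N σ) (W x₀) f g k := by
  have N0 := (sq_nonneg _).trans (hf x₀)
  have le : ∀ x y, (W x y * ‖cvS c G.F f g k y‖) ^ 2 ≤
      N ^ 3 * (W x y * ‖c.m.Fg G.F c.W y‖) ^ 2 := fun x y => by
    rw [mul_pow, mul_pow, mul_left_comm]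
    exact mul_le_mul_of_nonneg_left (norm_cvS hf hg hk y) (sq_nonneg _)
  have i2 := fun x => ((hi x).const_mul (N ^ 3)).mono'
    (((hW.wt x).sm.continuous.mul hc.norm).pow 2).aestronglyMeasurable
    (.of_forall fun y => (Real.norm_of_nonneg (sq_nonneg _)).trans_le (le x y))
  refine cvB_of (β := √(N ^ 3) * σ) hW h (by positivity) i2 (fun x =>
    (integral_mono (i2 x) ((hi x).const_mul _) (le x)).trans ?_)
    ((le_add_of_nonneg_right (abs_nonneg _)).trans (Real.le_coe_toNNReal _))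
    (((le_abs_self _).trans (le_add_of_nonneg_left (sq_nonneg _))).trans (Real.le_coe_toNNReal _)) x₀
  rw [integral_const_mul, mul_pow, Real.sq_sqrt (by positivity)]
  exact mul_le_mul_of_nonneg_left (hσ x) (by positivity)

/-- the bounds from the energy on the support of `f` -/
theorem cvB_supp {W : M → M → ℝ} {σ N a : ℝ} (hW : Wts G.F S W) (h : c.m.IsConn B G c.W)
    (hc : Continuous (cvS c G.F f g k)) (hσ0 : 0 ≤ σ) {T : Set M} (hT : MeasurableSet T)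
    (h0 : ∀ y ∉ T, f y = 0) (ha : ∀ x, ∀ y ∈ T, W x y ≤ a) (a0 : 0 ≤ a)
    (hi : IntegrableOn (fun y => ‖c.m.Fg G.F c.W y‖ ^ 2) T G.F.μ)
    (hσ : ∫ y in T, ‖c.m.Fg G.F c.W y‖ ^ 2 ∂G.F.μ ≤ σ ^ 2)
    (hf : ∀ x, f x ^ 2 ≤ N) (hg : G1 G.F N g) (hk : G1 G.F N k) (x₀ : M) :
    CvB c G.F (kS S N (a * σ)) (W x₀) f g k := by
  have N0 := (sq_nonneg _).trans (hf x₀)
  have le : ∀ x y, (W x y * ‖cvS c G.F f g k y‖) ^ 2 ≤
      T.indicator (fun y => N ^ 3 * a ^ 2 * ‖c.m.Fg G.F c.W y‖ ^ 2) y := fun x y => by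
    by_cases hy : y ∈ T
    · rw [indicator_of_mem hy, mul_pow, mul_comm (N ^ 3), mul_assoc]
      exact mul_le_mul (pow_le_pow_left₀ ((hW.wt x).pos y).le (ha x y hy) 2) (norm_cvS hf hg hk y)
        (sq_nonneg _) (sq_nonneg _)
    · simp [indicator_of_notMem hy, cvS, h0 y hy]
  have i1 := (integrable_indicator_iff hT).2 (hi.const_mul (N ^ 3 * a ^ 2))
  have i2 := fun x => i1.mono' (((hW.wt x).sm.continuous.mul hc.norm).pow 2).aestronglyMeasurable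
    (.of_forall fun y => (Real.norm_of_nonneg (sq_nonneg _)).trans_le (le x y))
  refine cvB_of (β := √(N ^ 3) * (a * σ)) hW h (by positivity) i2 (fun x =>
    (integral_mono (i2 x) i1 (le x)).trans ?_)
    ((le_add_of_nonneg_right (abs_nonneg _)).trans (Real.le_coe_toNNReal _))
    (((le_abs_self _).trans (le_add_of_nonneg_left (sq_nonneg _))).trans (Real.le_coe_toNNReal _)) x₀
  rw [integral_indicator hT, integral_const_mul, mul_pow √_, Real.sq_sqrt (by positivity), mul_pow,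
    mul_assoc]
  gcongr

theorem sdB_le {W : M → M → ℝ} {σ : ℝ} {N : ℕ} (H : Lh c B G) (hW : Wts G.F S W) (hσ0 : 0 ≤ σ)
    (hi : ∀ x, Integrable (fun y => (W x y * ‖c.m.Fg G.F c.W y‖) ^ 2) G.F.μ)
    (hσ : ∀ x, ∫ y, (W x y * ‖c.m.Fg G.F c.W y‖) ^ 2 ∂G.F.μ ≤ σ ^ 2) {s : Sd M} (ho : s.OK G.F)
    (hs : SdSz G.F N s) (x₀ : M) : SdB c G.F (kS S N σ) (W x₀) s := by
  cases s with
  | q u v => trivial
  | cv f g k =>
    exact cvB_le hW H.conn (H.sbd_cvS ho.1 ho.2.1 ho.2.2).1.continuous hσ0 hi hσ hs.1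
      hs.2.1 hs.2.2 x₀

/-- sizes of the curvature seeds of a term -/
def TmS (F : Fr I M ι) (N : ℕ) : Tm M lam r n → Prop
  | .ad _ _ ξ => SdSz F N ξ.s
  | .adn _ _ _ _ L => ∀ ξ ∈ L, SdSz F N ξ.s
  | _ => True

theorem tmB_le {W : M → M → ℝ} {σ : ℝ} {N : ℕ} (H : Lh c B G) (hW : Wts G.F S W) (hσ0 : 0 ≤ σ)
    (hi : ∀ x, Integrable (fun y => (W x y * ‖c.m.Fg G.F c.W y‖) ^ 2) G.F.μ)
    (hσ : ∀ x, ∫ y, (W x y * ‖c.m.Fg G.F c.W y‖) ^ 2 ∂G.F.μ ≤ σ ^ 2) {T : Tm M lam r n}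
    (ho : T.OK G.F) (hs : TmS G.F N T) (x₀ : M) : TmB c G.F (kS S N σ) (W x₀) T := by
  cases T with
  | ad g k ξ => exact sdB_le H hW hσ0 hi hσ ho.2.2.1 hs x₀
  | adn f g k φ L => exact fun ξ hξ => sdB_le H hW hσ0 hi hσ (ho.2.2.2.2.2 ξ hξ).1 (hs ξ hξ) x₀
  | _ => trivial

end bounds

end Crest.Agent.X212.Abel74
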