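import Crest.Agent.X212.Abel74.Cg
import Crest.Agent.X212.Abel74.Lit
import Crest.Agent.X212.Shi84.Int
import Crest.Agent.X212.Cmp73.Lvc
import Crest.Agent.X212.Eq82.Obn

/-!
# Row 212, CmpL (helper74): uniform Sobolev constants; fixed words are convergent syntax
-/

set_option autoImplicit false
set_option linter.unusedSectionVars false
noncomputable section
open scoped Manifold ContDiff Topology InnerProductSpace NNReal
open Filter MeasureTheory Set

namespace Crest.Agent.X212.Abel74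
open An Wz78 Eq82 Cmp73 Mp86
open Line51 (Ln)
open Prm93 (SB Mix)

variable {E : Type} [NormedAddCommGroup E] [NormedSpace ℝ E] [FiniteDimensional ℝ E]
  [MeasurableSpace E] [BorelSpace E]
  {HM : Type} [TopologicalSpace HM] {I : ModelWithCorners ℝ E HM} [I.Boundaryless]
  {M : Type} [TopologicalSpace M] [ChartedSpace HM M] [IsManifold I ∞ M]
  [MeasurableSpace M] [BorelSpace M] [SecondCountableTopology M] [T2Space M] [CompactSpace M]
  {ι : Type} [Fintype ι] {lam : Type} [Fintype lam] {r n : ℕ} {α : Type} {l : Filter α}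
  {N : Type} [NormedAddCommGroup N] [NormedSpace ℝ N]

theorem mb_bdd {f : α → M → N} (h : MBOn I l univ f) : ∃ C, ∀ᶠ i in l, ∀ x, ‖f i x‖ ≤ C := by
  obtain ⟨C, hC⟩ : ∃ C, ∀ᶠ i in l, ∀ x ∈ univ, ‖f i x‖ ≤ C := by
    refine isCompact_univ.induction_on (p := fun s => ∃ C, ∀ᶠ i in l, ∀ x ∈ s, ‖f i x‖ ≤ C)
      ⟨0, by simp⟩ (fun s t hs ⟨C, hC⟩ => ⟨C, hC.mono fun n hn x hx => hn x (hs hx)⟩)
      (fun s t ⟨C, hC⟩ ⟨D, hD⟩ => ⟨max C D, (hC.and hD).mono fun n hn x hx => hx.elim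
        (fun k => le_max_of_le_left (hn.1 x k)) fun k => le_max_of_le_right (hn.2 x k)⟩) fun x _ => ?_
    obtain ⟨C, hC⟩ := (h 0 x trivial).bdd
    obtain ⟨s, hs, t, ht, k⟩ := mem_prod_iff.1 hC
    exact ⟨t, nhdsWithin_le_nhds ht, C, mem_of_superset hs fun n hn y hy => @k (n, y) ⟨hn, hy⟩⟩
  exact ⟨C, hC.mono fun i hi x => hi x trivial⟩

/-- Sobolev constants of comparable frames -/
theorem l4_mix {F F' : Pre I M ι} {A : ι → ι → M → ℝ} (h : Mix F' F A) {S C a b : ℝ} (hS : L4 F S)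
    (S0 : 0 ≤ S) (hA : ∀ x, ∑ s : ι × ι, A s.1 s.2 x ^ 2 ≤ C) {ρ : M → ℝ} (hρ : Continuous ρ)
    (e : F'.μ = F.μ.withDensity fun x => ENNReal.ofReal (ρ x)) (ha : 0 < a)
    (h1 : ∀ x, a ≤ ρ x ∧ ρ x ≤ b) : L4 F' (√b * S * ((1 + |C|) / a)) := fun f hf hc => by
  have := F.fin
  have := F'.fin
  have i : ∀ g : M → ℝ, ∫ x, g x ∂F'.μ = ∫ x, ρ x * g x ∂F.μ := fun g => by
    rw [e, integral_withDensity_eq_integral_toReal_smul hρ.measurable.ennreal_ofReal (by simp)]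
    exact integral_congr_ae (.of_forall fun x => by
      simp only [ENNReal.toReal_ofReal (ha.le.trans (h1 x).1), smul_eq_mul])
  have g : ∀ {μ : Measure M} [IsFiniteMeasureOnCompacts μ] {g : M → ℝ}, Continuous g →
    Integrable g μ := fun k => k.integrable_of_hasCompactSupport (.of_compactSpace _)
  have c := hf.continuous
  have d : ∀ (P : Pre I M ι) a, Continuous (P.D a f) := fun P a => (P.sm_D hf a).continuous
  have ip : ∀ P : Pre I M ι, P.ip 1 f f = ∫ x, (f x ^ 2 + ∑ a, P.D a f x ^ 2) ∂P.μ := fun P => by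
    have := P.fin
    rw [integral_add (g (by fun_prop)) (g (by fun_prop)),
      integral_finsetSum _ fun a _ => g ((d P a).fun_pow 2)]
    simp only [Pre.ip, real_inner_self_eq_norm_sq, Real.norm_eq_abs, sq_abs]
  have k1 : ∫ x, f x ^ 4 ∂F'.μ ≤ b * ∫ x, f x ^ 4 ∂F.μ := by
    rw [i, ← integral_const_mul]
    exact integral_mono (g (by fun_prop)) (g (by fun_prop)) fun x =>
      mul_le_mul_of_nonneg_right (h1 x).2 (by positivity)
  have k2 : F.ip 1 f f ≤ (1 + |C|) / a * F'.ip 1 f f := by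
    rw [ip, ip, i, ← integral_const_mul]
    refine integral_mono (g (by fun_prop)) (g (by fun_prop)) fun x => ?_
    have p : ∑ a, F.D a f x ^ 2 ≤ |C| * ∑ a, F'.D a f x ^ 2 := by
      refine le_trans ?_ (mul_le_mul_of_nonneg_right ((hA x).trans (le_abs_self C)) (by positivity))
      rw [Fintype.sum_prod_type, Finset.sum_mul]
      exact Finset.sum_le_sum fun a _ => by
        rw [h.D]; exact Finset.sum_mul_sq_le_sq_mul_sq _ _ _
    have q : 0 ≤ ∑ a, F'.D a f x ^ 2 := by positivity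
    refine le_trans ?_ (mul_le_mul_of_nonneg_left (mul_le_mul_of_nonneg_right (h1 x).1
      (by positivity)) (by positivity))
    rw [← mul_assoc, div_mul_cancel₀ _ ha.ne']
    nlinarith [mul_nonneg (abs_nonneg C) (sq_nonneg (f x))]
  refine (Real.sqrt_le_sqrt k1).trans ?_
  rw [Real.sqrt_mul' _ (integral_nonneg fun x => by positivity), mul_assoc, mul_assoc]
  exact mul_le_mul_of_nonneg_left ((hS f hf hc).trans (mul_le_mul_of_nonneg_left k2 S0))
    (Real.sqrt_nonneg _)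

/-- **uniform Sobolev constants in smooth families** -/
theorem fam_l4 [l.NeBot] {T : Type} [NormedAddCommGroup T] [NormedSpace ℝ T]
    {𝔉 : Mod61.Fam I M ι lam T} (h : 𝔉.OK) {t : α → T} {t₀ : T} (h₀ : t₀ ∈ 𝔉.Q)
    (ht : Tendsto t l (𝓝 t₀)) : ∃ S, 0 ≤ S ∧ ∀ᶠ i in l, L4 (𝔉.G (t i)).F.toPre S := by
  obtain ⟨ρ, r1, r2⟩ := h.dens
  obtain ⟨S, hS⟩ := h.tame
  have c := sb_cv h.opn h₀ ht r1
  obtain ⟨b, hb⟩ := mb_bdd c.mb
  obtain ⟨C, hC⟩ := mb_bdd (Cv.sum fun s : ι × ι => (sb_cv h.opn h₀ ht (h.sSi s.1 s.2)).mul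
    (sb_cv h.opn h₀ ht (h.sSi s.1 s.2))).mb
  obtain ⟨a, a0, ha⟩ := isCompact_univ.exists_forall_le' (f := ρ t₀) (a := 0)
    (Prm93.Cb.sm (r1.cb _ h₀)).continuous.continuousOn fun x _ => (r2 _ h₀).1 x
  refine ⟨√b * |S 0| * ((1 + |C|) / (a / 2)), by positivity, ?_⟩
  filter_upwards [hb, hC, c.unif isOpen_univ isCompact_univ subset_rfl (half_pos a0),
    ht.eventually (h.opn.mem_nhds h₀)] with i h1 h2 h3 h4
  refine l4_mix (A := fun a b x => 𝔉.Si (t i) x a b) (fun a x => ?_)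
    ((l4_of_tame hS).mono (le_abs_self _)) (abs_nonneg _)
    (fun x => by simpa only [sq] using (le_abs_self _).trans (h2 x))
    (Prm93.Cb.sm (r1.cb _ h4)).continuous (r2 _ h4).2 (half_pos a0) fun x =>
      ⟨by linarith [(abs_lt.1 (h3 x trivial)).1, ha x trivial], (le_abs_self _).trans (h1 x)⟩
  simp only [h.mix _ h4 _ x, Finset.smul_sum, smul_smul]
  rw [Finset.sum_comm]
  simp only [← Finset.sum_smul, h.SiS _ h4, ← h.P0, 𝔉.F0.P_e]

theorem fl_const {β τ : Type} {R : (α → τ) → (β → τ) → Prop} :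
    ∀ l : List τ, (∀ t ∈ l, R (fun _ => t) fun _ => t) → FL R (fun _ => l) fun _ => l
  | [], _ => .nil
  | t :: l, h => .cons (h t List.mem_cons_self) (fl_const l fun a ha => h a (.tail _ ha))

theorem lh_of {B : Base M ι lam} {G : Geo I M ι lam} {c : Cfg M ι lam r} (hB : B.OK I)
    (hG : G.OK B) (hT : ∃ C, G.F.Tame C) (h : c.Adm B G) : Lh c B G := by
  have b : ∀ {V : Type} [NormedAddCommGroup V] {s : M → V}, Continuous (fun x => ‖s x‖) →
      ∃ C, ∀ x, ‖s x‖ ≤ C := fun k =>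
    let ⟨C, hC⟩ := (isCompact_range k).bddAbove; ⟨C, fun x => hC ⟨x, rfl⟩⟩
  refine ⟨hB, hG, hT, h.ok, h.conn, h.sm, h.pos, b h.sm.continuous.norm, b ?_⟩
  rw [funext fun x => PiLp.norm_eq_of_L2 (c.m.Fg G.F c.W x)]
  exact (continuous_finsetSum _ fun s _ =>
    (sm_Fg hG h.conn (Std94.sm_pg hB h.ok) s).continuous.norm.pow 2).sqrt

section syn
variable [DecidableEq ι] {κ : Type} [Fintype κ] [DecidableEq κ] {X : Bk I M ι} {L : Ln E M κ}
  {𝒰 : Ultrafilter α} {F : α → Fr I M ι} {F₀ F₁ : Fr I M ι} (hg : (cG X L F F₀ 𝒰).OK)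
  (c : α → Cfg M ι (κ ⊕ κ) r)
include hg

theorem fc_of [FiniteDimensional ℝ N] {f : α → M → N} {f' : M → N} (sm : ∀ n, An.Sm I (f n))
    (h : Cv I 𝒰 univ f f') : (cG X L F F₀ 𝒰).FC c f f' :=
  ⟨fun x => Shi84.cs_of_mb hg subset_rfl sm (fun _ _ _ => rfl) fun k => h.mb k x trivial,
    mb_bdd h.mb, fun x => h.smoothAt isOpen_univ (mem_univ x), h.mono le_rfl (subset_univ _)⟩

theorem fc_fix [FiniteDimensional ℝ N] {f : M → N} (h : An.Sm I f) :
    (cG X L F F₀ 𝒰).FC c (fun _ => f) f := fc_of hg c (fun _ => h) (.fixed' h)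

theorem fd_fix {f : M → ℝ} (h : An.Sm I f) : (cG X L F F₀ 𝒰).FD c (fun _ => f) f := fun a =>
  fc_of hg c (fun n => (F n).sm_D h a) (hg.cv_D isOpen_univ (.fixed' h) a)

theorem qs_fix {f : M → ℝ} (h : An.Sm I f) : (cG X L F F₀ 𝒰).QS c (fun _ => f) fun _ => f :=
  have k := fc_fix hg c h
  ⟨fun x => (k.cb x).pf, k.bd, fun _ _ _ => ⟨h, .fixed' h⟩⟩

theorem cs_fix {u : SW M} (h : u.OK F₁) : (cG X L F F₀ 𝒰).cS c (fun _ => u) fun _ => u :=
  fl_const u fun t ht => by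
    have := h t ht
    cases t
    exacts [.mul (qs_fix hg c (Prm93.Cb.sm this)), .cl (fd_fix hg c this.1), .im, .G]

theorem cla_fix {l : List (La M)} (h : ∀ t ∈ l, La.OK F₁ t) :
    FL ((cG X L F F₀ 𝒰).cLa c) (fun _ => l) fun _ => l :=
  fl_const l fun t ht => by
    have := h t ht
    cases t
    exacts [.mul (qs_fix hg c (Prm93.Cb.sm this)), .G]

theorem ca_fix {ξ : AW M} (h : ξ.OK F₁) : (cG X L F F₀ 𝒰).cA c (fun _ => ξ) fun _ => ξ := by
  obtain ⟨s, l⟩ := ξ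
  cases s
  exacts [.q (cs_fix hg c h.1.1) (cs_fix hg c h.1.2) (cla_fix hg c h.2),
    .cv (fc_fix hg c (Prm93.Cb.sm h.1.1)) (fd_fix hg c h.1.2.1.1) (fd_fix hg c h.1.2.2.1) (cla_fix hg c h.2)]

theorem cg_fix {g : Sg M (κ ⊕ κ)} (h : g.OK F₁) :
    (cG X L F F₀ 𝒰).cG c (fun _ => g) fun _ => g :=
  .mk (s := fun _ => g.s) ⟨fc_fix hg c h.1, univ, isCompact_univ, fun _ _ => id,
    fun _ k => (k trivial).elim, .of_forall fun _ x k => (k ⟨x, trivial, rfl⟩).elim⟩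
    (cs_fix hg c h.2.2.1) (cs_fix hg c h.2.2.2)

theorem cc_fix {d : Co M (κ ⊕ κ) r} (h : d.OK F₁) :
    (cG X L F F₀ 𝒰).cC c (fun _ => d) fun _ => d := by
  cases d
  exacts [.z _, .s (cg_fix hg c h.1) (fl_const _ fun g k => cg_fix hg c (h.2 g k))]

/-- **fixed terms are convergent syntax** -/
theorem ct_fix {T : Tm M (κ ⊕ κ) r n} (h : T.OK F₁) :
    (cG X L F F₀ 𝒰).cT c (fun _ => T) fun _ => T := by
  cases T
  exacts [.lin (cs_fix hg c h), .anti (cc_fix hg c h.1) (fc_fix hg c (Prm93.Cb.sm h.2.1)) (cs_fix hg c h.2.2),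
    .ad (fd_fix hg c h.1.1) (fd_fix hg c h.2.1.1) (ca_fix hg c h.2.2),
    .adj (cc_fix hg c h.1) (fc_fix hg c (Prm93.Cb.sm h.2.1)) (fd_fix hg c h.2.2.1.1)
      (fd_fix hg c h.2.2.2.1.1) (cs_fix hg c h.2.2.2.2.1) (cs_fix hg c h.2.2.2.2.2.1)
      (cla_fix hg c h.2.2.2.2.2.2),
    .adn _ (qs_fix hg c (Prm93.Cb.sm h.1)) (fd_fix hg c h.2.1.1) (fd_fix hg c h.2.2.1.1) h.2.2.2.1
      (fl_const _ fun ξ k => ca_fix hg c (h.2.2.2.2.2 ξ k)),
    .cut _ _ (cg_fix hg c h), .cz _ _ _]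

omit hg in
theorem wr_one : (cG X L F F₀ 𝒰).WR fun _ _ => 1 := by
  have := F₀.fin
  refine ⟨fun _ => measurable_const, fun _ => 1, ⟨contMDiff_const, fun _ => one_pos, fun x => ?_, ?_⟩,
    fun _ => .of_forall fun _ => by simp⟩
  · simp [Pre.D, Cmp73.dv_cst]
  · simp

end syn

end Crest.Agent.X212.Abel74
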