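import Crest.Agent.X212.Abel74.Cmq
import Crest.Agent.X212.Idg99.Num

/-!
# Row 212, CmpL (helper74): the level drops by a natural number; observables converge
-/

set_option autoImplicit false
set_option linter.unusedSectionVars false
noncomputable section
open scoped Manifold ContDiff Topology InnerProductSpace NNReal
open Filter MeasureTheory Set

namespace Crest.Agent.X212.Abel74
open An Wz78 Eq82 Cmp73
open Line51 (Ln)

variable {E : Type} [NormedAddCommGroup E] [NormedSpace ℝ E] [FiniteDimensional ℝ E]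
  [MeasurableSpace E] [BorelSpace E]
  {HM : Type} [TopologicalSpace HM] {I : ModelWithCorners ℝ E HM} [I.Boundaryless]
  {M : Type} [TopologicalSpace M] [ChartedSpace HM M] [IsManifold I ∞ M]
  [MeasurableSpace M] [BorelSpace M] [SecondCountableTopology M] [T2Space M] [CompactSpace M]
  {ι : Type} [Fintype ι] {r : ℕ} {α : Type} {S : Set M}

/-- Fatou's lemma with the loss at the bubble points -/
theorem en_drop {l : Filter α} [l.NeBot] {F : α → Fr I M ι} {F₀ : Fr I M ι}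
    (h : Loc66.FCv l univ F F₀) (hF : ∀ᶠ n in l, (F n).IsVol) (h₀ : F₀.IsVol)
    (h4 : Module.finrank ℝ E = 4) (hS : S.Finite) {f : α → M → ℝ} {g : M → ℝ} (hc : Cv I l Sᶜ f g)
    (hg : Continuous g) (hf : ∀ n, Continuous (f n)) {e ε : ℝ}
    (he : Tendsto (fun n => ∫ x, f n x ∂(F n).μ) l (𝓝 e))
    (hb : ∀ O, IsOpen O → S ⊆ O → ∀ᶠ n in l, ε ≤ ∫ x in O, f n x ∂(F n).μ) :
    ∫ x, g x ∂F₀.μ + ε ≤ e := by
  obtain ⟨C, hC⟩ := isCompact_univ.exists_bound_of_continuousOn hg.continuousOn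
  have i : ∀ (P : Fr I M ι) {u : M → ℝ}, Continuous u → Integrable u P.μ := fun P _ k =>
    have := P.fin; k.integrable_of_hasCompactSupport (.of_compactSpace _)
  refine le_of_forall_pos_le_add fun δ hδ => ?_
  have p : 0 < δ / (|C| + 1) := by positivity
  obtain ⟨O, o1, o2, o3, -⟩ := Shi84.small_fin h hF h₀ h4 hS p
  have K := o1.isClosed_compl.isCompact
  have a := le_of_tendsto_of_tendsto (((h.mono le_rfl (subset_univ _)).setIntegral
    hS.isClosed.isOpen_compl hF h₀ hc K (compl_subset_compl.2 o2) K.measurableSet subset_rfl).add_const ε)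
    he ((hb O o1 o2).mono fun n hn => ((add_comm _ _).trans_le (add_le_add_left hn _)).trans_eq
      (integral_add_compl o1.measurableSet (i _ (hf n))))
  have := F₀.fin
  have b := (le_abs_self _).trans ((norm_setIntegral_le_of_norm_le_const (μ := F₀.μ) (s := O)
    (measure_lt_top _ _) fun x _ => (hC x trivial).trans ((le_abs_self C).trans (le_add_of_nonneg_right
      zero_le_one))).trans (mul_le_mul_of_nonneg_left (ENNReal.toReal_le_of_le_ofReal p.le o3)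
        (by positivity)))
  rw [mul_div_cancel₀ _ (by positivity)] at b
  rw [← integral_add_compl o1.measurableSet (i _ hg)]
  linarith

variable [DecidableEq ι] {κ : Type} [Fintype κ] [DecidableEq κ] {X : Bk I M ι} {L : Ln E M κ}

/-- levels differ by integers -/
theorem kap_int (hL : L.On I univ) {F F' : Fr I M ι} (hF : X.Pos F) (hF' : X.Pos F')
    {c c' : Cfg M ι (κ ⊕ κ) r} (A : c.Adm (X.B L) (L.geo F)) (A' : c'.Adm (X.B L) (L.geo F')) :
    ∃ n : ℤ, c.kap (X.B L) (L.geo F) - c'.kap (X.B L) (L.geo F') = n := by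
  have k : ∀ {F : Fr I M ι} (_ : X.Pos F) {c : Cfg M ι (κ ⊕ κ) r} (_ : c.Adm (X.B L) (L.geo F)),
      ∃ n : ℤ, c.kap (X.B L) (L.geo F) = (X.Q (lcl I L) (lcl I L) -
        ((Num57.bp X.ok.ori : ℝ) - Num57.bm X.ok.ori)) / 4 + n := fun {F} hF c A => by
    obtain ⟨n, hn⟩ := Idg99.kap_eq (B_ok X hL) (G_ok hL hF) A.ok A.conn X.ok.h4 isClopen_univ
    simp only [Measure.restrict_univ] at hn
    refine ⟨n, hn.trans ?_⟩
    rw [← Idg99.int_lad hL hF, ← Num57.bp_ori (okF hF).ori _ hF.ori,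
      ← Num57.bm_ori (okF hF).ori _ hF.ori, ← Idg99.int_sgd (okF hF)]
    rfl
  obtain ⟨a, ha⟩ := k hF A
  obtain ⟨b, hb⟩ := k hF' A'
  exact ⟨a - b, by rw [ha, hb]; push_cast; ring⟩

variable {𝒰 : Ultrafilter α} {F : α → Fr I M ι} {F₀ : Fr I M ι} {c : α → Cfg M ι (κ ⊕ κ) r}
  {c₀ : Cfg M ι (κ ⊕ κ) r} {u : ∀ n, M → CL (c n).m.V c₀.m.V} (hg : (cG X L F F₀ 𝒰).OK)
  (A : ∀ n, (c n).Adm (X.B L) (L.geo (F n))) (h : (cG X L F F₀ 𝒰).Lim c c₀ S u)
include hg A h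

theorem la_inner {ξ η : ∀ n, M → (c n).m.A} {ξ' η' : M → c₀.m.A}
    (k : (cG X L F F₀ 𝒰).LA c c₀ S u ξ ξ') (k' : (cG X L F F₀ 𝒰).LA c c₀ S u η η')
    (p : ∀ n x, η n x ∈ (c n).m.gS x) :
    Cv I 𝒰 Sᶜ (fun n x => ⟪ξ n x, η n x⟫_ℝ) fun x => ⟪ξ' x, η' x⟫_ℝ :=
  (k.cv.bil (innerSL ℝ) k'.cv).congr (fun _ hx => (h.nr hg A hx).mono fun _ hq =>
    (hq.me.inner_cj _ (p _ _)).symm) fun _ _ => rfl

theorem la_nsq {η : ∀ n, M → Fm (ι × ι) (c n).m.A} {η' : M → Fm (ι × ι) c₀.m.A}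
    (k : ∀ s, (cG X L F F₀ 𝒰).LA c c₀ S u (fun n x => η n x s) fun x => η' x s)
    (p : ∀ n x s, η n x s ∈ (c n).m.gS x) :
    Cv I 𝒰 Sᶜ (fun n x => ‖η n x‖ ^ 2) fun x => ‖η' x‖ ^ 2 := by
  simp only [fun n x => PiLp.norm_sq_eq_of_L2 _ (η n x), fun x => PiLp.norm_sq_eq_of_L2 _ (η' x),
    ← real_inner_self_eq_norm_sq]
  exact Cv.sum fun s => la_inner hg A h (k s) (k s) fun n x => p n x s

/-- integrals of bounded functions -/
theorem lim_int {f : α → M → ℝ} {g : M → ℝ} (k : Cv I 𝒰 Sᶜ f g) (hf : ∀ n, Continuous (f n))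
    (h0 : Continuous g) {C : ℝ} (b : ∀ᶠ n in (𝒰 : Filter α), ∀ x, ‖f n x‖ ≤ C) :
    Tendsto (fun n => ∫ x, f n x ∂(F n).μ) 𝒰 (𝓝 (∫ x, g x ∂F₀.μ)) := by
  have := Shi84.tend_bub (Shi84.fcv hg)
    (.of_forall fun n => (hg.H n).vol) hg.G₀.vol hg.h4 (isOpen_compl_iff.1 h.op) isCompact_univ
    (h.fin _ isCompact_univ) k h0.continuousOn (b.mono fun n hn => ⟨(hf n).continuousOn, fun x _ => hn x⟩)
  simp only [Measure.restrict_univ] at this
  exact this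

theorem ob_none {C : ℝ} (b : ∀ᶠ n in (𝒰 : Filter α), ∀ x, ‖(c n).Φ x‖ ^ 2 ≤ C) :
    Tendsto (fun n => ∫ x, ‖(c n).Φ x‖ ^ 2 ∂(F n).μ) 𝒰 (𝓝 (∫ x, ‖c₀.Φ x‖ ^ 2 ∂F₀.μ)) :=
  lim_int hg A h ((h.Φ.bil (innerSL ℝ) h.Φ).congr (fun _ hx => (h.nr hg A hx).mono fun q hq =>
      (congrArg (· ^ 2) (hq.me.norm (show (c q.1).m.p q.2 _ = (c q.1).Φ q.2 by
        rw [← (A _).pos, ← mul_apply_eq_comp, p_pp (A _).ok])).symm).trans
        (real_inner_self_eq_norm_sq _).symm)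
    fun _ _ => (real_inner_self_eq_norm_sq _).symm) (fun n => (A n).sm.continuous.norm.pow 2)
    (h.adm.sm.continuous.norm.pow 2) (b.mono fun _ k x => (Real.norm_of_nonneg (sq_nonneg _)).trans_le (k x))

theorem kap_drop {k C ε : ℝ} (hk : ∀ n, (c n).kap (X.B L) (L.geo (F n)) = k)
    (hb : ∀ᶠ n in (𝒰 : Filter α), ∀ x, ‖(c n).m.p2 (X.B L) x ((c n).m.Fg (F n) (c n).W x)‖ ≤ C)
    (a : ∀ O, IsOpen O → S ⊆ O → ∀ᶠ n in (𝒰 : Filter α),
      ε ≤ ∫ x in O, ‖(c n).m.Fg (F n) (c n).W x‖ ^ 2 ∂(F n).μ) :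
    128 * Real.pi ^ 2 * c₀.kap (X.B L) (L.geo F₀) + ε ≤ 128 * Real.pi ^ 2 * k := by
  have s := fun n => (Mp86.sm_Fg hg.B₀ (hg.H n) (A n).ok (A n).conn)
  have s₀ := Mp86.sm_Fg hg.B₀ hg.G₀ h.adm.ok h.adm.conn
  have t := lim_int hg A h (la_nsq hg A h (fun s => Gs.LA.p2 h hg A (h.Fg hg A) s)
    fun n x s => p2_mem _ s)
    (fun n => ((Std94.sm_p2 hg.B₀ (A n).ok).clm_apply (s n)).continuous.norm.pow 2)
    (((Std94.sm_p2 hg.B₀ h.adm.ok).clm_apply s₀).continuous.norm.pow 2) (C := C ^ 2)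
    (hb.mono fun n hn x => (Real.norm_of_nonneg (sq_nonneg _)).trans_le
      (pow_le_pow_left₀ (norm_nonneg _) (hn x) 2))
  have e := en_drop (Shi84.fcv hg) (.of_forall fun n => (hg.H n).vol) hg.G₀.vol
    hg.h4 (by simpa using h.fin _ isCompact_univ) (la_nsq hg A h (h.Fg hg A) fun n x s => pg_mem _ _)
    (s₀.continuous.norm.pow 2) (fun n => (s n).continuous.norm.pow 2)
    (((t.const_mul 2).add_const (128 * Real.pi ^ 2 * k)).congr fun n =>
      hk n ▸ (Mp86.integral_Fg_sq hg.B₀ (hg.H n) (A n)).2.symm) a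
  rw [(Mp86.integral_Fg_sq hg.B₀ hg.G₀ h.adm).2, add_assoc] at e
  exact le_of_add_le_add_left e

omit h in
/-- **the level of an Uhlenbeck limit** -/
theorem kap_lim (hL : L.On I univ) (hF : ∀ n, X.Pos (F n)) (hF₀ : X.Pos F₀)
    (h : (cG X L F F₀ 𝒰).Lim c c₀ ((cG X L F F₀ 𝒰).S c) u) {k C : ℝ}
    (hk : ∀ n, (c n).kap (X.B L) (L.geo (F n)) = k)
    (hb : ∀ᶠ n in (𝒰 : Filter α), ∀ x, ‖(c n).m.p2 (X.B L) x ((c n).m.Fg (F n) (c n).W x)‖ ≤ C) :
    ∃ l : ℕ, c₀.kap (X.B L) (L.geo F₀) = k - l ∧ (l = 0 → (cG X L F F₀ 𝒰).S c = ∅) := by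
  have p : 0 < 128 * Real.pi ^ 2 := by positivity
  obtain ⟨i⟩ := (𝒰 : Filter α).nonempty_of_neBot
  obtain ⟨z, hz⟩ := kap_int hL (hF i) hF₀ (A i) h.adm
  rw [hk] at hz
  have e0 := kap_drop hg A h hk hb (ε := 0) fun O _ _ =>
    .of_forall fun n => integral_nonneg fun _ => sq_nonneg _
  have z0 : (0 : ℝ) ≤ z := hz ▸ sub_nonneg.2 (le_of_mul_le_mul_left (by linarith) p)
  obtain ⟨l, rfl⟩ := Int.eq_ofNat_of_zero_le (Int.cast_nonneg_iff.1 z0)
  refine ⟨l, by rw [← Int.cast_natCast, ← hz]; ring, fun l0 => eq_empty_of_forall_notMem ?_⟩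
  rintro x (hx | ⟨ε, ε0, hε⟩)
  · exact hx
  have e1 := kap_drop hg A h hk hb (ε := ε) fun O o1 o2 =>
    (hε O (o1.mem_nhds (o2 (.inr ⟨ε, ε0, hε⟩)))).mono fun n hn => by
      have := (F n).fin
      have j : Continuous fun x => ‖(c n).m.Fg (F n) (c n).W x‖ ^ 2 :=
        (Mp86.sm_Fg hg.B₀ (hg.H n) (A n).ok (A n).conn).continuous.norm.pow 2
      rw [integral_eq_lintegral_of_nonneg_ae (.of_forall fun _ => sq_nonneg _) j.aestronglyMeasurable]
      exact (ENNReal.toReal_le_toReal ENNReal.coe_ne_top (j.integrable_of_hasCompactSupport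
        (.of_compactSpace _)).integrableOn.lintegral_lt_top.ne).2
          (hn.trans (lintegral_mono_set (by rintro _ ⟨y, hy, rfl⟩; exact hy.1)))
  rw [l0, Nat.cast_zero, Int.cast_zero, sub_eq_zero] at hz
  rw [hz] at e1
  exact (NNReal.coe_pos.2 ε0).not_ge (by linarith)

end Crest.Agent.X212.Abel74
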