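import Crest.Agent.X212.Abel74.Pun
import Crest.Agent.X212.Abel74.Lab
import Crest.Agent.X212.Cmp73.Lim

/-!
# Row 212, ABEL (helper74): points of type S and labels under bubbling (`Eq82.Out.spt`)
-/

set_option autoImplicit false
set_option linter.unusedSectionVars false
noncomputable section
open scoped Manifold ContDiff Topology InnerProductSpace NNReal
open Filter MeasureTheory Set
open Crest.Agent.R208 Crest.Agent.R208.F

namespace Crest.Agent.X212.Abel74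
open An Wz78 Eq82 Num57 Cmp73
open Pj41 (Iso0)
open Line51 (Ln)
open Dr59 (HR Cl exists_cls)

variable {E : Type} [NormedAddCommGroup E] [NormedSpace ℝ E] [FiniteDimensional ℝ E]
  [MeasurableSpace E] [BorelSpace E]
  {HM : Type} [TopologicalSpace HM] {I : ModelWithCorners ℝ E HM} [I.Boundaryless]
  {M : Type} [TopologicalSpace M] [ChartedSpace HM M] [IsManifold I ∞ M]
  [MeasurableSpace M] [BorelSpace M] [SecondCountableTopology M] [T2Space M] [CompactSpace M]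
  {ι : Type} [Fintype ι] [DecidableEq ι] {κ : Type} [Fintype κ] [DecidableEq κ] {r : ℕ}
  {X : Bk I M ι} {L : Ln E M κ} {α : Type} {l : Filter α} {F : α → Fr I M ι} {F₀ : Fr I M ι}
  {β : M → Ext E} {S : Set M}

theorem k2_mix (F F₀ : Fr I M ι) (β : M → Ext E) (a b : ι) (x : M) : k2 F β a b x =
    ∑ s, Met55.fT F₀.e (F.e a) x s * ∑ t, Met55.fT F₀.e (F.e b) x t * k2 F₀ β s t x := by
  have e : ∀ a, ee F x a = ∑ s, Met55.fT F₀.e (F.e a) x s • ee F₀ x s := fun a =>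
    (Met55.sum_fT (Met55.pre_sp F₀.toPre x) (F.e a)).symm
  rw [k2, e a, e b, e2_vsum]
  simp only [e2_vsum', k2]

/-- local bounds of the energy give a global bound -/
theorem en_of_loc {μ : α → Measure M} {e : α → M → ℝ} (he : ∀ n x, 0 ≤ e n x)
    (hc : ∀ᶠ n in l, Continuous (e n))
    (h : ∀ x, ∃ N ∈ 𝓝 x, ∃ C : ℝ≥0, ∀ᶠ n in l, ∫⁻ y in N, ENNReal.ofReal (e n y) ∂μ n ≤ C) :
    ∃ R, ∀ᶠ n in l, ∫ y, e n y ∂μ n ≤ R := by
  obtain ⟨C, hC⟩ : ∃ C : ℝ≥0, ∀ᶠ n in l, ∫⁻ y in univ, ENNReal.ofReal (e n y) ∂μ n ≤ C := by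
    refine isCompact_univ.induction_on
      (p := fun N => ∃ C : ℝ≥0, ∀ᶠ n in l, ∫⁻ y in N, ENNReal.ofReal (e n y) ∂μ n ≤ C)
      ⟨0, by simp⟩ (fun s t hs ⟨C, hC⟩ => ⟨C, hC.mono fun n hn =>
        (lintegral_mono_set hs).trans hn⟩) (fun s t ⟨C, hC⟩ ⟨D, hD⟩ => ⟨C + D, (hC.and hD).mono
          fun n hn => (lintegral_union_le _ _ _).trans (add_le_add hn.1 hn.2)⟩) fun x _ => ?_
    obtain ⟨N, h1, h2⟩ := h x
    exact ⟨N, nhdsWithin_le_nhds h1, h2⟩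
  refine ⟨C, (hC.and hc).mono fun n hn => ?_⟩
  rw [integral_eq_lintegral_of_nonneg_ae (.of_forall (he n)) hn.2.aestronglyMeasurable]
  exact ENNReal.toReal_le_of_le_ofReal C.2 (by simpa using hn.1)

variable [l.NeBot] (f : Loc66.FCv l univ F F₀) (hβ : Cl I 2 univ β)
include f hβ

theorem cv_k2 (a b : ι) : Cv I l univ (fun n => k2 (F n) β a b) (k2 F₀ β a b) :=
  (Cv.sum fun s => (Loc66.FCv.fixed.fT isOpen_univ (f a) s).mul (Cv.sum fun t =>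
    (Loc66.FCv.fixed.fT isOpen_univ (f b) t).mul
      (Cv.fixed' fun x => sa_k2 F₀ (hβ.sm x trivial) s t))).congr
    (fun _ _ => .of_forall fun _ => k2_mix _ F₀ β a b _) fun _ _ => k2_mix _ F₀ β a b _

theorem cv_gm (a b : ι) : Cv I l univ (fun n => gm (F n) X.o β a b) (gm F₀ X.o β a b) :=
  Cv.sum fun c => Cv.sum fun d => (Cv.fixed' (X.ok.sm a b c d)).mul (cv_k2 f hβ c d)

theorem gm_bdd : ∃ K, ∀ᶠ n in l, ∀ y, ∑ s : ι × ι, gm (F n) X.o β s.1 s.2 y ^ 2 ≤ K := by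
  have h := Cv.sum fun s : ι × ι => (cv_gm (X := X) f hβ s.1 s.2).mul (cv_gm (X := X) f hβ s.1 s.2)
  obtain ⟨K, hK⟩ := isCompact_univ.exists_bound_of_continuousOn fun x hx =>
    (h.smoothAt isOpen_univ hx).continuousAt.continuousWithinAt
  refine ⟨1 + K, (h.unif isOpen_univ isCompact_univ subset_rfl one_pos).mono fun n hn y => ?_⟩
  simp only [sq]
  linarith [(abs_lt.1 (hn y trivial)).2, (abs_le.1 (hK y trivial)).2]

omit f hβ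

variable {𝒰 : Ultrafilter α} {c : α → Cfg M ι (κ ⊕ κ) r} {c₀ : Cfg M ι (κ ⊕ κ) r}
  {u : ∀ n, M → CL (c n).m.V c₀.m.V}

/-- **points of type S and their labels pass to Uhlenbeck limits** -/
theorem spt_lim (hL : L.On I univ) (hF : ∀ᶠ n in (𝒰 : Filter α), X.Pos (F n)) (hF₀ : X.Pos F₀)
    (f : Loc66.FCv 𝒰 univ F F₀) (A : ∀ᶠ n in (𝒰 : Filter α), (c n).Adm (X.B L) (L.geo (F n)))
    (A₀ : c₀.Adm (X.B L) (L.geo F₀)) (hS : S.Finite)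
    (hu : ∀ x ∉ S, ∃ O, IsOpen O ∧ x ∈ O ∧ ∀ᶠ n in (𝒰 : Filter α), Iso0 I (c n).m c₀.m O (u n))
    (hA : ∀ a, Cv I 𝒰 Sᶜ (fun n => dft (F n) (c n).W c₀.W (u n) a) fun _ => 0)
    (hΦ : Cv I 𝒰 Sᶜ (fun n x => u n x ((c n).Φ x)) c₀.Φ)
    (hE : ∃ R, ∀ᶠ n in (𝒰 : Filter α), ∫ x, ‖(c n).m.Fg (F n) (c n).W x‖ ^ 2 ∂(F n).μ ≤ R)
    (ξ : ∀ n, M → (c n).m.A) (h : ∀ᶠ n in (𝒰 : Filter α), SPt (F n) (c n) (ξ n)) :
    ∃ ξ₀, SPt F₀ c₀ ξ₀ ∧ ∀ b, Tendsto (fun n => X.Q (lab (F n) (c n) (ξ n)) b) 𝒰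
      (𝓝 (X.Q (lab F₀ c₀ ξ₀) b)) := by
  have h4 : 3 < Module.finrank ℝ E := by rw [X.ok.h4]; norm_num
  have hB := B_ok X hL
  have D := dsc_fin hS
  obtain ⟨ξ₀, R₀, k1, k2⟩ := red_pun (G := fun n => L.geo (F n)) (G₀ := L.geo F₀) (ξ := ξ) h4 hB
    (G_ok hL hF₀) A₀.ok A₀.conn D ((fcv_of f isOpen_univ).mono le_rfl (subset_univ _))
    (fun x hx => let ⟨O, h1, h2, h3⟩ := hu x hx; ⟨O, h1, h2, (h3.and (A.and h)).mono fun n k =>
      ⟨k.1, Pj41.OK.on k.2.1.ok _, Pj41.IsConn.on k.2.1.conn _, k.2.2.toRed.on _⟩⟩) hA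
  refine ⟨ξ₀, ⟨R₀, half_pun (B := X.B L) h4 D R₀.sm A₀.sm (fun x hx =>
    let ⟨O, _, h2, h3⟩ := hu x hx; ⟨O, h2, (h3.and (A.and h)).mono fun n k =>
      ⟨k.1, Pj41.OK.on k.2.1.ok _, k.2.2.mem x, k.2.2.Φ x⟩⟩) k1 hΦ⟩, fun b => ?_⟩
  obtain ⟨β, hβ, rfl⟩ := exists_cls b
  obtain ⟨R, hR⟩ := hE
  obtain ⟨K, hK⟩ := gm_bdd (X := X) f hβ
  have s₀ : ∀ a b, An.Sm I (fF F₀ c₀.m c₀.W ξ₀ a b) :=
    Red.sm_fF (G := L.geo F₀) R₀ hB (G_ok hL hF₀) A₀.ok A₀.conn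
  have k3 : Cv I 𝒰 Sᶜ (fun n => pv (F n) X.o β (fF (F n) (c n).m (c n).W (ξ n)))
      (pv F₀ X.o β (fF F₀ c₀.m c₀.W ξ₀)) :=
    Cv.sum fun s : ι × ι => ((cv_gm f hβ s.1 s.2).mono le_rfl (subset_univ _)).mul (k2 s.1 s.2)
  have := tend_int f (hF.mono fun _ k => k.vol) hF₀.vol D.op ((measure_null_iff_singleton hS.countable).2
    fun x _ => null_pt (by omega) F₀.toPre x) k3 (sm_pv hβ s₀).continuous (R := |K| * R) (by
      filter_upwards [hF, A, h, hR, hK] with n a1 a2 a3 a4 a5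
      have s : ∀ a b, An.Sm I (fF (F n) (c n).m (c n).W (ξ n) a b) :=
        Red.sm_fF (G := L.geo (F n)) a3.toRed hB (G_ok hL a1) a2.ok a2.conn
      have hn : ∀ y, ‖(c n).m.Fg (F n) (c n).W y‖ ^ 2 =
          16 * ∑ a, ∑ b, fF (F n) (c n).m (c n).W (ξ n) a b y ^ 2 :=
        Red.norm_Fg (G := L.geo (F n)) a3.toRed hB (G_ok hL a1) a2.ok a2.conn
      exact ⟨(sm_pv hβ s).continuous, (pv_le hβ s (fun y => (a5 y).trans (le_abs_self K)) hn).trans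
        (mul_le_mul_of_nonneg_left a4 (abs_nonneg K))⟩)
  rw [Q_lab hL hF₀ A₀.conn R₀ hβ]
  refine (this.const_mul _).congr' ?_
  filter_upwards [hF, A, h] with n a1 a2 a3 using (Q_lab hL a1 a2.conn a3.toRed hβ).symm

variable (X L 𝒰 F F₀) in
/-- the converging backgrounds of a family of frames on a closed manifold -/
def cG : Gs I I M ι (κ ⊕ κ) fun _ : α => M :=
  ⟨𝒰, fun _ => X.B L, fun n => L.geo (F n), X.B L, L.geo F₀, fun n => L.geo (F n),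
    fun _ => OpenPartialHomeomorph.refl M, ∅⟩

theorem cG_en (hL : L.On I univ) (hF : ∀ n, X.Pos (F n)) (H : (cG X L F F₀ 𝒰).Hyp c) :
    ∃ R, ∀ᶠ n in (𝒰 : Filter α), ∫ x, ‖(c n).m.Fg (F n) (c n).W x‖ ^ 2 ∂(F n).μ ≤ R := by
  refine en_of_loc (fun _ _ => sq_nonneg _) (.of_forall fun n => ?_) fun x => ?_
  · have : ∀ s, An.Sm I fun x => (c n).m.Fg (F n) (c n).W x s := sm_Fg (G := L.geo (F n))
      (G_ok hL (hF n)) (H.adm n).conn (Std94.sm_pg (B_ok X hL) (H.adm n).ok)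
    rw [funext fun x => PiLp.norm_sq_eq_of_L2 _ ((c n).m.Fg (F n) (c n).W x)]
    exact continuous_finsetSum _ fun s _ => (this s).continuous.norm.pow 2
  obtain ⟨C, D, hD, h⟩ := H.en x
  obtain ⟨s, hs, N, hN, k⟩ := mem_prod_iff.1 (le_nF (l := (𝒰 : Filter α)) (notMem_empty x) hD)
  exact ⟨N, hN, C, mem_of_superset hs fun n hn =>
    (lintegral_mono_set fun y hy => @k (n, y) ⟨hn, hy⟩).trans (h n)⟩

/-- **`Out.spt` from the conclusion of COMP** -/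
theorem out_spt (hL : L.On I univ) (hF : ∀ n, X.Pos (F n)) (hF₀ : X.Pos F₀)
    (hg : (cG X L F F₀ 𝒰).OK) (H : (cG X L F F₀ 𝒰).Hyp c) (h : (cG X L F F₀ 𝒰).Lim c c₀ S u)
    (ξ : ∀ n, M → (c n).m.A) (hξ : ∀ᶠ n in (𝒰 : Filter α), SPt (F n) (c n) (ξ n)) :
    ∃ ξ₀, SPt F₀ c₀ ξ₀ ∧ ∀ b, Tendsto (fun n => X.Q (lab (F n) (c n) (ξ n)) b) 𝒰
      (𝓝 (X.Q (lab F₀ c₀ ξ₀) b)) :=
  spt_lim hL (.of_forall hF) hF₀ (fun a => ⟨fun k x _ => (hg.e a).mb k x, fun x _ => (hg.e a).pt x⟩)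
    (.of_forall H.adm) h.adm (by simpa using h.fin _ isCompact_univ) h.iso h.A h.Φ
    (cG_en hL hF H) ξ hξ

end Crest.Agent.X212.Abel74
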