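import Crest.Agent.X212.Abel74.Lim
import Crest.Agent.X212.Loc66.Fcv
import Crest.Agent.X212.Pat85.Cht

/-!
# Row 212, ABEL (helper74): limits of reductions off a discrete set
-/

set_option autoImplicit false
set_option linter.unusedSectionVars false
noncomputable section
open scoped Manifold ContDiff Topology InnerProductSpace
open Filter MeasureTheory Set

namespace Crest.Agent.X212.Abel74
open An Wz78 Eqv71 Cmp73
open Pj41 (Iso0 OKOn ConnOn Par0 pshC ad_trn ad_skew)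

variable {E : Type} [NormedAddCommGroup E] [NormedSpace ℝ E] [FiniteDimensional ℝ E]
  [MeasurableSpace E] [BorelSpace E]
  {HM : Type} [TopologicalSpace HM] {I : ModelWithCorners ℝ E HM} [I.Boundaryless]
  {M : Type} [TopologicalSpace M] [ChartedSpace HM M] [IsManifold I ∞ M]
  [MeasurableSpace M] [BorelSpace M] [T2Space M] [SecondCountableTopology M] {ι : Type} [Fintype ι]
  {lam : Type} [Fintype lam] {α : Type} {l : Filter α} {B : Base M ι lam} {O S : Set M} {x : M}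

section push
variable {m m' : Md M ι lam} (F : Fr I M ι) (W : m.Cn) (W' : m'.Cn) (u : M → CL m.V m'.V)

/-- `W'` minus the transported connection -/
def dft (a : ι) (x : M) : En (Fin m'.N) :=
  (F.D a u x + W' a x ∘L u x - u x ∘L W a x) ∘L trn (u x)

/-- the transported connection, completed by `W'` -/
def Ws : m'.Cn := fun a x => W' a x - dft F W W' u a x + trn (dft F W W' u a x) * (1 - m'.p x)

variable {F W W' u} {G : Geo I M ι lam} {ξ : M → m.A} (h : Iso0 I m m' O u)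
include h

theorem Ws_eq (hx : x ∈ O) {a : ι} (hk : Skw (W' a x)) :
    Ws F W W' u a x = pshC F u W a x + (1 - m'.p x) * W' a x * (1 - m'.p x) := by
  have e : dft F W W' u a x =
      W' a x * m'.p x - Pj41.pshT I (F.e a) u (W a) x ∘L Pj41.ad (u x) := by
    rw [← (h.iso x hx).tgt, dft, ← ad_trn, Pj41.pshT, Pre.D_def]
    ext1 v
    simp only [ContinuousLinearMap.comp_apply, sub_apply, add_apply, mul_apply_eq_comp]
    abel
  have s : Pj41.ad (m'.p x) = m'.p x := by rw [← (h.iso x hx).tgt, Pj41.ad_comp, Pj41.ad_ad]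
  rw [Ws, e, pshC, Pj41.pshW, ← ad_trn, Pj41.ad_sub, ContinuousLinearMap.mul_def (W' a x),
    Pj41.ad_comp, Pj41.ad_comp, Pj41.ad_ad, ad_skew.2 hk, s, (h.iso x hx).tgt]
  ext1 v
  simp only [ContinuousLinearMap.comp_apply, sub_apply, add_apply, mul_apply_eq_comp, neg_apply,
    one_apply_eq_self, map_sub, map_neg]
  abel

theorem cj_app (hx : x ∈ O) (hm : OKOn I B m O) {η : m.A} (hη : η ∈ m.gS x) (a : m.V) :
    opL (cj (u x) η) (u x a) = u x (opL η a) := by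
  have h1 : trn (u x) (u x a) = m.p x a := by
    rw [← ad_trn]; exact congrArg (fun T : En _ => T a) (h.iso x hx).src
  have h2 := congrArg trn (g_p hη)
  rw [trn_mul, Sym.trn (hm.psym x hx), trn_of_skw (g_skw hη), neg_mul, neg_inj] at h2
  have h3 : opL η (m.p x a) = opL η a := congrArg (fun T : En _ => T a) h2
  simp only [opL_cj, ContinuousLinearMap.comp_apply, h1, h3]

theorem cj_half (hx : x ∈ O) (hm : OKOn I B m O) {η : m.A} (hη : η ∈ m.gS x) {a : m.V}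
    (e : opL η a = m.J a) : opL (cj (u x) η) (u x a) = m'.J (u x a) := by
  rw [cj_app h hx hm hη, e]
  exact (congrArg (fun T : CL m.V m'.V => T a) (h.J x hx)).symm

variable (hO : IsOpen O) (hm : OKOn I B m O) (hm' : OKOn I B m' O) (C : ConnOn B G m W O)
  (hk : ∀ a, ∀ x ∈ O, Skw (W' a x))
include hO hm hm' C hk

theorem Ws_skw (hx : x ∈ O) (a : ι) : Skw (Ws G.F W W' u a x) := by
  rw [Ws_eq h hx (hk a x hx)]
  intro v w
  have s : ∀ v w, ⟪(1 - m'.p x) v, w⟫_ℝ = ⟪v, (1 - m'.p x) w⟫_ℝ := fun v w => by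
    simp only [sub_apply, one_apply_eq_self, inner_sub_left, inner_sub_right, hm'.psym x hx v w]
  have k := ad_skew.1 (h.ph hO hm C hx a).skew v w
  simp only [add_apply, mul_apply_eq_comp, inner_add_left, inner_add_right, pshC, k, s,
    hk a x hx _, neg_add]

theorem Ws_par : Par0 G.F W (Ws G.F W W' u) O u := fun x hx a => by
  have : (1 - m'.p x) ∘L u x = 0 := by
    rw [ContinuousLinearMap.sub_comp, (h.iso x hx).left]; exact sub_self _
  rw [Ws_eq h hx (hk a x hx), ContinuousLinearMap.add_comp, ContinuousLinearMap.mul_def,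
    ContinuousLinearMap.comp_assoc, this, ContinuousLinearMap.comp_zero, add_zero]
  exact (h.ph hO hm C hx a).para

theorem RedOn.push (R : RedOn G.F m W O ξ) :
    RedOn G.F m' (Ws G.F W W' u) O fun x => cj (u x) (ξ x) where
  sm x hx := SA.app (sa_cj (h.su x hx)) (R.sm x hx)
  mem x hx := Loc66.cj_mem h hm hm' hx (R.mem x hx)
  sq x hx := by
    ext1 w
    have h1 : ∀ a, opL (ξ x) (opL (ξ x) a) = -m.p x a := fun a =>
      congrArg (fun T : En _ => T a) (R.sq x hx)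
    have h2 : ∀ a, u x (m.p x a) = u x a := fun a =>
      congrArg (fun T : CL m.V m'.V => T a) (h.iso x hx).idem
    have h3 : u x (trn (u x) w) = m'.p x w := by
      rw [← ad_trn]; exact congrArg (fun T : En _ => T w) (h.iso x hx).tgt
    rw [mul_apply_eq_comp]
    nth_rewrite 2 [opL_cj]
    simp only [ContinuousLinearMap.comp_apply, cj_app h hx hm (R.mem x hx), h1, map_neg, h2, h3,
      neg_apply]
  par x hx a := by
    have k : Itw I G.F.e W (Ws G.F W W' u) u x := fun a =>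
      sub_eq_zero.1 (Ws_par h hO hm hm' C hk x hx a)
    refine ((k.cj (h.su x hx) (fun a => C.sk a x hx) (Ws_skw h hO hm hm' C hk hx)).nab
      (sa_cj (h.su x hx)).md (R.sm x hx).md a).trans ?_
    exact (congrArg _ (R.par x hx a)).trans (map_zero _)

theorem fF_push (hx : x ∈ O) (hs : ∀ a, SA I (Ws G.F W W' u a) x) (hξ : ξ x ∈ m.gS x) (a b : ι) :
    fF G.F m' (Ws G.F W W' u) (fun x => cj (u x) (ξ x)) a b x = fF G.F m W ξ a b x := by
  rw [fF, fF, Loc66.Fg_loc h hO hm hm' (fun a => C.sm a x hx) hs (Ws_par h hO hm hm' C hk) hx,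
    Loc66.inner_cj_g h hx _ hξ]

end push

/-! ### discrete sets -/

/-- `S` is closed and discrete -/
def Dsc (S : Set M) : Prop := ∀ x, ∀ᶠ y in 𝓝 x, y ∈ S → y = x

theorem dsc_of (h : ∀ x, ∃ K ∈ 𝓝 x, (S ∩ K).Finite) : Dsc S := fun x => by
  obtain ⟨K, hK, h⟩ := h x
  filter_upwards [hK, (h.subset (sdiff_subset (t := {x}))).isClosed.isOpen_compl.mem_nhds
    fun k => k.2 rfl] with y h1 h2 h3
  by_contra h4
  exact h2 ⟨⟨h3, h1⟩, h4⟩

theorem dsc_fin (h : S.Finite) : Dsc S := dsc_of fun _ => ⟨univ, univ_mem, h.inter_of_left _⟩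

variable (I) in
include I in
theorem dsc_cpt (h : ∀ K, IsCompact K → (S ∩ K).Finite) : Dsc S :=
  have := Manifold.locallyCompact_of_finiteDimensional (M := M) I
  dsc_of fun x => let ⟨K, h1, h2⟩ := exists_compact_mem_nhds x; ⟨K, h2, h K h1⟩

theorem Dsc.op (h : Dsc S) : IsOpen Sᶜ :=
  isOpen_iff_mem_nhds.2 fun x hx => (h x).mono fun _ hy k => hx (hy k ▸ k)

section ext
variable (h4 : 3 < Module.finrank ℝ E) (h : Dsc S)
include h4 h

theorem Dsc.chart (x : M) : ∃ (φ : OpenPartialHomeomorph M (EuclideanSpace ℝ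
    (Fin (Module.finrank ℝ E)))) (Z U : Set _), Pat85.SCh I φ ∧ Eps63.Thin Z ∧ IsOpen U ∧ x ∈ U ∧
      U ⊆ φ.source ∧ ∀ y ∈ U, φ y ∉ Z → y ∈ U ∩ Sᶜ := by
  obtain ⟨U, h1, h2, h3⟩ := eventually_nhds_iff.1 ((h x).and (chart_source_mem_nhds HM x))
  refine ⟨Pat85.echart I toEuclidean x, _, U, Pat85.sch_echart _ x, (Eps63.thin_line
    (by simpa using h4) (Pat85.echart I toEuclidean x x) 0), h2, h3, fun y hy => ?_,
    fun y hy k => ⟨hy, fun k' => k ⟨0, by rw [(h1 y hy).1 k']; simp⟩⟩⟩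
  rw [Pat85.echart_source]
  exact (h1 y hy).2

variable (I) in
include I in
theorem Dsc.dense : Dense Sᶜ := fun x => by
  obtain ⟨φ, Z, U, h1, h2, h3, h5, h6, h7⟩ := h.chart (I := I) h4 x
  exact h1.mem_closure h2 h3 h6 (fun y hy k => (h7 y hy k).2) h5

/-- **bounded parallel sections extend** -/
theorem Dsc.ext_par (F : Fr I M ι) {N : Type} [NormedAddCommGroup N] [NormedSpace ℝ N]
    [FiniteDimensional ℝ N] {A : ι → M → N →L[ℝ] N} (hA : ∀ a, An.Sm I (A a)) {f : M → N} {C : ℝ}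
    (hf : ∀ x ∉ S, SA I f x ∧ ‖f x‖ ≤ C ∧ ∀ a, nab I F.e A a f x = 0) :
    ∃ g, An.Sm I g ∧ EqOn g f Sᶜ := by
  have hv : Pat85.VC I ((pure () : Ultrafilter Unit) : Filter Unit) (fun _ => F.e) F.e :=
    ⟨fun a _ _ => MB.vf (.of_forall (F.sm a)), fun _ _ => tendsto_const_nhds, F.sm,
      Num57.exists_comb F⟩
  have : ∀ x, ∃ g : M → N, ∀ᶠ y in 𝓝 x, SA I g y ∧ (y ∉ S → g y = f y) := fun x => by
    obtain ⟨φ, Z, U, h1, h2, h3, h5, h6, h7⟩ := h.chart (I := I) h4 x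
    have ev : ∀ y, ∀ᶠ q in Pat85.iF ((pure () : Ultrafilter Unit) : Filter Unit) (U ∩ Sᶜ) y,
        q.2 ∉ S := fun y => Pat85.ev_iF_of fun z hz => tendsto_snd.eventually (h.op.mem_nhds hz.2)
    obtain ⟨g, k1, k2⟩ := h1.ext_lim hv h2 h3 (h3.inter h.op) h6 inter_subset_left h7
      (f := fun _ => f) fun k y _ => Pat85.DB.plain (A := fun _ => A) Pat85.ob_iF
        (fun j _ a => hv.db_fixed (.of_forall (hA a))) (Pat85.DB.par Pat85.ob_iF
          ⟨(ev y).mono fun q hq => (hf _ hq).1, C, (ev y).mono fun q hq => (hf _ hq).2.1⟩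
          ((ev y).mono fun q hq => (hf _ hq).2.2) k)
    exact ⟨g, (h3.eventually_mem h5).mono fun y hy => ⟨k1 y hy, fun k =>
      tendsto_nhds_unique (k2.pt y ⟨hy, k⟩) tendsto_const_nhds⟩⟩
  choose g hg using this
  refine ⟨fun y => g y y, fun x => (hg x).self_of_nhds.1.congr_of_eventuallyEq
    ((hg x).eventually_nhds.mono fun y hy => ?_), fun x hx => (hg x).self_of_nhds.2 hx⟩
  have := mem_closure_iff_nhdsWithin_neBot.1 (h.dense I h4 y)
  refine tendsto_nhds_unique_of_eventuallyEq (l := 𝓝[Sᶜ] y)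
    (hg y).self_of_nhds.1.continuousAt.continuousWithinAt
    hy.self_of_nhds.1.continuousAt.continuousWithinAt ?_
  filter_upwards [self_mem_nhdsWithin, nhdsWithin_le_nhds (hg y), nhdsWithin_le_nhds hy]
    with z h1 h2 h3
  rw [h2.2 h1, h3.2 h1]

end ext

theorem fcv_of {F : α → Fr I M ι} {F₀ : Fr I M ι} [l.NeBot] (h : Loc66.FCv l O F F₀)
    (hO : IsOpen O) : FCv l O F F₀ := ⟨fun a => (h a).mb, fun a => (h a).pt, h.c hO⟩

section lim
variable {𝒰 : Ultrafilter α} {G : α → Geo I M ι lam} {G₀ : Geo I M ι lam} {m : α → Md M ι lam}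
  {W : ∀ n, (m n).Cn} {ξ : ∀ n, M → (m n).A} {m₀ : Md M ι lam} {W₀ : m₀.Cn}
  {u : ∀ n, M → CL (m n).V m₀.V}

/-- **limits of reductions off a discrete set** -/
theorem red_pun (h4 : 3 < Module.finrank ℝ E) (hB : B.OK I) (hG₀ : G₀.OK B) (H : m₀.OK I B)
    (C₀ : m₀.IsConn B G₀ W₀) (hS : Dsc S) (f : FCv 𝒰 Sᶜ (fun n => (G n).F) G₀.F)
    (hu : ∀ x ∉ S, ∃ O, IsOpen O ∧ x ∈ O ∧ ∀ᶠ n in (𝒰 : Filter α), Iso0 I (m n) m₀ O (u n) ∧
      OKOn I B (m n) O ∧ ConnOn B (G n) (m n) (W n) O ∧ RedOn (G n).F (m n) (W n) O (ξ n))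
    (hA : ∀ a, Cv I 𝒰 Sᶜ (fun n => dft (G n).F (W n) W₀ (u n) a) fun _ => 0) :
    ∃ ξ₀, Red G₀.F m₀ W₀ ξ₀ ∧ Cv I 𝒰 Sᶜ (fun n x => cj (u n x) (ξ n x)) ξ₀ ∧ ∀ a b,
      Cv I 𝒰 Sᶜ (fun n => fF (G n).F (m n) (W n) (ξ n) a b) (fF G₀.F m₀ W₀ ξ₀ a b) := by
  have hW : ∀ a, Cv I 𝒰 Sᶜ (fun n => Ws (G n).F (W n) W₀ (u n) a) (W₀ a) := fun a =>
    (((Cv.fixed' (C₀.cc.sm a)).sub (hA a)).add (((hA a).clm trnL).mul
      ((Cv.const 1).sub (Cv.fixed' H.sp)))).congr (fun _ _ => .of_forall fun _ => rfl)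
      fun x _ => by simp
  have R : ∀ x ∈ Sᶜ, ∀ᶠ q : α × M in (𝒰 : Filter α) ×ˢ 𝓝 x,
      RedOn (G q.1).F m₀ (Ws (G q.1).F (W q.1) W₀ (u q.1)) {q.2} (fun x => cj (u q.1 x) (ξ q.1 x)) ∧
      ∀ a b, fF (G q.1).F (m q.1) (W q.1) (ξ q.1) a b q.2 = fF (G q.1).F m₀
        (Ws (G q.1).F (W q.1) W₀ (u q.1)) (fun x => cj (u q.1 x) (ξ q.1 x)) a b q.2 := by
    intro x hx
    obtain ⟨O, hO, h1, h2⟩ := hu x hx
    filter_upwards [h2.prod_mk (hO.mem_nhds h1),
      eventually_all.2 fun a => ((hW a).mb 0 x hx).smooth] with q ⟨⟨k1, k2, k3, k4⟩, k5⟩ k6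
    exact ⟨(k4.push k1 hO k2 (Pj41.OK.on H _) k3 fun a y _ => C₀.sk a y).mono
      (singleton_subset_iff.2 k5), fun a b => (fF_push k1 hO k2 (Pj41.OK.on H _) k3
        (fun a y _ => C₀.sk a y) k5 k6 (k4.mem _ k5) a b).symm⟩
  obtain ⟨η, hη⟩ := (mb_red (ξ := fun n x => cj (u n x) (ξ n x)) f H hW
    fun x hx => (R x hx).mono fun _ k => k.1).exists_cv
  have R₀ := redOn_lim f hS.op hW hη fun x hx => Pat85.ev_at (p := fun n y => RedOn (G n).F m₀
    (Ws (G n).F (W n) W₀ (u n)) {y} fun x => cj (u n x) (ξ n x)) ((R x hx).mono fun _ k => k.1)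
  obtain ⟨ξ₀, s, e⟩ := hS.ext_par h4 G₀.F (Wz78.con_adW C₀).sm (f := η) (C := 4) fun x hx =>
    ⟨R₀.sm x hx, by
      rw [← sq_le_sq₀ (norm_nonneg _) (by norm_num), norm_sq H (R₀.mem x hx) (R₀.sq x hx)]
      norm_num, R₀.par x hx⟩
  have hξ : Cv I 𝒰 Sᶜ (fun n x => cj (u n x) (ξ n x)) ξ₀ :=
    hη.congr (fun _ _ => .of_forall fun _ => rfl) e
  refine ⟨ξ₀, RedOn.of_dense ⟨fun x _ => s x, fun x hx => e hx ▸ R₀.mem x hx,
    fun x hx => e hx ▸ R₀.sq x hx, fun x hx a => ?_⟩ (hS.dense I h4) s hB hG₀ H C₀, hξ,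
    fun a b => (cv_fF f hS.op H hW hξ hB a b).congr
      (fun x hx => (R x hx).mono fun _ k => k.2 a b) fun _ _ => rfl⟩
  rw [nab_congr a ((hS.op.eventually_mem hx).mono e)]
  exact R₀.par x hx a

/-- the half condition passes to the limit -/
theorem half_pun (h4 : 3 < Module.finrank ℝ E) (hS : Dsc S) {Φ : ∀ n, M → (m n).V} {Φ₀ : M → m₀.V}
    {ξ₀ : M → m₀.A} (s : An.Sm I ξ₀) (s' : An.Sm I Φ₀)
    (hu : ∀ x ∉ S, ∃ O, x ∈ O ∧ ∀ᶠ n in (𝒰 : Filter α), Iso0 I (m n) m₀ O (u n) ∧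
      OKOn I B (m n) O ∧ ξ n x ∈ (m n).gS x ∧ opL (ξ n x) (Φ n x) = (m n).J (Φ n x))
    (hξ : Cv I 𝒰 Sᶜ (fun n x => cj (u n x) (ξ n x)) ξ₀)
    (hΦ : Cv I 𝒰 Sᶜ (fun n x => u n x (Φ n x)) Φ₀) (x : M) :
    opL (ξ₀ x) (Φ₀ x) = m₀.J (Φ₀ x) :=
  half_of_dense (hS.dense I h4) s s' (fun x hx => let ⟨_, h1, h2⟩ := hu x hx
    half_lim hξ hΦ hx (h2.mono fun _ k => cj_half k.1 h1 k.2.1 k.2.2.1 k.2.2.2)) x

end lim

/-! ### integrals -/

theorem null_pt (h0 : 0 < Module.finrank ℝ E) (F : Pre I M ι) (x : M) : F.μ {x} = 0 := by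
  obtain ⟨O, ρ, h, -⟩ := F.dens x
  have : Nontrivial E := Module.nontrivial_of_finrank_pos h0
  have h1 : (F.μ.restrict O).map (extChartAt I x) {extChartAt I x x} = 0 := by
    rw [h.2.2.2]
    refine withDensity_absolutelyContinuous _ _ (nonpos_iff_eq_zero.1 ?_)
    refine (Measure.restrict_apply_le _ _).trans ?_
    rw [leb, measure_singleton]
  rw [← Measure.restrict_eq_self _ (singleton_subset_iff.2 h.2.1)]
  refine nonpos_iff_eq_zero.1 (h1 ▸ (measure_mono ?_).trans (Measure.le_map_apply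
    (Met55.dens_aem h) _))
  rintro _ rfl
  rfl

theorem tail_le [CompactSpace M] (μ : Measure M) [IsFiniteMeasure μ] {K : Set M} (hK : IsCompact K)
    {f : M → ℝ} (hf : Continuous f) {δ : ℝ} (hδ : 0 < δ) :
    |∫ x, f x ∂μ - ∫ x in K, f x ∂μ| ≤
      δ * ∫ x, f x ^ 2 ∂μ + δ⁻¹ * (∫ _, (1 : ℝ) ∂μ - ∫ _ in K, (1 : ℝ) ∂μ) := by
  have ig : ∀ {g : M → ℝ}, Continuous g → Integrable g μ := fun hg =>
    hg.integrable_of_hasCompactSupport (HasCompactSupport.of_compactSpace _)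
  have e : ∀ {g : M → ℝ}, Continuous g → ∫ x, g x ∂μ - ∫ x in K, g x ∂μ = ∫ x in Kᶜ, g x ∂μ :=
    fun hg => by rw [← integral_add_compl hK.measurableSet (ig hg), add_sub_cancel_left]
  rw [e hf, e continuous_const]
  refine (norm_integral_le_of_norm_le (f := f) (g := fun x => δ * f x ^ 2 + δ⁻¹ * 1)
    (ig (by fun_prop)).integrableOn (.of_forall fun x => ?_)).trans ?_
  · rw [Real.norm_eq_abs, ← sq_abs, ← mul_le_mul_iff_right₀ hδ, mul_add, mul_inv_cancel_left₀ hδ.ne']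
    nlinarith [sq_nonneg (δ * |f x| - 1), mul_pos hδ hδ, abs_nonneg (f x)]
  · rw [integral_add (ig (by fun_prop)).integrableOn (ig (by fun_prop)).integrableOn,
      integral_const_mul, integral_const_mul]
    exact add_le_add (mul_le_mul_of_nonneg_left (setIntegral_le_integral (ig (hf.pow 2))
      (.of_forall fun _ => sq_nonneg _)) hδ.le) le_rfl

/-- **integrals of functions bounded in `L²` converge** -/
theorem tend_int [CompactSpace M] [l.NeBot] {F : α → Fr I M ι} {F₀ : Fr I M ι}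
    (h : Loc66.FCv l univ F F₀) (hF : ∀ᶠ n in l, (F n).IsVol) (h₀ : F₀.IsVol) (hS : IsOpen Sᶜ)
    (h0 : F₀.μ S = 0) {f : α → M → ℝ} {g : M → ℝ} (hf : Cv I l Sᶜ f g) (hg : Continuous g) {R : ℝ}
    (hR : ∀ᶠ n in l, Continuous (f n) ∧ ∫ x, f n x ^ 2 ∂(F n).μ ≤ R) :
    Tendsto (fun n => ∫ x, f n x ∂(F n).μ) l (𝓝 (∫ x, g x ∂F₀.μ)) := by
  have fin : ∀ F : Fr I M ι, IsFiniteMeasure F.μ := fun _ => CompactSpace.isFiniteMeasure
  rw [Metric.tendsto_nhds]
  intro ε hε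
  set T := |R| + |∫ x, g x ^ 2 ∂F₀.μ| + 1 with hT
  have T0 : 0 < T := by positivity
  set δ := ε / 4 / T with hδ
  have δ0 : 0 < δ := by positivity
  obtain ⟨K, k1, hK, k2⟩ := hS.measurableSet.exists_isCompact_sdiff_lt (μ := F₀.μ)
    (measure_ne_top _ _) (ε := ENNReal.ofReal (δ * (ε / 4))) (by simpa using by positivity)
  have one := fun K' (hK' : IsCompact K') => h.setIntegral isOpen_univ hF h₀
    (Cv.const (1 : ℝ)) hK' (subset_univ _) hK'.measurableSet subset_rfl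
  have b : ∫ _, (1 : ℝ) ∂F₀.μ - ∫ _ in K, (1 : ℝ) ∂F₀.μ < δ * (ε / 4) := by
    rw [← integral_add_compl hK.measurableSet (integrable_const _), add_sub_cancel_left,
      setIntegral_const, smul_eq_mul, mul_one]
    refine ENNReal.toReal_lt_of_lt_ofReal (lt_of_le_of_lt ?_ k2)
    refine (measure_mono (t := S ∪ (Sᶜ \ K)) fun y hy => ?_).trans
      ((measure_union_le _ _).trans (by rw [h0, zero_add]))
    exact (em (y ∈ S)).imp id fun k => ⟨k, hy⟩
  have t1 := ((one _ isCompact_univ).sub (one _ hK)).eventually (gt_mem_nhds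
    (by simpa only [Measure.restrict_univ] using b))
  have t2 := Metric.tendsto_nhds.1 ((h.mono le_rfl (subset_univ _)).setIntegral hS hF h₀ hf hK k1
    hK.measurableSet subset_rfl) (ε / 4) (by positivity)
  have q : ∀ z, z < δ * (ε / 4) → δ⁻¹ * z < ε / 4 := fun z hz => (inv_mul_lt_iff₀ δ0).2 hz
  have r : δ * T = ε / 4 := div_mul_cancel₀ _ T0.ne'
  filter_upwards [t1, t2, hR] with n a1 a2 a3
  rw [Measure.restrict_univ] at a1
  have b1 := abs_le.1 (tail_le (F n).μ hK a3.1 δ0)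
  have b2 := abs_le.1 (tail_le F₀.μ hK hg δ0)
  have b3 := mul_le_mul_of_nonneg_left (a3.2.trans (le_abs_self R)) δ0.le
  have b4 := mul_le_mul_of_nonneg_left (le_abs_self (∫ x, g x ^ 2 ∂F₀.μ)) δ0.le
  rw [Real.dist_eq, abs_lt] at a2 ⊢
  have := q _ a1
  have := q _ b
  rw [hT, mul_add, mul_add] at r
  constructor <;> linarith [a2.1, a2.2, b1.1, b1.2, b2.1, b2.2]

end Crest.Agent.X212.Abel74
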