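import Crest.Agent.X212.Abel74.Red
import Crest.Agent.X212.Wrd81.Gau
import Crest.Agent.X212.Eqv71.Res
import Crest.Agent.X212.Cht98.Br

/-!
# Row 212, ABEL (helper74): vanishing of all weight two scalars gives a point of type S
-/

set_option autoImplicit false
set_option linter.unusedSectionVars false
noncomputable section
open scoped Manifold ContDiff Topology InnerProductSpace
open Set Filter MeasureTheory

namespace Crest.Agent.X212.Abel74
open An Wz78 Wrd81 Sob92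

variable {E : Type} [NormedAddCommGroup E] [NormedSpace ℝ E] [FiniteDimensional ℝ E]
  [MeasurableSpace E] [BorelSpace E]
  {HM : Type} [TopologicalSpace HM] {I : ModelWithCorners ℝ E HM} [I.Boundaryless]
  {M : Type} [TopologicalSpace M] [ChartedSpace HM M] [IsManifold I ∞ M]
  [MeasurableSpace M] [T2Space M] [BorelSpace M] [SecondCountableTopology M]
  {ι : Type} [Fintype ι] {lam : Type} [Fintype lam] {r : ℕ}
  {B : Base M ι lam} {G : Geo I M ι lam} {m : Md M ι lam} {W : m.Cn} {K Ω : Set M}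

/-- a parallel isotropic invariant projector on a piece gives a reduction on the piece -/
theorem red_of_half (hB : B.OK I) (H : m.OK I B) (C : m.IsConn B G W) (hK : IsClopen K)
    {π : M → En (Fin m.N)} (hs : Sm I π) (hp : ∀ a x, nabE I G.F.e W a π x = 0)
    (h : ∀ x ∈ K, Hf m x (π x)) (hj : ∀ x ∈ K, ∀ s, π x * m.j x s * π x = 0)
    (h0 : ∀ x ∈ K, π x ≠ 0) : ∃ ξ : M → m.A, Sm I ξ ∧ (∀ x, ξ x ∈ m.gS x) ∧
      (∀ a x, nab I G.F.e (m.adW W) a ξ x = 0) ∧ (∀ x ∉ K, ξ x = 0) ∧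
      ∀ x ∈ K, opL (ξ x) * opL (ξ x) = -m.p x ∧ hf m x (ξ x) = π x := by
  have s1 : ∀ x, SA I (fun x => (2 : ℝ) • π x - m.p x) x := fun x =>
    (SA.smul contMDiffAt_const (hs x)).sub (H.sp x)
  have s2 : ∀ x, SA I (fun x => m.J * ((2 : ℝ) • π x - m.p x)) x := fun x =>
    SA.mul contMDiffAt_const (s1 x)
  refine ⟨K.indicator fun x => hsL (m.J * ((2 : ℝ) • π x - m.p x)),
    Eqv71.sm_ind hK fun x _ => SA.clm hsL (s2 x), fun x => ?_, fun a x => ?_,
    fun x hx => indicator_of_notMem hx _, fun x hx => ?_⟩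
  · by_cases hx : x ∈ K
    · have k := h x hx
      rw [indicator_of_mem hx]
      exact mem_of_half H k.sym k.p k.J.symm (fun a => (k.ρ a).symm) (half hB H k.sym k.idem k.p
        k.J.symm (fun a => (k.ρ a).symm) (hj x hx) (h0 x hx))
    · rw [indicator_of_notMem hx]; exact zero_mem _
  · by_cases hx : x ∈ K
    · rw [nab_congr a (Eqv71.ind_ev hK.2 hx _), hsL_nab a (s2 x),
        nabE_mul a contMDiffAt_const (s1 x), nabE_J C,
        nabE_sub a (SA.smul contMDiffAt_const (hs x)) (H.sp x), nabE_smul a contMDiffAt_const (hs x),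
        hp, show nabE I G.F.e W a m.p x = 0 from C.cc.par a x]
      simp
    · rw [nab_congr a (Eqv71.ind_ev0 hK.1 hx _)]
      simp [nab]
  · have k := h x hx
    rw [indicator_of_mem hx, hf, opL_hsL, ← mul_assoc m.J m.J, H.Jsq]
    exact ⟨sq_of_half H k.idem k.p (k.p' H) k.J.symm, by rw [neg_one_mul]; module⟩

variable {c : Cfg M ι lam r}

/-- type S on a piece -/
theorem exists_spt_on (h : Pc c B G K Ω) (hΦ : ∀ x ∈ K, ∃ y ∈ connectedComponent x, c.Φ y ≠ 0)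
    (hs : ∀ g : Sg M lam, SgIn I Ω g → c.sg G.F g = 0) :
    ∃ ξ : M → c.m.A, Sm I ξ ∧ (∀ x, ξ x ∈ c.m.gS x) ∧
      (∀ a x, nab I G.F.e (c.m.adW c.W) a ξ x = 0) ∧ (∀ x ∉ K, ξ x = 0) ∧
      ∀ x ∈ K, opL (ξ x) * opL (ξ x) = -c.m.p x ∧ opL (ξ x) (c.Φ x) = c.m.J (c.Φ x) := by
  obtain ⟨π, p⟩ := h.exists_sp
  obtain ⟨ξ, h1, h2, h3, h4, h5⟩ := red_of_half h.hB h.ok h.conn h.cl p.sm p.toPrj.nabE
    (fun x _ => p.hf x) (p.half h hs) (p.ne_zero hΦ h.cl)
  exact ⟨ξ, h1, h2, h3, h4, fun x hx => ⟨(h5 x hx).1, xi_of_hf h.ok (h2 x) (h5 x hx).1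
    (by rw [(h5 x hx).2]; exact p.fix _ ⟨[], swIn_nil, rfl⟩ x hx)⟩⟩

theorem exists_spt_of (h : Pc c B G univ Ω) (hΦ : ∀ x, ∃ y ∈ connectedComponent x, c.Φ y ≠ 0)
    (hs : ∀ g : Sg M lam, SgIn I Ω g → c.sg G.F g = 0) : ∃ ξ, SPt G.F c ξ :=
  let ⟨ξ, h1, h2, h3, _, h5⟩ := exists_spt_on h (fun x _ => hΦ x) hs
  ⟨ξ, ⟨h1, h2, fun x => (h5 x trivial).1, h3⟩, fun x => (h5 x trivial).2⟩

theorem rh_closed [CompactSpace M] (h4 : Module.finrank ℝ E ≤ 4) {V : Type} [NormedAddCommGroup V]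
    [InnerProductSpace ℝ V] [FiniteDimensional ℝ V] {F : Fr I M ι} {A : ι → M → V →L[ℝ] V}
    (hA : Mp86.Mc I A) (hP : ∀ a x, ∑ b, F.P a b x • A b x = A a x) : RH F A :=
  let ⟨_, hF⟩ := Cht98.exists_tame F h4
  rh_of_tame hF (fun a => Cb_of_compact (hA.sm a)) hA.sk hP

theorem pc_closed [CompactSpace M] (h4 : Module.finrank ℝ E ≤ 4) (hB : B.OK I) (hG : G.OK B)
    (H : c.m.OK I B) (C : c.m.IsConn B G c.W) (hs : Sm I c.Φ)
    (hp : ∀ x, c.m.pp B x (c.Φ x) = c.Φ x) : Pc c B G univ univ :=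
  ⟨hB, hG, H, C, hs, fun x => by rw [← hp, ← mul_apply_eq_comp, p_pp H],
    rh_closed h4 (mcW C) (hG.P ▸ C.cc.proj), rh_closed h4 (mcA C) (hG.P ▸ (con_adW C).proj),
    isClopen_univ, isOpen_univ, by simp⟩

/-- **on a closed connected manifold: all weight two scalars vanish and `Φ ≠ 0` gives type S** -/
theorem exists_spt [CompactSpace M] [PreconnectedSpace M] (h4 : Module.finrank ℝ E ≤ 4)
    (hB : B.OK I) (hG : G.OK B) (A : c.Adm B G) (hΦ : c.Φ ≠ 0)
    (hs : ∀ g : Sg M lam, g.OK G.F → c.sg G.F g = 0) : ∃ ξ, SPt G.F c ξ :=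
  let ⟨y, hy⟩ := Function.ne_iff.1 hΦ
  exists_spt_of (pc_closed h4 hB hG A.ok A.conn A.sm A.pos)
    (fun x => ⟨y, by rw [PreconnectedSpace.connectedComponent_eq_univ]; trivial, hy⟩)
    fun g hg => hs g (hg.ok G.F)

/-- the section of a point of type S is unique where the spinor does not vanish -/
theorem xi_eq (hB : B.OK I) (H : m.OK I B) {x : M} {ξ η : m.A} (hξ : ξ ∈ m.gS x)
    (h : opL ξ * opL ξ = -m.p x) (hη : η ∈ m.gS x) (h' : opL η * opL η = -m.p x) {v : m.V}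
    (hv : m.p x v = v) (h0 : v ≠ 0) (h1 : opL ξ v = m.J v) (h2 : opL η v = m.J v) : ξ = η := by
  have e := congrArg (· v) (g_anti hB H hξ hη)
  have JJ : m.J (m.J v) = -v := by rw [← mul_apply_eq_comp, H.Jsq]; rfl
  simp only [add_apply, mul_apply_eq_comp, h1, h2, smul_apply, hv] at e
  rw [← mul_apply_eq_comp, ← g_J hξ, ← mul_apply_eq_comp (opL η), ← g_J hη, mul_apply_eq_comp,
    mul_apply_eq_comp, h1, h2, JJ, ← two_smul ℝ, smul_neg, ← neg_smul] at e
  have e2 := smul_left_injective ℝ h0 e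
  rw [← sub_eq_zero, ← norm_eq_zero, ← pow_eq_zero_iff two_ne_zero, norm_sub_sq_real,
    norm_sq H hξ h, norm_sq H hη h']
  linarith

end Crest.Agent.X212.Abel74
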